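import Crest.Agent.N067.A.Calc

/-!
# Row 67, basics: the Alberti-Ambrosio-Cabré energy bound (helper85)
-/

set_option autoImplicit false

open MeasureTheory Laplacian InnerProductSpace Topology Filter Set Metric
open scoped RealInnerProductSpace Gradient ContDiff

namespace Crest.Agent.N067

open Crest.Agent.R077

noncomputable section

namespace Aac

theorem exists_deriv_bound : ∃ M : ℝ, 0 ≤ M ∧ ∀ s, |deriv Real.smoothTransition s| ≤ M ∧
    (s < 0 ∨ 1 < s → deriv Real.smoothTransition s = 0) := by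
  have hc : Continuous (deriv Real.smoothTransition) :=
    (Real.smoothTransition.contDiff (n := 1)).continuous_deriv le_rfl
  obtain ⟨M, hM⟩ := isCompact_Icc.exists_bound_of_continuousOn
    (s := Icc (0 : ℝ) 1) hc.continuousOn
  have h0 : ∀ s, s < 0 ∨ 1 < s → deriv Real.smoothTransition s = 0 := by
    rintro s (h | h)
    · have : Real.smoothTransition =ᶠ[𝓝 s] fun _ => 0 := by
        filter_upwards [Iio_mem_nhds h] with t ht using Real.smoothTransition.zero_of_nonpos ht.le
      rw [this.deriv_eq]; simp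
    · have : Real.smoothTransition =ᶠ[𝓝 s] fun _ => 1 := by
        filter_upwards [Ioi_mem_nhds h] with t ht using Real.smoothTransition.one_of_one_le ht.le
      rw [this.deriv_eq]; simp
  refine ⟨max M 0, le_max_right _ _, fun s => ⟨?_, h0 s⟩⟩
  by_cases hs : s ∈ Icc (0 : ℝ) 1
  · exact (hM s hs).trans (le_max_left _ _)
  · rw [h0 s (by simpa only [mem_Icc, not_and_or, not_le] using hs)]; simp

theorem vol_shell (n : ℕ) : ∃ C : ℝ, 0 ≤ C ∧ ∀ (x : EE (n + 1)) (R : ℝ), 1 ≤ R →
    volume.real (closedBall x (R + 1) \ ball x R) ≤ C * R ^ n := by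
  refine ⟨volume.real (ball (0 : EE (n + 1)) 1) * ((n + 1) * 2 ^ n), by positivity, fun x R hR => ?_⟩
  have hsub : ball x R ⊆ closedBall x (R + 1) :=
    ball_subset_closedBall.trans (closedBall_subset_closedBall (by linarith))
  rw [measureReal_sdiff hsub measurableSet_ball (measure_closedBall_lt_top.ne),
    ← Measure.addHaar_real_closedBall_eq_addHaar_real_ball _ x R,
    Measure.addHaar_real_closedBall _ x (by linarith), Measure.addHaar_real_closedBall _ x (by linarith),
    finrank_euclideanSpace_fin, ← sub_mul, mul_comm, mul_assoc]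
  refine mul_le_mul_of_nonneg_left ?_ measureReal_nonneg
  have h := abs_pow_sub_pow_le (a := R + 1) (b := R) (n := n + 1)
  rw [abs_of_nonneg (by linarith : 0 ≤ R + 1), abs_of_nonneg (by linarith : 0 ≤ R),
    max_eq_left (by linarith), Nat.add_sub_cancel] at h
  have h2 : (R + 1) ^ n ≤ 2 ^ n * R ^ n := by
    rw [← mul_pow]; exact pow_le_pow_left₀ (by linarith) (by linarith) n
  refine (le_abs_self _).trans (h.trans ?_)
  have : |R + 1 - R| = 1 := by simp
  rw [this, one_mul, mul_assoc]
  push_cast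
  exact mul_le_mul_of_nonneg_left h2 (by positivity)

/-- cut-off of a ball with `∫ |∇η| ≤ C Rⁿ` -/
theorem exists_cut (n : ℕ) : ∃ C : ℝ, 0 ≤ C ∧ ∀ (x : EE (n + 1)) (R : ℝ), 1 ≤ R →
    ∃ η : EE (n + 1) → ℝ, ContDiff ℝ 1 η ∧ HasCompactSupport η ∧ (∀ z, 0 ≤ η z ∧ η z ≤ 1) ∧
      (∀ z ∈ ball x R, η z = 1) ∧ (∀ z ∉ ball x (R + 1), η z = 0) ∧
      ∫ z, ∑ i, |pdv i η z| ≤ C * R ^ n := by
  obtain ⟨M, hM0, hM⟩ := exists_deriv_bound
  obtain ⟨C, hC0, hC⟩ := vol_shell n
  refine ⟨(n + 1) * (2 * M) * C, by positivity, fun x R hR => ?_⟩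
  have hR2 : 0 < 2 * R + 1 := by linarith
  set g : EE (n + 1) → ℝ := fun z => ((R + 1) ^ 2 - ‖z - x‖ ^ 2) / (2 * R + 1) with hg
  have hsq : ContDiff ℝ 1 fun z : EE (n + 1) => ‖z - x‖ ^ 2 :=
    (contDiff_id.sub contDiff_const).norm_sq ℝ
  have hgc : ContDiff ℝ 1 g := (contDiff_const.sub hsq).div_const _
  have hη : ContDiff ℝ 1 fun z => Real.smoothTransition (g z) :=
    Real.smoothTransition.contDiff.comp hgc
  have hz0 : ∀ z ∉ ball x (R + 1), g z ≤ 0 := fun z hz => by
    rw [mem_ball, dist_eq_norm, not_lt] at hz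
    exact div_nonpos_of_nonpos_of_nonneg (by nlinarith) hR2.le
  have hz0' : ∀ z ∉ closedBall x (R + 1), g z < 0 := fun z hz => by
    rw [mem_closedBall, dist_eq_norm, not_le] at hz
    exact div_neg_of_neg_of_pos (by nlinarith) hR2
  have hz1 : ∀ z ∈ ball x R, 1 < g z := fun z hz => by
    rw [mem_ball, dist_eq_norm] at hz
    rw [hg, lt_div_iff₀ hR2]
    nlinarith [norm_nonneg (z - x)]
  have hp : ∀ i z, pdv i (fun z => Real.smoothTransition (g z)) z =
      deriv Real.smoothTransition (g z) * (-(2 * (z i - x i)) / (2 * R + 1)) := fun i z => by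
    rw [pdv_comp ((Real.smoothTransition.contDiff (n := 1)).differentiable one_ne_zero _).hasDerivAt
      (hgc.differentiable one_ne_zero z)]
    congr 1
    have : g = fun z => (2 * R + 1)⁻¹ * ((R + 1) ^ 2 - ‖z - x‖ ^ 2) := by
      funext z; rw [hg]; ring
    rw [this, pdv_const_mul ((contDiff_const.sub hsq).differentiable one_ne_zero z), pdv_const_sub,
      pdv_normSq]
    ring
  refine ⟨_, hη, HasCompactSupport.intro (isCompact_closedBall x (R + 1)) fun z hz =>
    Real.smoothTransition.zero_of_nonpos (hz0' z hz).le,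
    fun z => ⟨Real.smoothTransition.nonneg _, Real.smoothTransition.le_one _⟩,
    fun z hz => Real.smoothTransition.one_of_one_le (hz1 z hz).le,
    fun z hz => Real.smoothTransition.zero_of_nonpos (hz0 z hz), ?_⟩
  have hms : MeasurableSet (closedBall x (R + 1) \ ball x R) :=
    measurableSet_closedBall.diff measurableSet_ball
  calc _ ≤ ∫ z, (closedBall x (R + 1) \ ball x R).indicator (fun _ => (n + 1 : ℝ) * (2 * M)) z := by
        refine integral_mono_of_nonneg (ae_of_all _ fun z => Finset.sum_nonneg fun _ _ =>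
          abs_nonneg _) ((integrableOn_const ((measure_mono sdiff_subset).trans_lt
            measure_closedBall_lt_top).ne).integrable_indicator hms) (ae_of_all _ fun z => ?_)
        by_cases hz : z ∈ closedBall x (R + 1) \ ball x R
        · rw [indicator_of_mem hz]
          have hb : ∀ i, |pdv i (fun z => Real.smoothTransition (g z)) z| ≤ 2 * M := fun i => by
            have h1 : |z i - x i| ≤ R + 1 := by
              have := PiLp.norm_apply_le (z - x) i
              have h2 := hz.1
              rw [mem_closedBall, dist_eq_norm] at h2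
              exact le_trans (by simpa using this) h2
            rw [hp, abs_mul, mul_comm 2 M]
            refine mul_le_mul (hM _).1 ?_ (abs_nonneg _) hM0
            rw [abs_div, abs_neg, abs_mul, abs_of_pos hR2, div_le_iff₀ hR2, abs_two]
            linarith
          simpa using Finset.sum_le_card_nsmul Finset.univ _ _ fun i _ => hb i
        · rw [indicator_of_notMem hz]
          have : deriv Real.smoothTransition (g z) = 0 := by
            refine (hM _).2 ?_
            by_cases h : z ∈ closedBall x (R + 1)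
            · exact Or.inr (hz1 z (by by_contra h'; exact hz ⟨h, h'⟩))
            · exact Or.inl (hz0' z h)
          simp [hp, this]
    _ ≤ _ := by
        rw [integral_indicator_const _ hms, smul_eq_mul, mul_comm, mul_assoc ((n + 1 : ℝ) * (2 * M))]
        exact mul_le_mul_of_nonneg_left (hC x R hR) (by positivity)

variable {n : ℕ}

theorem en_eq (u : EE n → ℝ) : en u = fun z => 2⁻¹ * gsq u z + 4⁻¹ * (1 - u z ^ 2) ^ 2 := by
  funext z; rw [en, gsq_eq]; ring

theorem en_nonneg (u : EE n → ℝ) (z : EE n) : 0 ≤ en u z := by unfold en; positivity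

theorem contDiff_en {u : EE n → ℝ} (hu : ContDiff ℝ 2 u) : ContDiff ℝ 1 (en u) := by
  rw [en_eq]
  have h1 : ContDiff ℝ 1 (gsq u) :=
    contDiff_iff_contDiffAt.2 fun z => contDiffAt_gsq hu.contDiffAt (by norm_num)
  have h2 : ContDiff ℝ 1 u := hu.of_le (by norm_num)
  exact (contDiff_const.mul h1).add (contDiff_const.mul ((contDiff_const.sub (h2.pow 2)).pow 2))

theorem pdv_en {u : EE n → ℝ} (hu : IsSol u) (k : Fin n) (z : EE n) :
    pdv k (en u) z = ∑ i, pdv i (fun y => pdv i u y * pdv k u y) z := by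
  have h2 := hu.c2.contDiffAt (x := z)
  have d1 : DifferentiableAt ℝ (gsq u) z :=
    (contDiffAt_gsq (m := 1) h2 (by norm_num)).differentiableAt one_ne_zero
  have d2 : DifferentiableAt ℝ u z := h2.differentiableAt (by norm_num)
  have d3 : DifferentiableAt ℝ (fun y => 1 - u y ^ 2) z := (d2.pow 2).const_sub 1
  have d4 : DifferentiableAt ℝ (fun y => (1 - u y ^ 2) ^ 2) z := d3.pow 2
  rw [en_eq, pdv_add (d1.const_mul _) (d4.const_mul _), pdv_const_mul d1,
    pdv_const_mul d4, pdv_sq d3, pdv_const_sub, pdv_sq d2, pdv_gsq h2,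
    Finset.sum_congr rfl fun i _ => pdv_mul (diffAt_pdv h2 i) (diffAt_pdv h2 k) i,
    Finset.sum_add_distrib, ← Finset.sum_mul, ← lap_eq h2, hu.eq]
  simp only [pdv_comm h2 k]
  ring

theorem cont_pdv {f : EE n → ℝ} (hf : ContDiff ℝ 1 f) (i : Fin n) : Continuous (pdv i f) :=
  (contDiff_pdv (m := 0) hf (by norm_num) i).continuous

theorem cont_rho {η : EE n → ℝ} (hη : ContDiff ℝ 1 η) : Continuous fun z => ∑ i, |pdv i η z| :=
  continuous_finsetSum _ fun i _ => (cont_pdv hη i).abs

theorem supp_rho {η : EE n → ℝ} (hc : HasCompactSupport η) :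
    HasCompactSupport fun z => ∑ i, |pdv i η z| := by
  refine hc.mono' fun z hz => ?_
  by_contra h
  refine hz (Finset.sum_eq_zero fun i _ => ?_)
  rw [pdv, fderiv_of_notMem_tsupport ℝ h]; simp

/-- the flux inequality -/
theorem flux {u η : EE n → ℝ} (hu : IsSol u) (k : Fin n) (hk : ∀ z, 0 ≤ pdv k u z) {M : ℝ}
    (hM : ∀ i z, |pdv i u z| ≤ M) (hη : ContDiff ℝ 1 η) (hc : HasCompactSupport η) :
    0 ≤ (∫ z, η z * pdv k (en u) z) + M * ∫ z, (∑ i, |pdv i η z|) * pdv k u z := by
  have p1 : ∀ i, ContDiff ℝ 1 (pdv i u) := fun i => contDiff_pdv hu.c2 (by norm_num) i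
  have p2 : ∀ i, ContDiff ℝ 1 fun y => pdv i u y * pdv k u y := fun i => (p1 i).mul (p1 k)
  have i1 : ∀ i, Integrable fun z => pdv i (fun y => pdv i u y * pdv k u y) z * η z := fun i =>
    ((cont_pdv (p2 i) i).mul hη.continuous).integrable_of_hasCompactSupport hc.mul_left
  have i2 : ∀ i, Integrable fun z => pdv i u z * pdv k u z * pdv i η z := fun i =>
    ((p2 i).continuous.mul (cont_pdv hη i)).integrable_of_hasCompactSupport
      (hasCompactSupport_pdv hc i).mul_left
  have e : ∫ z, η z * pdv k (en u) z = -∫ z, ∑ i, pdv i u z * pdv k u z * pdv i η z := by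
    rw [integral_finsetSum _ fun i _ => i2 i, ← Finset.sum_neg_distrib,
      ← Finset.sum_congr rfl fun i _ => ibp_right (p2 i) hη hc i,
      ← integral_finsetSum _ fun i _ => i1 i]
    refine integral_congr_ae (ae_of_all _ fun z => ?_)
    simp only [pdv_en hu, Finset.mul_sum, mul_comm]
  rw [e, neg_add_eq_sub, sub_nonneg, ← integral_const_mul]
  refine integral_mono (integrable_finsetSum _ fun i _ => i2 i)
    ((((cont_rho hη).mul (p1 k).continuous).integrable_of_hasCompactSupport
      (supp_rho hc).mul_right).const_mul M) fun z => ?_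
  simp only [Finset.sum_mul, Finset.mul_sum]
  refine Finset.sum_le_sum fun i _ => ?_
  have h1 : pdv i u z * pdv i η z ≤ M * |pdv i η z| :=
    (le_abs_self _).trans (by rw [abs_mul]; exact mul_le_mul_of_nonneg_right (hM i z) (abs_nonneg _))
  have := mul_le_mul_of_nonneg_right h1 (hk z)
  calc _ = pdv i u z * pdv i η z * pdv k u z := by ring
    _ ≤ _ := this
    _ = _ := by ring

/-- differentiation of a translated pairing -/
theorem hasDerivAt_shift {a g : EE n → ℝ} (ha : Continuous a) (hc : HasCompactSupport a)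
    (hg : ContDiff ℝ 1 g) (k : Fin n) (s : ℝ) :
    HasDerivAt (fun s : ℝ => ∫ z, a z * g (z + s • ev k)) (∫ z, a z * pdv k g (z + s • ev k)) s := by
  have hK : IsCompact ((fun p : EE n × ℝ => p.1 + p.2 • ev k) '' (tsupport a ×ˢ closedBall s 1)) :=
    (hc.isCompact.prod (isCompact_closedBall s 1)).image (by fun_prop)
  obtain ⟨B, hB⟩ := hK.exists_bound_of_continuousOn (cont_pdv hg k).continuousOn
  have c1 : ∀ t : ℝ, Continuous fun z => a z * g (z + t • ev k) := fun t =>
    ha.mul (hg.continuous.comp (by fun_prop))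
  refine (hasDerivAt_integral_of_dominated_loc_of_deriv_le (μ := volume)
    (F := fun (t : ℝ) z => a z * g (z + t • ev k)) (F' := fun (t : ℝ) z => a z * pdv k g (z + t • ev k))
    (bound := fun z => |a z| * B) (ball_mem_nhds s one_pos)
    (Eventually.of_forall fun t => (c1 t).aestronglyMeasurable)
    ((c1 s).integrable_of_hasCompactSupport hc.mul_right)
    (ha.mul ((cont_pdv hg k).comp (by fun_prop))).aestronglyMeasurable
    (ae_of_all _ fun z t ht => ?_)
    ((ha.integrable_of_hasCompactSupport hc).abs.mul_const B) (ae_of_all _ fun z t _ => ?_)).2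
  · rw [norm_mul, Real.norm_eq_abs]
    by_cases hz : z ∈ tsupport a
    · exact mul_le_mul_of_nonneg_left (hB _ ⟨(z, t), ⟨hz, ball_subset_closedBall ht⟩, rfl⟩)
        (abs_nonneg _)
    · simp [image_eq_zero_of_notMem_tsupport hz]
  · have h1 : HasDerivAt (fun t : ℝ => z + t • ev k) (ev k) t := by
      simpa using ((hasDerivAt_id t).smul_const (ev k)).const_add z
    exact ((hg.differentiable one_ne_zero _).hasFDerivAt.comp_hasDerivAt t h1).const_mul (a z)

theorem pdv_shift (f : EE n → ℝ) (a : EE n) (i : Fin n) (z : EE n) :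
    pdv i (fun y => f (y + a)) z = pdv i f (z + a) := by
  rw [pdv, pdv, fderiv_comp_add_right]

theorem en_shift (u : EE n → ℝ) (a : EE n) : en (fun y => u (y + a)) = fun z => en u (z + a) := by
  funext z; simp only [en_eq, gsq, pdv_shift]

theorem isSol_shift {u : EE n → ℝ} (hu : IsSol u) (a : EE n) : IsSol fun y => u (y + a) := by
  have h2 : ContDiff ℝ 2 fun y => u (y + a) := hu.c2.comp (contDiff_id.add contDiff_const)
  refine ⟨h2, fun z => hu.bd _, fun z => ?_⟩
  rw [lap_eq h2.contDiffAt, ← hu.eq, lap_eq hu.c2.contDiffAt]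
  refine Finset.sum_congr rfl fun i _ => ?_
  rw [← pdv_shift]
  congr 1
  funext y
  exact pdv_shift u a i y

/-- the localised energy of the translates drops by at most `2 M ∫ |∇η|` -/
theorem drop {u η : EE n → ℝ} (hu : IsSol u) (k : Fin n) (hk : ∀ z, 0 ≤ pdv k u z) {M : ℝ}
    (hM0 : 0 ≤ M) (hM : ∀ i z, |pdv i u z| ≤ M) (hη : ContDiff ℝ 1 η) (hc : HasCompactSupport η)
    {s : ℝ} (hs : 0 ≤ s) :
    ∫ z, η z * en u z ≤ (∫ z, η z * en u (z + s • ev k)) + 2 * M * ∫ z, ∑ i, |pdv i η z| := by
  have u1 : ContDiff ℝ 1 u := hu.c2.of_le (by norm_num)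
  have hd := fun t => (hasDerivAt_shift hη.continuous hc (contDiff_en hu.c2) k t).add
    ((hasDerivAt_shift (cont_rho hη) (supp_rho hc) u1 k t).const_mul M)
  have hm := monotone_of_deriv_nonneg (fun t => (hd t).differentiableAt) (fun t => by
    rw [(hd t).deriv]
    have := flux (isSol_shift hu (t • ev k)) k (fun z => by rw [pdv_shift]; exact hk _)
      (fun i z => by rw [pdv_shift]; exact hM i _) hη hc
    simpa only [en_shift, pdv_shift] using this) hs
  simp only [Pi.add_apply, zero_smul, add_zero] at hm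
  have ir := (cont_rho hη).integrable_of_hasCompactSupport (μ := volume) (supp_rho hc)
  have hb : ∀ a : EE n, |∫ z, (∑ i, |pdv i η z|) * u (z + a)| ≤ ∫ z, ∑ i, |pdv i η z| := fun a => by
    rw [← Real.norm_eq_abs]
    refine norm_integral_le_of_norm_le ir (ae_of_all _ fun z => ?_)
    have h0 : 0 ≤ ∑ i, |pdv i η z| := Finset.sum_nonneg fun _ _ => abs_nonneg _
    rw [norm_mul, Real.norm_of_nonneg h0]
    exact mul_le_of_le_one_right h0 (hu.bd _)
  have h1 := mul_le_mul_of_nonneg_left (abs_le.1 (hb (s • ev k))).2 hM0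
  have h2 := mul_le_mul_of_nonneg_left (abs_le.1 (hb 0)).1 hM0
  simp only [add_zero] at h2
  linarith

theorem abs_pdv_le (f : EE n → ℝ) (i : Fin n) (z : EE n) :
    |pdv i f z| ≤ ‖iteratedFDeriv ℝ 1 f z‖ := by
  rw [norm_iteratedFDeriv_one]
  simpa [pdv] using (fderiv ℝ f z).le_opNorm (ev i)

theorem snoc_eq (z : EE (n + 1)) (s : ℝ) :
    z + s • ev (Fin.last n) = snoc (init z) (z (Fin.last n) + s) := by
  ext i
  refine Fin.lastCases ?_ (fun j => ?_) i
  · simp [snoc]
  · simp [snoc, init, Fin.init, (Fin.castSucc_lt_last j).ne]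

theorem setInt_le {f η : EE n → ℝ} (hf : Continuous f) (h0 : ∀ z, 0 ≤ f z) (hη : Continuous η)
    (hc : HasCompactSupport η) (hη0 : ∀ z, 0 ≤ η z) {x : EE n} {R : ℝ}
    (h1 : ∀ z ∈ ball x R, η z = 1) : ∫ z in ball x R, f z ≤ ∫ z, η z * f z := by
  rw [← setIntegral_congr_fun measurableSet_ball
    (fun z hz => by simp only [h1 z hz, one_mul] : EqOn (fun z => η z * f z) f (ball x R))]
  exact setIntegral_le_integral ((hη.mul hf).integrable_of_hasCompactSupport hc.mul_right)
    (ae_of_all _ fun z => mul_nonneg (hη0 z) (h0 z))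

theorem le_setInt {f η : EE n → ℝ} (hf : Continuous f) (h0 : ∀ z, 0 ≤ f z)
    (hη : ∀ z, 0 ≤ η z ∧ η z ≤ 1) {x : EE n} {R : ℝ}
    (h1 : ∀ z ∉ ball x R, η z = 0) : ∫ z, η z * f z ≤ ∫ z in ball x R, f z := by
  rw [← setIntegral_eq_integral_of_forall_compl_eq_zero (s := ball x R)
    fun z hz => by rw [h1 z hz, zero_mul]]
  exact integral_mono_of_nonneg (ae_of_all _ fun z => mul_nonneg (hη z).1 (h0 z))
    ((hf.continuousOn.integrableOn_compact (isCompact_closedBall x R)).mono_set
      ball_subset_closedBall) (ae_of_all _ fun z => mul_le_of_le_one_left (h0 z) (hη z).2)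

theorem hasDerivAt_tanh (s : ℝ) : HasDerivAt Real.tanh (1 - Real.tanh s ^ 2) s := by
  have hc := (Real.cosh_pos s).ne'
  have h := (Real.hasDerivAt_sinh s).div (Real.hasDerivAt_cosh s) hc
  have e : Real.tanh = Real.sinh / Real.cosh := funext fun t => Real.tanh_eq_sinh_div_cosh t
  rw [← e] at h
  have e2 : 1 - Real.tanh s ^ 2 =
      (Real.cosh s * Real.cosh s - Real.sinh s * Real.sinh s) / Real.cosh s ^ 2 := by
    rw [Real.tanh_eq_sinh_div_cosh s]; field_simp
  rw [e2]; exact h

/-- energy of a planar profile in a ball -/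
theorem planar_en (n : ℕ) : ∃ C : ℝ, 0 ≤ C ∧ ∀ (w : EE (n + 1) → ℝ), Planar w →
    ∀ (x : EE (n + 1)) (R : ℝ), 1 ≤ R → ∫ z in ball x R, en w z ≤ C * R ^ n := by
  obtain ⟨C, hC, h⟩ := exists_cut n
  refine ⟨C, hC, ?_⟩
  rintro w ⟨a, ha, b, hw⟩ x R hR
  obtain ⟨η, hη, hc, h01, h1, -, hi⟩ := h x R hR
  obtain rfl : w = fun x => Real.tanh ((⟪a, x⟫ - b) / Real.sqrt 2) := funext hw
  set g : EE (n + 1) → ℝ := fun x => (⟪a, x⟫ - b) / Real.sqrt 2 with hg
  have hin : ContDiff ℝ 2 fun y : EE (n + 1) => ⟪a, y⟫ := contDiff_const.inner ℝ contDiff_id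
  have gc : ContDiff ℝ 2 g := (hin.sub contDiff_const).div_const _
  have tc : ContDiff ℝ 2 Real.tanh := by
    have e : Real.tanh = fun t => Real.sinh t / Real.cosh t :=
      funext fun t => Real.tanh_eq_sinh_div_cosh t
    rw [e]
    exact Real.contDiff_sinh.div Real.contDiff_cosh fun t => (Real.cosh_pos t).ne'
  have w2 : ContDiff ℝ 2 fun x => Real.tanh (g x) := tc.comp gc
  have w1 : ContDiff ℝ 1 fun x => Real.tanh (g x) := w2.of_le (by norm_num)
  have hp : ∀ i z, pdv i (fun x => Real.tanh (g x)) z =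
      (1 - Real.tanh (g z) ^ 2) * ((Real.sqrt 2)⁻¹ * a i) := fun i z => by
    rw [pdv_comp (hasDerivAt_tanh _) (gc.differentiable (by norm_num) z)]
    congr 1
    have : g = fun x => (Real.sqrt 2)⁻¹ * (⟪a, x⟫ - b) := by funext x; rw [hg]; ring
    rw [this, pdv_const_mul ((hin.sub contDiff_const).differentiable (by norm_num) z),
      pdv_sub_const, pdv_inner]
  have ha2 : ∑ i, a i ^ 2 = 1 := by
    have := EuclideanSpace.real_norm_sq_eq a
    rw [ha] at this; linarith
  have hai : ∀ i, |a i| ≤ 1 := fun i => ha ▸ by simpa using PiLp.norm_apply_le a i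
  have hs2 : Real.sqrt 2 ^ 2 = 2 := Real.sq_sqrt (by norm_num)
  have hs0 : 0 < Real.sqrt 2 := by positivity
  have hen : ∀ z, en (fun x => Real.tanh (g x)) z ≤ ∑ i, a i * pdv i (fun x => Real.tanh (g x)) z :=
    fun z => by
      have t1 : Real.tanh (g z) ^ 2 ≤ 1 := (Real.tanh_sq_lt_one _).le
      have e1 : ∑ i, a i * pdv i (fun x => Real.tanh (g x)) z =
          (1 - Real.tanh (g z) ^ 2) * (Real.sqrt 2)⁻¹ * ∑ i, a i ^ 2 := by
        rw [Finset.mul_sum]; exact Finset.sum_congr rfl fun i _ => by rw [hp]; ring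
      have e2 : gsq (fun x => Real.tanh (g x)) z =
          (1 - Real.tanh (g z) ^ 2) ^ 2 * (Real.sqrt 2 ^ 2)⁻¹ * ∑ i, a i ^ 2 := by
        rw [gsq, Finset.mul_sum]; exact Finset.sum_congr rfl fun i _ => by rw [hp]; ring
      have e3 : 2⁻¹ ≤ (Real.sqrt 2)⁻¹ := inv_anti₀ hs0 (by nlinarith)
      rw [en_eq, e1]
      simp only [e2, ha2, hs2]
      have := mul_le_mul_of_nonneg_left e3 (sub_nonneg.2 t1)
      nlinarith [sq_nonneg (Real.tanh (g z))]
  have i1 : ∀ i, Integrable fun z => a i * (pdv i (fun x => Real.tanh (g x)) z * η z) := fun i =>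
    (((cont_pdv w1 i).mul hη.continuous).integrable_of_hasCompactSupport hc.mul_left).const_mul _
  refine (setInt_le (contDiff_en w2).continuous (en_nonneg _) hη.continuous hc (fun z => (h01 z).1)
    h1).trans (le_trans ?_ hi)
  calc _ ≤ ∫ z, ∑ i, a i * (pdv i (fun x => Real.tanh (g x)) z * η z) := by
        refine integral_mono_of_nonneg (ae_of_all _ fun z => mul_nonneg (h01 z).1 (en_nonneg _ z))
          (integrable_finsetSum _ fun i _ => i1 i) (ae_of_all _ fun z => ?_)
        refine (mul_le_mul_of_nonneg_left (hen z) (h01 z).1).trans (le_of_eq ?_)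
        rw [Finset.mul_sum]; exact Finset.sum_congr rfl fun i _ => by ring
    _ ≤ _ := by
        have i2 : ∀ i, Integrable fun z => |pdv i η z| := fun i =>
          ((cont_pdv hη i).integrable_of_hasCompactSupport (hasCompactSupport_pdv hc i)).abs
        rw [integral_finsetSum _ fun i _ => i1 i, integral_finsetSum _ fun i _ => i2 i]
        refine Finset.sum_le_sum fun i _ => ?_
        rw [integral_const_mul, ibp_right w1 hη hc i]
        refine (le_abs_self _).trans ?_
        rw [abs_mul, abs_neg, ← Real.norm_eq_abs (∫ _, _)]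
        refine (mul_le_of_le_one_left (norm_nonneg _) (hai i)).trans
          (norm_integral_le_of_norm_le (i2 i) (ae_of_all _ fun z => ?_))
        rw [norm_mul]
        exact mul_le_of_le_one_left (norm_nonneg _) (Real.abs_tanh_lt_one _).le

end Aac

open Aac

theorem aac_of (hR : RegStmt) (hL : LimStmt) : AACStmt := by
  intro n
  obtain ⟨M, hM⟩ := hR (n + 1) 1
  obtain ⟨C, hC, h⟩ := exists_cut n
  refine ⟨2 * max M 0 * C, fun u up hu hm hup x R hR1 => ?_⟩
  obtain ⟨η, hη, hc, h01, h1, h0, hi⟩ := h x R hR1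
  have hb : ∀ v : EE (n + 1) → ℝ, IsSol v → ∀ i z, |pdv i v z| ≤ max M 0 := fun v hv i z =>
    (abs_pdv_le v i z).trans (((hM v hv).2 z).trans (le_max_left _ _))
  obtain ⟨w, φ, hφ, hw, hlim⟩ := hL (n + 1) 1 (fun j z => u (z + (j : ℝ) • ev (Fin.last n)))
    fun j => isSol_shift hu _
  have l0 : ∀ z, Tendsto (fun j => u (z + (φ j : ℝ) • ev (Fin.last n))) atTop (𝓝 (w z)) := fun z => by
    have := ((continuous_eval_const (fun _ : Fin 0 => (0 : EE (n + 1)))).tendsto _).comp
      ((hlim 0 (by norm_num)).tendstoLocallyUniformlyOn.tendsto_at (mem_univ z))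
    simpa [Function.comp_def] using this
  have l1 : ∀ i z, Tendsto (fun j => pdv i u (z + (φ j : ℝ) • ev (Fin.last n))) atTop
      (𝓝 (pdv i w z)) := fun i z => by
    have := ((continuous_eval_const (fun _ : Fin 1 => ev i)).tendsto _).comp
      ((hlim 1 le_rfl).tendstoLocallyUniformlyOn.tendsto_at (mem_univ z))
    simpa [Function.comp_def, pdv, fderiv_comp_add_right] using this
  have hwu : w = fun z => up (init z) := by
    funext z
    refine tendsto_nhds_unique (l0 z) ?_
    simp only [snoc_eq]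
    exact (hup _).comp (tendsto_atTop_add_const_left _ _
      (tendsto_natCast_atTop_atTop.comp hφ.tendsto_atTop))
  have ce := (contDiff_en hu.c2).continuous
  have lim : Tendsto (fun j => ∫ z, η z * en u (z + (φ j : ℝ) • ev (Fin.last n))) atTop
      (𝓝 (∫ z, η z * en w z)) := by
    refine tendsto_integral_of_dominated_convergence
      (fun z => η z * (2⁻¹ * ((n + 1 : ℕ) * max M 0 ^ 2) + 4⁻¹))
      (fun j => (hη.continuous.mul (ce.comp (by fun_prop))).aestronglyMeasurable)
      ((hη.continuous.integrable_of_hasCompactSupport hc).mul_const _)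
      (fun j => ae_of_all _ fun z => ?_) (ae_of_all _ fun z => ?_)
    · rw [Real.norm_of_nonneg (mul_nonneg (h01 z).1 (en_nonneg _ _))]
      refine mul_le_mul_of_nonneg_left ?_ (h01 z).1
      rw [en_eq]
      generalize z + (φ j : ℝ) • ev (Fin.last n) = y
      have e1 : gsq u y ≤ (n + 1 : ℕ) * max M 0 ^ 2 := by
        simpa [gsq] using Finset.sum_le_card_nsmul Finset.univ (fun i => pdv i u y ^ 2) _ fun i _ =>
          sq_le_sq' (abs_le.1 (hb u hu i y)).1 (abs_le.1 (hb u hu i y)).2
      have e2 : u y ^ 2 ≤ 1 := by simpa using sq_le_sq' (abs_le.1 (hu.bd y)).1 (abs_le.1 (hu.bd y)).2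
      have e3 : (1 - u y ^ 2) ^ 2 ≤ 1 := by nlinarith [sq_nonneg (u y)]
      simp only
      linarith
    · refine Tendsto.const_mul _ ?_
      simp only [en_eq, gsq]
      exact ((tendsto_finsetSum _ fun i _ => (l1 i z).pow 2).const_mul _).add
        (((((l0 z).pow 2).const_sub 1).pow 2).const_mul _)
  have key : ∫ z, η z * en u z ≤ (∫ z, η z * en w z) + 2 * max M 0 * ∫ z, ∑ i, |pdv i η z| :=
    ge_of_tendsto' (lim.add_const _) fun j =>
      drop hu (Fin.last n) (fun z => (hm z).le) (le_max_right _ _) (hb u hu) hη hc (Nat.cast_nonneg _)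
  rw [← hwu, mul_assoc]
  refine (setInt_le ce (en_nonneg u) hη.continuous hc (fun z => (h01 z).1) h1).trans
    (key.trans (add_le_add (le_setInt (contDiff_en hw.c2).continuous (en_nonneg w) h01 h0) ?_))
  exact mul_le_mul_of_nonneg_left hi (by positivity)

theorem aac1_of (hA : AACStmt) : AAC1Stmt := by
  intro n
  obtain ⟨C, hC⟩ := hA n
  obtain ⟨C', hC', h⟩ := planar_en n
  refine ⟨C' * 2 ^ n + C, fun u up hu hm hup hc x R hR => (hC u up hu hm hup x R hR).trans ?_⟩
  rw [add_mul]
  refine add_le_add ?_ le_rfl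
  rcases hc with hc | ⟨a, ha, b, hb⟩
  · have : en (fun z : EE (n + 1) => up (init z)) = fun _ => 0 := by
      funext z; simp [hc, en]
    rw [this, integral_zero]; positivity
  · have hin : ∀ z : EE (n + 1), ⟪snoc a 0, z⟫ = ⟪a, init z⟫ := fun z => by
      simp [inner_eq_sum, Fin.sum_univ_castSucc, snoc, init, Fin.init]
    have hn : ‖snoc a 0‖ = 1 := by
      rw [← ha, EuclideanSpace.norm_eq, EuclideanSpace.norm_eq]
      simp [Fin.sum_univ_castSucc, snoc]
    refine (h _ ⟨snoc a 0, hn, b, fun z => by rw [hb, hin]⟩ x (R + 1) (by linarith)).trans ?_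
    rw [mul_assoc, ← mul_pow]
    exact mul_le_mul_of_nonneg_left (pow_le_pow_left₀ (by linarith) (by linarith) n) hC'

end

end Crest.Agent.N067
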