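import Crest.Agent.R077.Green
import Crest.Agent.R077.Lap

/-!
# Row 67 basics: radial functions, annulus barrier, Hopf lemma, strong maximum principle
-/

set_option autoImplicit false

open Laplacian InnerProductSpace Topology Filter Set Metric

namespace Crest.Agent.N067

open Crest.Agent.R077

variable {n : ℕ}

theorem hasFDerivAt_sq (y x : EE n) :
    HasFDerivAt (fun z : EE n => ‖z - y‖ ^ 2) ((2 : ℝ) • innerSL ℝ (x - y)) x := by
  have h := ((hasFDerivAt_id x).sub_const y).norm_sq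
  refine HasFDerivAt.congr_fderiv h ?_
  ext v
  simp

theorem contDiff_sq (y : EE n) {k : WithTop ℕ∞} : ContDiff ℝ k fun z : EE n => ‖z - y‖ ^ 2 :=
  (contDiff_id.sub contDiff_const).norm_sq ℝ

theorem hasFDerivAt_rad {F : ℝ → ℝ} {F' : ℝ} {y x : EE n} (hF : HasDerivAt F F' (‖x - y‖ ^ 2)) :
    HasFDerivAt (fun z : EE n => F (‖z - y‖ ^ 2)) ((2 * F') • innerSL ℝ (x - y)) x := by
  have h := hF.comp_hasFDerivAt x (hasFDerivAt_sq y x)
  rw [smul_smul, mul_comm] at h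
  exact h

/-- Laplacian of a radial function -/
theorem lap_rad {F : ℝ → ℝ} {y x : EE n} (hF : ContDiffAt ℝ 2 F (‖x - y‖ ^ 2)) :
    (Δ fun z : EE n => F (‖z - y‖ ^ 2)) x =
      4 * ‖x - y‖ ^ 2 * deriv (deriv F) (‖x - y‖ ^ 2) + 2 * n * deriv F (‖x - y‖ ^ 2) := by
  have hq := (contDiff_sq y (k := 2)).contDiffAt (x := x)
  have hc : ContDiffAt ℝ 2 (fun z : EE n => F (‖z - y‖ ^ 2)) x := hF.comp x hq
  rw [lap_eq hc]
  have hev : ∀ᶠ z in 𝓝 x, ContDiffAt ℝ 2 F (‖z - y‖ ^ 2) :=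
    hq.continuousAt.tendsto.eventually (hF.eventually (by simp))
  have h1 : HasDerivAt (deriv F) (deriv (deriv F) (‖x - y‖ ^ 2)) (‖x - y‖ ^ 2) :=
    ((hF.derivWithin (m := 1) (by norm_num)).differentiableAt (by simp)).hasDerivAt
  have key : ∀ i, pdv i (pdv i fun z : EE n => F (‖z - y‖ ^ 2)) x =
      4 * (x i - y i) ^ 2 * deriv (deriv F) (‖x - y‖ ^ 2) + 2 * deriv F (‖x - y‖ ^ 2) := by
    intro i
    have e : (pdv i fun z : EE n => F (‖z - y‖ ^ 2)) =ᶠ[𝓝 x]
        fun z => 2 * deriv F (‖z - y‖ ^ 2) * (z i - y i) := by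
      filter_upwards [hev] with z hz
      unfold pdv
      rw [(hasFDerivAt_rad (hz.differentiableAt (by simp)).hasDerivAt).fderiv]
      simp [EuclideanSpace.inner_single_right]
    rw [pdv_congr e]
    have h2 : HasFDerivAt (fun z : EE n => z i - y i) (EuclideanSpace.proj i : EE n →L[ℝ] ℝ) x :=
      (EuclideanSpace.proj i : EE n →L[ℝ] ℝ).hasFDerivAt.sub_const _
    have h3 := ((hasFDerivAt_rad h1).const_mul 2).fun_mul h2
    unfold pdv
    rw [h3.fderiv]
    simp [EuclideanSpace.inner_single_right]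
    ring
  simp only [key]
  rw [Finset.sum_add_distrib, ← Finset.sum_mul, ← Finset.mul_sum, EuclideanSpace.real_norm_sq_eq]
  simp
  ring

theorem exists_alpha (n : ℕ) {R B : ℝ} (hR : 0 < R) (hB : 0 ≤ B) :
    ∃ α : ℝ, 0 < α ∧ 2 * α * n + 2 * α * B * R + B < α ^ 2 * R ^ 2 := by
  refine ⟨(2 * n + 2 * B * R + B) / R ^ 2 + 1, by positivity, ?_⟩
  set α := (2 * n + 2 * B * R + B) / R ^ 2 + 1 with hα
  have h1 : 1 ≤ α := by
    have : 0 ≤ (2 * n + 2 * B * R + B) / R ^ 2 := by positivity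
    linarith
  have h2 : α * R ^ 2 = 2 * n + 2 * B * R + B + R ^ 2 := by rw [hα]; field_simp
  have h3 : α ^ 2 * R ^ 2 = α * (2 * n + 2 * B * R + B + R ^ 2) := by rw [← h2]; ring
  have h4 := mul_le_mul_of_nonneg_right h1 hB
  have h5 : 0 < α * R ^ 2 := by positivity
  linarith

/-- the annulus barrier -/
theorem annulus {w : EE n → ℝ} {y : EE n} {R B α m : ℝ} (hR : 0 < R) (hB : 0 ≤ B) (hα0 : 0 < α)
    (hα : 2 * α * n + 2 * α * B * R + B < α ^ 2 * R ^ 2) (hm : 0 ≤ m)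
    (hc : ContinuousOn w (closedBall y R))
    (hw : ∀ x, R / 2 < ‖x - y‖ → ‖x - y‖ < R → ContDiffAt ℝ 2 w x)
    (h0 : ∀ x, R / 2 ≤ ‖x - y‖ → ‖x - y‖ ≤ R → 0 ≤ w x)
    (hL : ∀ x, R / 2 < ‖x - y‖ → ‖x - y‖ < R → (Δ w) x ≤ B * ‖fderiv ℝ w x‖ + B * w x)
    (hin : ∀ x, ‖x - y‖ = R / 2 → m ≤ w x) (x : EE n) (h1 : R / 2 ≤ ‖x - y‖) (h2 : ‖x - y‖ ≤ R) :
    m * (Real.exp (-α * ‖x - y‖ ^ 2) - Real.exp (-α * R ^ 2)) ≤ w x := by
  let F : ℝ → ℝ := fun s => m * (Real.exp (-α * s) - Real.exp (-α * R ^ 2))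
  have hF : ContDiff ℝ 2 F := by unfold F; fun_prop
  have d1 : ∀ (k s : ℝ), HasDerivAt (fun s => k * Real.exp (-α * s))
      (k * -α * Real.exp (-α * s)) s := fun k s => by
    refine ((((hasDerivAt_id s).const_mul (-α)).exp).const_mul k).congr_deriv ?_
    simp only [id]; ring
  have d2 : ∀ s, HasDerivAt F (m * -α * Real.exp (-α * s)) s := fun s => by
    have := (d1 m s).sub_const (m * Real.exp (-α * R ^ 2))
    simpa only [F, mul_sub] using this
  have d3 : deriv F = fun s => m * -α * Real.exp (-α * s) := funext fun s => (d2 s).deriv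
  have hh : ContDiff ℝ 2 fun z : EE n => F (‖z - y‖ ^ 2) := hF.comp (contDiff_sq y)
  let A : Set (EE n) := closedBall y R ∩ {z | R / 2 ≤ ‖z - y‖}
  have hA : IsCompact A :=
    (isCompact_closedBall y R).inter_right (isClosed_le continuous_const (by fun_prop))
  obtain ⟨z, ⟨z1, z2⟩, hz⟩ := hA.exists_isMinOn (f := fun z => w z - F (‖z - y‖ ^ 2))
    ⟨x, mem_closedBall_iff_norm.2 h2, h1⟩
    ((hc.mono inter_subset_left).sub hh.continuous.continuousOn)
  rw [mem_closedBall_iff_norm] at z1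
  simp only [mem_ofPred_eq] at z2
  have hx : w z - F (‖z - y‖ ^ 2) ≤ w x - F (‖x - y‖ ^ 2) :=
    hz (show x ∈ A from ⟨mem_closedBall_iff_norm.2 h2, h1⟩)
  by_contra hneg
  have hlt : w z < F (‖z - y‖ ^ 2) := by
    have : w x < F (‖x - y‖ ^ 2) := lt_of_not_ge hneg
    linarith
  have e0 := Real.exp_pos (-α * ‖z - y‖ ^ 2)
  have e1 := Real.exp_pos (-α * R ^ 2)
  have hz0 := h0 z z2 z1
  have hFle : F (‖z - y‖ ^ 2) ≤ m * Real.exp (-α * ‖z - y‖ ^ 2) :=
    mul_le_mul_of_nonneg_left (by linarith) hm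
  have hm0 : 0 < m := by
    rcases hm.eq_or_lt with h | h
    · rw [← h] at hFle; linarith
    · exact h
  have z3 : ‖z - y‖ < R := by
    refine lt_of_le_of_ne z1 fun h => ?_
    simp only [F, h, sub_self, mul_zero] at hlt
    linarith
  have z4 : R / 2 < ‖z - y‖ := by
    refine lt_of_le_of_ne z2 fun h => ?_
    have h3 := hin z h.symm
    have h4 : Real.exp (-α * ‖z - y‖ ^ 2) ≤ 1 :=
      Real.exp_le_one_iff.2 (by have : 0 ≤ α * ‖z - y‖ ^ 2 := by positivity
                                linarith)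
    have := mul_le_mul_of_nonneg_left h4 hm
    linarith
  have hmin : IsLocalMin (fun z => w z - F (‖z - y‖ ^ 2)) z := by
    refine hz.isLocalMin (mem_of_superset ((isOpen_lt (by fun_prop) continuous_const).inter
      (isOpen_lt continuous_const (by fun_prop)) |>.mem_nhds
        (show z ∈ {z : EE n | ‖z - y‖ < R} ∩ {z | R / 2 < ‖z - y‖} from ⟨z3, z4⟩)) ?_)
    rintro u ⟨u1, u2⟩
    have u3 : R / 2 < ‖u - y‖ := u2
    exact ⟨mem_closedBall_iff_norm.2 (le_of_lt u1), u3.le⟩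
  have hwz := hw z z4 z3
  have l1 := laplacian_nonneg_of_isLocalMin (hwz.sub hh.contDiffAt) hmin
  have l2 := hwz.laplacian_sub hh.contDiffAt
  have l3 := lap_rad (y := y) (x := z) hF.contDiffAt
  rw [d3, (d1 _ _).deriv] at l3
  have g1 := hmin.hasFDerivAt_eq_zero
    ((hwz.differentiableAt (by simp)).hasFDerivAt.sub (hasFDerivAt_rad (d2 _)))
  have g2 : ‖fderiv ℝ w z‖ = 2 * (m * α * Real.exp (-α * ‖z - y‖ ^ 2)) * ‖z - y‖ := by
    rw [sub_eq_zero.1 g1, norm_smul, innerSL_apply_norm, Real.norm_eq_abs, abs_of_nonpos]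
    · ring
    · have : 0 ≤ m * α * Real.exp (-α * ‖z - y‖ ^ 2) := by positivity
      linarith
  have l4 := hL z z4 z3
  have l5 : (Δ fun z => w z - F (‖z - y‖ ^ 2)) z =
      (Δ w) z - (Δ fun z : EE n => F (‖z - y‖ ^ 2)) z := l2
  rw [l5, l3] at l1
  rw [g2] at l4
  beta_reduce at l1
  set e := m * Real.exp (-α * ‖z - y‖ ^ 2) with he
  have ep : 0 < e := by positivity
  have q1 : R ^ 2 ≤ 4 * ‖z - y‖ ^ 2 := by
    have := pow_le_pow_left₀ (by positivity) z2 2
    linarith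
  have q2 := mul_le_mul_of_nonneg_left q1 (by positivity : 0 ≤ α ^ 2 * e)
  have q3 := mul_le_mul_of_nonneg_left z1 (by positivity : 0 ≤ 2 * α * B * e)
  have q4 := mul_le_mul_of_nonneg_left (hlt.le.trans hFle) hB
  have q5 := mul_lt_mul_of_pos_right hα ep
  simp only [he] at q2 q3 q4 q5
  linarith

/-- quantitative Hopf lemma -/
theorem hopf {w : EE n → ℝ} {y : EE n} {R B α m : ℝ} (hR : 0 < R) (hB : 0 ≤ B) (hα0 : 0 < α)
    (hα : 2 * α * n + 2 * α * B * R + B < α ^ 2 * R ^ 2) (hm : 0 ≤ m)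
    (hc : ContinuousOn w (closedBall y R))
    (hw : ∀ x, R / 2 < ‖x - y‖ → ‖x - y‖ < R → ContDiffAt ℝ 2 w x)
    (h0 : ∀ x, R / 2 ≤ ‖x - y‖ → ‖x - y‖ ≤ R → 0 ≤ w x)
    (hL : ∀ x, R / 2 < ‖x - y‖ → ‖x - y‖ < R → (Δ w) x ≤ B * ‖fderiv ℝ w x‖ + B * w x)
    (hin : ∀ x, ‖x - y‖ = R / 2 → m ≤ w x) {x : EE n} (hx : ‖x - y‖ = R) (hx0 : w x = 0)
    (hd : DifferentiableAt ℝ w x) :
    m * (2 * α * R ^ 2 * Real.exp (-α * R ^ 2)) ≤ fderiv ℝ w x (y - x) := by
  have hl : ∀ t : ℝ, HasDerivAt (fun t : ℝ => x + t • (y - x)) (y - x) t := fun t => by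
    simpa using ((hasDerivAt_id t).smul_const (y - x)).const_add x
  have hn : ∀ t : ℝ, t ≤ 1 → ‖x + t • (y - x) - y‖ = (1 - t) * R := fun t ht => by
    have : x + t • (y - x) - y = (1 - t) • (x - y) := by module
    rw [this, norm_smul, hx, Real.norm_eq_abs, abs_of_nonneg (by linarith)]
  have h1 : HasDerivAt (fun t : ℝ => w (x + t • (y - x))) (fderiv ℝ w x (y - x)) 0 := by
    have : HasFDerivAt w (fderiv ℝ w x) (x + (0 : ℝ) • (y - x)) := by simpa using hd.hasFDerivAt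
    exact this.comp_hasDerivAt 0 (hl 0)
  have h2 : HasDerivAt (fun t : ℝ => m * (Real.exp (-α * ((1 - t) * R) ^ 2) -
      Real.exp (-α * R ^ 2))) (m * (2 * α * R ^ 2 * Real.exp (-α * R ^ 2))) 0 := by
    have := (((((((hasDerivAt_id (0 : ℝ)).const_sub 1).mul_const R).pow 2).const_mul
      (-α)).exp).sub_const (Real.exp (-α * R ^ 2))).const_mul m
    refine this.congr_deriv ?_
    simp
    ring_nf
    simp
  have h3 := (h1.sub h2).hasDerivWithinAt (s := Ioi 0)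
  rw [hasDerivWithinAt_iff_tendsto_slope' (by simp)] at h3
  have h4 := ge_of_tendsto h3 (b := 0) ?_
  · linarith
  filter_upwards [Ioo_mem_nhdsGT (by norm_num : (0 : ℝ) < 1 / 2)] with t ht
  have h5 := annulus hR hB hα0 hα hm hc hw h0 hL hin (x + t • (y - x))
    (by rw [hn t (by linarith [ht.2])]; nlinarith [ht.2])
    (by rw [hn t (by linarith [ht.2])]; nlinarith [ht.1])
  rw [hn t (by linarith [ht.2])] at h5
  rw [slope_def_field]
  refine div_nonneg ?_ (by linarith [ht.1])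
  simp only [Pi.sub_apply, zero_smul, add_zero, hx0, sub_zero, one_mul, sub_self, mul_zero]
  linarith

/-- strong maximum principle on a connected open set -/
theorem smp_on {w : EE n → ℝ} {U : Set (EE n)} (hU : IsOpen U) (hc : IsPreconnected U)
    (hw : ∀ x ∈ U, ContDiffAt ℝ 2 w x) (h0 : ∀ x ∈ U, 0 ≤ w x)
    (hL : ∀ x ∈ U, ∃ B, ∀ᶠ z in 𝓝 x, (Δ w) z ≤ B * ‖fderiv ℝ w z‖ + B * w z)
    {x0 : EE n} (hx0 : x0 ∈ U) (hz : w x0 = 0) : ∀ x ∈ U, w x = 0 := by
  have hco : ContinuousOn w U := fun x hx => (hw x hx).continuousAt.continuousWithinAt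
  have hop : ∀ x ∈ U, w x = 0 → ∀ᶠ y in 𝓝 x, w y = 0 := by
    intro x1 hx1 hz1
    obtain ⟨B, hB⟩ := hL x1 hx1
    obtain ⟨r, hr, hsub⟩ := Metric.nhds_basis_closedBall.mem_iff.1 (hB.and (hU.mem_nhds hx1))
    filter_upwards [ball_mem_nhds x1 (half_pos hr)] with y hy
    have hyU : y ∈ U := (hsub (ball_subset_closedBall (ball_subset_ball (by linarith) hy))).2
    by_contra hne
    let Z : Set (EE n) := closedBall x1 r ∩ w ⁻¹' {0}
    have hZ : IsCompact Z := (isCompact_closedBall x1 r).of_isClosed_subset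
      ((hco.mono fun z hz => (hsub hz).2).preimage_isClosed_of_isClosed isClosed_closedBall
        isClosed_singleton) inter_subset_left
    obtain ⟨p, ⟨p1, p2⟩, hp⟩ := hZ.exists_isMinOn (f := fun z => ‖z - y‖)
      ⟨x1, mem_closedBall_self hr.le, hz1⟩ (by fun_prop)
    have p2' : w p = 0 := p2
    set R := ‖p - y‖ with hR
    have hR0 : 0 < R := norm_pos_iff.2 (sub_ne_zero.2 fun h => hne (h ▸ p2'))
    have hy' : ‖x1 - y‖ < r / 2 := by rw [norm_sub_rev]; exact mem_ball_iff_norm.1 hy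
    have hR1 : R ≤ ‖x1 - y‖ := hp (show x1 ∈ Z from ⟨mem_closedBall_self hr.le, hz1⟩)
    have hin : ∀ z, ‖z - y‖ ≤ R → z ∈ closedBall x1 r := fun z h => by
      rw [mem_closedBall_iff_norm]
      have := norm_sub_le_norm_sub_add_norm_sub z y x1
      rw [norm_sub_rev y x1] at this
      linarith
    have hpos : ∀ z, ‖z - y‖ < R → 0 < w z := fun z h =>
      lt_of_le_of_ne (h0 z (hsub (hin z h.le)).2) fun h' => by
        have : R ≤ ‖z - y‖ := hp (show z ∈ Z from ⟨hin z h.le, h'.symm⟩)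
        linarith
    have hcb : ContinuousOn w (closedBall y R) :=
      hco.mono fun z hz => (hsub (hin z (mem_closedBall_iff_norm.1 hz))).2
    obtain ⟨m, hm, hm'⟩ := (isCompact_sphere y (R / 2)).exists_forall_le'
      (hcb.mono (sphere_subset_closedBall.trans (closedBall_subset_closedBall (by linarith))))
      (a := 0) fun z hz => hpos z (by rw [mem_sphere_iff_norm] at hz; linarith)
    obtain ⟨α, hα0, hα⟩ := exists_alpha n hR0 (abs_nonneg B)
    have hpU := (hsub p1).2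
    have h1 := hopf hR0 (abs_nonneg B) hα0 hα hm.le hcb
      (fun z _ h => hw z (hsub (hin z h.le)).2) (fun z _ h => h0 z (hsub (hin z h)).2)
      (fun z _ h => ?_) (fun z h => hm' z (mem_sphere_iff_norm.2 h)) hR.symm p2'
      ((hw p hpU).differentiableAt (by simp))
    · have h2 : IsLocalMin w p := by
        filter_upwards [hU.mem_nhds hpU] with z hz
        rw [p2']; exact h0 z hz
      rw [h2.fderiv_eq_zero] at h1
      have : 0 < m * (2 * α * R ^ 2 * Real.exp (-α * R ^ 2)) := by positivity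
      simp only [zero_apply] at h1
      linarith
    · have h3 := hsub (hin z h.le)
      have h4 := mul_le_mul_of_nonneg_right (le_abs_self B) (norm_nonneg (fderiv ℝ w z))
      have h5 := mul_le_mul_of_nonneg_right (le_abs_self B) (h0 z h3.2)
      linarith [h3.1]
  intro x hx
  have := hc.subset_of_closure_inter_subset (u := {x | ∀ᶠ y in 𝓝 x, w y = 0})
    isOpen_setOfPred_eventually_nhds ⟨x0, hx0, hop x0 hx0 hz⟩ ?_ hx
  · exact this.self_of_nhds
  rintro z ⟨z1, z2⟩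
  refine hop z z2 ?_
  have h1 : z ∈ closure (w ⁻¹' {0}) := closure_mono (fun u hu => hu.self_of_nhds) z1
  have h2 := (hw z z2).continuousAt.continuousWithinAt.mem_closure_image h1
  exact closure_minimal (image_preimage_subset w {0}) isClosed_singleton h2

/-- strong maximum principle on the whole space, inequality form -/
theorem smp' {w : EE n → ℝ} (hw : ContDiff ℝ 2 w) (h0 : ∀ x, 0 ≤ w x)
    (hL : ∀ x, ∃ B, ∀ᶠ z in 𝓝 x, (Δ w) z ≤ B * ‖fderiv ℝ w z‖ + B * w z)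
    {x0 : EE n} (hz : w x0 = 0) (x : EE n) : w x = 0 :=
  smp_on isOpen_univ isPreconnected_univ (fun _ _ => hw.contDiffAt) (fun x _ => h0 x)
    (fun x _ => hL x) (mem_univ x0) hz x (mem_univ x)

/-- strong maximum principle for `Δ + ⟪b, ∇⟫ + c` with locally bounded coefficients -/
theorem smp {w c : EE n → ℝ} {b : EE n → EE n} (hw : ContDiff ℝ 2 w) (h0 : ∀ x, 0 ≤ w x)
    (hb : ∀ R : ℝ, ∃ B, ∀ x, ‖x‖ ≤ R → ‖b x‖ ≤ B ∧ |c x| ≤ B)
    (hL : ∀ x, (Δ w) x + fderiv ℝ w x (b x) + c x * w x ≤ 0) {x0 : EE n} (hz : w x0 = 0)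
    (x : EE n) : w x = 0 := by
  refine smp' hw h0 (fun x => ?_) hz x
  obtain ⟨B, hB⟩ := hb (‖x‖ + 1)
  refine ⟨B, ?_⟩
  filter_upwards [closedBall_mem_nhds x one_pos] with z hz
  have h1 : ‖z‖ ≤ ‖x‖ + 1 := by
    have := norm_sub_norm_le z x
    rw [mem_closedBall_iff_norm] at hz
    linarith
  obtain ⟨h2, h3⟩ := hB z h1
  have h4 := (fderiv ℝ w z).le_opNorm (b z)
  have h5 := mul_le_mul_of_nonneg_left h2 (norm_nonneg (fderiv ℝ w z))
  have h6 := mul_le_mul_of_nonneg_right (neg_le_of_abs_le h3) (h0 z)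
  have h7 := neg_abs_le (fderiv ℝ w z (b z))
  rw [Real.norm_eq_abs] at h4
  linarith [hL z]

/-- the same with continuous coefficients -/
theorem smp_cont {w c : EE n → ℝ} {b : EE n → EE n} (hw : ContDiff ℝ 2 w) (h0 : ∀ x, 0 ≤ w x)
    (hb : Continuous b) (hc : Continuous c)
    (hL : ∀ x, (Δ w) x + fderiv ℝ w x (b x) + c x * w x ≤ 0) {x0 : EE n} (hz : w x0 = 0)
    (x : EE n) : w x = 0 := by
  refine smp hw h0 (fun R => ?_) hL hz x
  obtain ⟨B1, h1⟩ := (isCompact_closedBall (0 : EE n) R).exists_bound_of_continuousOn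
    hb.continuousOn
  obtain ⟨B2, h2⟩ := (isCompact_closedBall (0 : EE n) R).exists_bound_of_continuousOn
    hc.continuousOn
  exact ⟨max B1 B2, fun x hx => ⟨(h1 x (mem_closedBall_zero_iff.2 hx)).trans (le_max_left _ _),
    (h2 x (mem_closedBall_zero_iff.2 hx)).trans (le_max_right _ _)⟩⟩

theorem fderiv_eq_sum (w : EE n → ℝ) (x b : EE n) : fderiv ℝ w x b = ∑ i, b i * pdv i w x := by
  conv_lhs => rw [← (EuclideanSpace.basisFun (Fin n) ℝ).sum_repr b]
  simp [pdv, map_sum]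

/-- coordinate form -/
theorem smp_sum {w c : EE n → ℝ} {b : Fin n → EE n → ℝ} (hw : ContDiff ℝ 2 w) (h0 : ∀ x, 0 ≤ w x)
    (hb : ∀ i, Continuous (b i)) (hc : Continuous c)
    (hL : ∀ x, (Δ w) x + ∑ i, b i x * pdv i w x + c x * w x ≤ 0) {x0 : EE n} (hz : w x0 = 0)
    (x : EE n) : w x = 0 := by
  refine smp_cont (b := fun x => WithLp.toLp 2 fun i => b i x) hw h0 (by fun_prop) hc
    (fun x => ?_) hz x
  rw [fderiv_eq_sum]
  exact hL x

theorem lt_one_or {v : EE n → ℝ} (hv : ContDiff ℝ 2 v) (hr : ∀ x, v x ∈ Icc (-1 : ℝ) 1)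
    (he : ∀ x, (Δ v) x = v x ^ 3 - v x) : (∀ x, v x = 1) ∨ ∀ x, v x < 1 := by
  by_cases h : ∃ x, v x = 1
  · obtain ⟨x0, hx0⟩ := h
    refine Or.inl fun x => ?_
    have := smp' (w := fun x => 1 - v x) (contDiff_const.sub hv) (fun x => by linarith [(hr x).2])
      (fun x => ⟨2, Eventually.of_forall fun z => ?_⟩) (x0 := x0) (by simp [hx0]) x
    · linarith
    have h1 : (Δ fun x => 1 - v x) z = (Δ fun _ : EE n => (1 : ℝ)) z - (Δ v) z :=
      (contDiffAt_const (c := (1 : ℝ))).laplacian_sub hv.contDiffAt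
    rw [h1, he]
    have h2 := norm_nonneg (fderiv ℝ (fun x => 1 - v x) z)
    have h3 := (hr z).1
    have h4 := (hr z).2
    have h5 : 0 ≤ (1 - v z) ^ 2 * (2 + v z) := mul_nonneg (sq_nonneg _) (by linarith)
    simp only [laplacian_const, Pi.zero_apply]
    linarith
  · exact Or.inr fun x => lt_of_le_of_ne (hr x).2 fun hx => h ⟨x, hx⟩

theorem neg_sol {v : EE n → ℝ} (he : ∀ x, (Δ v) x = v x ^ 3 - v x) (x : EE n) :
    (Δ fun x => -v x) x = (-v x) ^ 3 - -v x := by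
  have : (Δ fun x => -v x) = -(Δ v) := laplacian_neg
  rw [this, Pi.neg_apply, he]; ring

/-- a bounded solution is `1`, `-1`, or takes values in the open interval -/
theorem trichotomy {v : EE n → ℝ} (hv : ContDiff ℝ 2 v) (hr : ∀ x, v x ∈ Icc (-1 : ℝ) 1)
    (he : ∀ x, (Δ v) x = v x ^ 3 - v x) :
    (∀ x, v x = 1) ∨ (∀ x, v x = -1) ∨ ∀ x, v x ∈ Ioo (-1 : ℝ) 1 := by
  rcases lt_one_or hv hr he with h | h
  · exact Or.inl h
  rcases lt_one_or (v := fun x => -v x) hv.neg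
    (fun x => ⟨by linarith [(hr x).2], by linarith [(hr x).1]⟩) (neg_sol he) with h' | h'
  · exact Or.inr (Or.inl fun x => by linarith [h' x])
  · exact Or.inr (Or.inr fun x => ⟨by linarith [h' x], h x⟩)

end Crest.Agent.N067
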