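import Crest.Agent.N067.A.Defs
import Crest.Agent.N067.A.SMP

/-!
# Row 67 basics: `smpS`, `dich`, touching lemma, `ballS`, `decay` (helper88)
-/

set_option autoImplicit false

open Laplacian InnerProductSpace Topology Filter Set Metric
open scoped RealInnerProductSpace Gradient

namespace Crest.Agent.N067

open Crest.Agent.R077

variable {n : ℕ}

theorem smpS : SMPStmt := by
  intro n w c b hw h0 hb hL x0 hz x
  refine smp hw h0 hb (fun x => ?_) hz x
  have h : ⟪b x, ∇ w x⟫ = fderiv ℝ w x (b x) := by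
    rw [real_inner_comm, gradient, InnerProductSpace.toDual_symm_apply]
  rw [← h]
  exact hL x

theorem IsSol.mem {v : EE n → ℝ} (h : IsSol v) (x : EE n) : v x ∈ Icc (-1 : ℝ) 1 :=
  abs_le.1 (h.bd x)

theorem IsSol.neg {v : EE n → ℝ} (h : IsSol v) : IsSol fun x => -v x :=
  ⟨h.c2.neg, fun x => by rw [abs_neg]; exact h.bd x, neg_sol h.eq⟩

theorem dich_of (hR : RegStmt) : DichStmt := by
  intro n v hv
  rcases trichotomy hv.c2 hv.mem hv.eq with h | h | h
  · exact Or.inl h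
  · exact Or.inr (Or.inl h)
  · obtain ⟨C, hC⟩ := hR n 0
    exact Or.inr (Or.inr ⟨(hC v hv).1, fun x => abs_lt.2 (h x), hv.eq⟩)

/-- the maximum of a quotient `f / g` on a compact set -/
theorem touch {f g : EE n → ℝ} {K : Set (EE n)} (hK : IsCompact K) (hne : K.Nonempty)
    (hf : ContinuousOn f K) (hg : ContinuousOn g K) (hpos : ∀ y ∈ K, 0 < g y) :
    ∃ y ∈ K, (∀ z ∈ K, f z * g y ≤ f y * g z) ∧
      (K ∈ 𝓝 y → ContDiffAt ℝ 2 f y → ContDiffAt ℝ 2 g y →
        g y • fderiv ℝ f y = f y • fderiv ℝ g y ∧ g y * (Δ f) y ≤ f y * (Δ g) y) := by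
  obtain ⟨y, hy, hmax⟩ := hK.exists_isMaxOn hne (hf.div hg fun z hz => (hpos z hz).ne')
  have h1 : ∀ z ∈ K, f z * g y ≤ f y * g z := fun z hz =>
    (div_le_div_iff₀ (hpos z hz) (hpos y hy)).1 (hmax hz)
  refine ⟨y, hy, h1, fun hn hf2 hg2 => ?_⟩
  have hmin : IsLocalMin (fun z => f y * g z - g y * f z) y := by
    filter_upwards [hn] with z hz
    have := h1 z hz
    linarith
  have hA : ContDiffAt ℝ 2 (fun z => f y * g z) y := contDiffAt_const.mul hg2
  have hB : ContDiffAt ℝ 2 (fun z => g y * f z) y := contDiffAt_const.mul hf2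
  constructor
  · have d1 := (hf2.differentiableAt (by norm_num)).hasFDerivAt
    have d2 := (hg2.differentiableAt (by norm_num)).hasFDerivAt
    have h := hmin.hasFDerivAt_eq_zero ((d2.const_mul (f y)).sub (d1.const_mul (g y)))
    exact (sub_eq_zero.1 h).symm
  · have h := laplacian_nonneg_of_isLocalMin (hA.sub hB) hmin
    have e : (Δ fun z => f y * g z - g y * f z) y =
        (Δ fun z => f y * g z) y - (Δ fun z => g y * f z) y := hA.laplacian_sub hB
    have e1 : (Δ fun z => f y * g z) y = f y * (Δ g) y := laplacian_smul (f y) hg2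
    have e2 : (Δ fun z => g y * f z) y = g y * (Δ f) y := laplacian_smul (g y) hf2
    rw [e, e1, e2] at h
    linarith

theorem lap_bump (R : ℝ) (x y : EE n) :
    (Δ fun z : EE n => ((1 - ‖z - x‖ ^ 2 / R ^ 2) ^ 2 : ℝ)) y =
      8 * ‖y - x‖ ^ 2 / R ^ 4 - 4 * n * (1 - ‖y - x‖ ^ 2 / R ^ 2) / R ^ 2 := by
  have hF : ContDiff ℝ 2 fun s : ℝ => (1 - s / R ^ 2) ^ 2 := by fun_prop
  have h1 : deriv (fun s : ℝ => (1 - s / R ^ 2) ^ 2) = fun s => -2 * (1 - s / R ^ 2) / R ^ 2 := by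
    funext s
    have h := (((hasDerivAt_id s).div_const (R ^ 2)).const_sub 1).fun_pow 2
    exact (h.congr_deriv (g' := -2 * (1 - s / R ^ 2) / R ^ 2) (by simp; ring)).deriv
  have h2 : ∀ s, deriv (fun s : ℝ => -2 * (1 - s / R ^ 2) / R ^ 2) s = 2 / R ^ 4 := by
    intro s
    have h := ((((hasDerivAt_id s).div_const (R ^ 2)).const_sub 1).const_mul (-2)).div_const (R ^ 2)
    exact (h.congr_deriv (by ring)).deriv
  rw [lap_rad (F := fun s : ℝ => (1 - s / R ^ 2) ^ 2) hF.contDiffAt, h1, h2]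
  ring

/-- a positive supersolution of `Δ + δ` below the level `m` cannot live on a large ball -/
theorem ball_core {δ R m : ℝ} (hR : 0 < R) (hδ : (8 + 4 * n) ^ 2 < 32 * δ * R ^ 2) {v : EE n → ℝ}
    {x : EE n} (hv : ∀ y ∈ closedBall x R, ContDiffAt ℝ 2 v y)
    (hpos : ∀ y ∈ closedBall x R, 0 < v y)
    (hL : ∀ y ∈ ball x R, v y < m → (Δ v) y ≤ -δ * v y) : m ≤ v x := by
  by_contra hlt
  push Not at hlt
  have hφ : ContDiff ℝ 2 fun z : EE n => (1 - ‖z - x‖ ^ 2 / R ^ 2) ^ 2 :=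
    (contDiff_const.sub ((contDiff_sq x).div_const _)).pow 2
  obtain ⟨y, hy, h1, h2⟩ := touch (isCompact_closedBall x R) ⟨x, mem_closedBall_self hR.le⟩
    hφ.continuous.continuousOn (fun y hy => (hv y hy).continuousAt.continuousWithinAt) hpos
  have h3 := h1 x (mem_closedBall_self hR.le)
  simp only [sub_self, norm_zero] at h3
  norm_num at h3
  set u := 1 - ‖y - x‖ ^ 2 / R ^ 2 with hu
  have hyx : ‖y - x‖ ≤ R := by rwa [mem_closedBall, dist_eq_norm] at hy
  have hR2 : 0 < R ^ 2 := by positivity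
  have hs : ‖y - x‖ ^ 2 = (1 - u) * R ^ 2 := by rw [hu]; field_simp; ring
  have hu0 : 0 ≤ u := by
    have : ‖y - x‖ ^ 2 / R ^ 2 ≤ 1 := by
      rw [div_le_one hR2]; exact pow_le_pow_left₀ (norm_nonneg _) hyx 2
    linarith
  have hu1 : u ≤ 1 := by
    have : 0 ≤ ‖y - x‖ ^ 2 / R ^ 2 := by positivity
    linarith
  have hvx := hpos x (mem_closedBall_self hR.le)
  have hvy := hpos y hy
  have hup : 0 < u := by
    rcases hu0.eq_or_lt with h | h
    · rw [← h] at h3; norm_num at h3; linarith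
    · exact h
  have hyb : y ∈ ball x R := by
    rw [mem_ball, dist_eq_norm]
    refine lt_of_pow_lt_pow_left₀ 2 hR.le ?_
    rw [hs]; nlinarith
  have hvm : v y < m := by
    have : u ^ 2 ≤ 1 := by nlinarith
    nlinarith
  have h4 := (h2 (mem_of_superset (isOpen_ball.mem_nhds hyb) ball_subset_closedBall)
    hφ.contDiffAt (hv y hy)).2
  rw [lap_bump, ← hu, hs] at h4
  have h5 := mul_le_mul_of_nonneg_left (hL y hyb hvm) (sq_nonneg u)
  have h6 : v y * (8 * ((1 - u) * R ^ 2) / R ^ 4 - 4 * n * u / R ^ 2 + δ * u ^ 2) ≤ 0 := by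
    nlinarith
  have h7 : 8 * ((1 - u) * R ^ 2) / R ^ 4 - 4 * n * u / R ^ 2 + δ * u ^ 2 =
      (8 * (1 - u) - 4 * n * u + δ * R ^ 2 * u ^ 2) / R ^ 2 := by field_simp
  have h8 : 0 < 8 * (1 - u) - 4 * n * u + δ * R ^ 2 * u ^ 2 := by
    have h9 := mul_lt_mul_of_pos_right hδ (pow_pos hup 2)
    nlinarith [sq_nonneg ((8 + 4 * n) * u - 16)]
  rw [h7] at h6
  exact absurd h6 (not_le.2 (by positivity))

theorem ballS : BallStmt := by
  intro n ε hε
  set δ := min ε 1 with hδ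
  have hδ0 : 0 < δ := lt_min hε one_pos
  have hδ1 : δ ≤ 1 := min_le_right _ _
  have hδε : δ ≤ ε := min_le_left _ _
  set R := (8 + 4 * n) / δ with hRd
  have hR : 0 < R := by positivity
  refine ⟨R + 1, by linarith, fun v hv x hpos => ?_⟩
  have h := ball_core (n := n) (δ := δ) (m := 1 - δ) hR ?_ (v := v) (x := x)
    (fun _ _ => hv.c2.contDiffAt) (fun y hy => hpos y (closedBall_subset_ball (by linarith) hy))
    (fun y hy hm => ?_)
  · linarith
  · have e : 32 * δ * R ^ 2 = (8 + 4 * n) ^ 2 * (32 / δ) := by rw [hRd]; field_simp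
    have h1 : 1 < 32 / δ := by rw [lt_div_iff₀ hδ0]; linarith
    rw [e]
    exact lt_mul_of_one_lt_right (by positivity) h1
  · have h0 := hpos y (ball_subset_ball (by linarith) hy)
    rw [hv.eq]
    have : v y ^ 2 ≤ 1 - δ := by nlinarith
    nlinarith

/-- the exponential barrier `exp (a √(|z-x|² + L²))` -/
theorem lap_expbar {a L : ℝ} (ha : 0 ≤ a) (hL : 0 < L) (x y : EE n) :
    (Δ fun z : EE n => Real.exp (a * √(‖z - x‖ ^ 2 + L ^ 2))) y ≤
      (a ^ 2 + a * n / L) * Real.exp (a * √(‖y - x‖ ^ 2 + L ^ 2)) := by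
  have hpos : ∀ s : ℝ, -L ^ 2 < s → 0 < s + L ^ 2 := fun s hs => by linarith
  have hD : ∀ s : ℝ, -L ^ 2 < s → HasDerivAt (fun s => √(s + L ^ 2)) (1 / (2 * √(s + L ^ 2))) s :=
    fun s hs => ((hasDerivAt_id s).add_const (L ^ 2)).sqrt (hpos s hs).ne'
  have hs0 : -L ^ 2 < ‖y - x‖ ^ 2 := by nlinarith [sq_nonneg ‖y - x‖, pow_pos hL 2]
  have hF : ContDiffAt ℝ 2 (fun s : ℝ => Real.exp (a * √(s + L ^ 2))) (‖y - x‖ ^ 2) :=
    (contDiffAt_const.mul ((contDiffAt_id.add contDiffAt_const).sqrt (hpos _ hs0).ne')).exp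
  have h1 : ∀ s : ℝ, -L ^ 2 < s → deriv (fun s : ℝ => Real.exp (a * √(s + L ^ 2))) s =
      Real.exp (a * √(s + L ^ 2)) * (a / 2) * (√(s + L ^ 2))⁻¹ := fun s hs =>
    ((((hD s hs).const_mul a).exp).congr_deriv (by ring)).deriv
  have h1' : deriv (fun s : ℝ => Real.exp (a * √(s + L ^ 2))) =ᶠ[𝓝 (‖y - x‖ ^ 2)]
      fun s => Real.exp (a * √(s + L ^ 2)) * (a / 2) * (√(s + L ^ 2))⁻¹ := by
    filter_upwards [Ioi_mem_nhds hs0] with s hs
    exact h1 s hs
  set ρ := √(‖y - x‖ ^ 2 + L ^ 2) with hρ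
  have hρ0 : 0 < ρ := Real.sqrt_pos.2 (hpos _ hs0)
  have hρ2 : ρ ^ 2 = ‖y - x‖ ^ 2 + L ^ 2 := Real.sq_sqrt (hpos _ hs0).le
  have hρL : L ≤ ρ := le_of_sq_le_sq (by nlinarith [sq_nonneg ‖y - x‖]) hρ0.le
  have h2 : deriv (deriv fun s : ℝ => Real.exp (a * √(s + L ^ 2))) (‖y - x‖ ^ 2) =
      Real.exp (a * ρ) * (a ^ 2 / (4 * ρ ^ 2) - a / (4 * ρ ^ 3)) := by
    rw [h1'.deriv_eq]
    have h := ((((hD _ hs0).const_mul a).exp).mul_const (a / 2)).fun_mul
      ((hD _ hs0).fun_inv hρ0.ne')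
    refine (h.congr_deriv ?_).deriv
    rw [← hρ]
    field_simp
    ring
  rw [lap_rad (F := fun s : ℝ => Real.exp (a * √(s + L ^ 2))) hF, h2, h1 _ hs0, ← hρ]
  have hE := Real.exp_pos (a * ρ)
  have e : 4 * ‖y - x‖ ^ 2 * (Real.exp (a * ρ) * (a ^ 2 / (4 * ρ ^ 2) - a / (4 * ρ ^ 3))) +
      2 * n * (Real.exp (a * ρ) * (a / 2) * ρ⁻¹) =
      (a ^ 2 * (‖y - x‖ ^ 2 / ρ ^ 2) - a * ‖y - x‖ ^ 2 / ρ ^ 3 + a * n / ρ) * Real.exp (a * ρ) := by
    field_simp
  rw [e]
  refine mul_le_mul_of_nonneg_right ?_ hE.le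
  have h3 : ‖y - x‖ ^ 2 / ρ ^ 2 ≤ 1 := by
    rw [div_le_one (by positivity)]; nlinarith [sq_nonneg L]
  have h4 : a * n / ρ ≤ a * n / L := div_le_div_of_nonneg_left (by positivity) hL hρL
  have h5 : 0 ≤ a * ‖y - x‖ ^ 2 / ρ ^ 3 := by positivity
  have h6 := mul_le_mul_of_nonneg_left h3 (sq_nonneg a)
  linarith

theorem contDiff_expbar (a : ℝ) {L : ℝ} (hL : 0 < L) (x : EE n) {k : WithTop ℕ∞} :
    ContDiff ℝ k fun z : EE n => Real.exp (a * √(‖z - x‖ ^ 2 + L ^ 2)) :=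
  (contDiff_const.mul (((contDiff_sq x).add contDiff_const).sqrt fun z => by positivity)).exp

/-- subsolutions of `Δ w ≥ μ w` decay exponentially into a ball, any rate `a < √μ` -/
theorem decay_core (n : ℕ) {a μ : ℝ} (ha : 0 ≤ a) (hμ : a ^ 2 < μ) : ∃ C : ℝ, 1 ≤ C ∧
    ∀ (w : EE n → ℝ) (x : EE n) (R M : ℝ), 0 ≤ R → 0 ≤ M → ContinuousOn w (closedBall x R) →
      (∀ y ∈ ball x R, ContDiffAt ℝ 2 w y) → (∀ y ∈ ball x R, 0 < w y → μ * w y ≤ (Δ w) y) →
      (∀ y, ‖y - x‖ = R → w y ≤ M) → w x ≤ C * M * Real.exp (-a * R) := by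
  obtain ⟨L, hL, hL1⟩ : ∃ L : ℝ, 0 < L ∧ a ^ 2 + a * n / L < μ := by
    refine ⟨(a * n + 1) / (μ - a ^ 2), div_pos (by positivity) (by linarith), ?_⟩
    have h1 : 0 < μ - a ^ 2 := by linarith
    have : a * n / ((a * n + 1) / (μ - a ^ 2)) < μ - a ^ 2 := by
      rw [div_lt_iff₀ (div_pos (by positivity) h1), mul_div_cancel₀ _ h1.ne']
      linarith
    linarith
  refine ⟨Real.exp (a * L), Real.one_le_exp (by positivity), fun w x R M hR hM hc hw hL' hb => ?_⟩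
  have hg := contDiff_expbar a hL x (k := 2)
  obtain ⟨y, hy, h1, h2⟩ := touch (isCompact_closedBall x R) ⟨x, mem_closedBall_self hR⟩ hc
    hg.continuous.continuousOn (fun y _ => Real.exp_pos _)
  have h3 := h1 x (mem_closedBall_self hR)
  simp only [sub_self, norm_zero] at h3
  rw [show (0 : ℝ) ^ 2 + L ^ 2 = L ^ 2 by ring, Real.sqrt_sq hL.le] at h3
  have hE := Real.exp_pos (a * √(‖y - x‖ ^ 2 + L ^ 2))
  have hRHS : 0 ≤ Real.exp (a * L) * M * Real.exp (-a * R) := by positivity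
  rcases le_or_gt (w y) 0 with hwy | hwy
  · have : w x * Real.exp (a * √(‖y - x‖ ^ 2 + L ^ 2)) ≤ 0 :=
      h3.trans (mul_nonpos_of_nonpos_of_nonneg hwy (Real.exp_pos _).le)
    have := nonpos_of_mul_nonpos_left this hE
    linarith
  have hyx : ‖y - x‖ ≤ R := by rwa [mem_closedBall, dist_eq_norm] at hy
  rcases hyx.eq_or_lt with h | h
  · have h4 : R ≤ √(‖y - x‖ ^ 2 + L ^ 2) := Real.le_sqrt_of_sq_le (by rw [h]; nlinarith)
    have h5 : Real.exp (a * R) ≤ Real.exp (a * √(‖y - x‖ ^ 2 + L ^ 2)) :=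
      Real.exp_le_exp.2 (mul_le_mul_of_nonneg_left h4 ha)
    have h6 := mul_le_mul_of_nonneg_right (hb y h) (Real.exp_pos (a * L)).le
    rcases le_or_gt (w x) 0 with hx | hx
    · linarith
    have h7 := mul_le_mul_of_nonneg_left h5 hx.le
    have h8 : w x * Real.exp (a * R) ≤ M * Real.exp (a * L) := by linarith
    have h9 := mul_le_mul_of_nonneg_right h8 (Real.exp_pos (-a * R)).le
    rw [mul_assoc, ← Real.exp_add, show a * R + -a * R = 0 by ring, Real.exp_zero] at h9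
    linarith
  · exfalso
    have hyb : y ∈ ball x R := by rwa [mem_ball, dist_eq_norm]
    have h4 := (h2 (mem_of_superset (isOpen_ball.mem_nhds hyb) ball_subset_closedBall)
      (hw y hyb) hg.contDiffAt).2
    have h5 := mul_le_mul_of_nonneg_left (lap_expbar ha hL x y) hwy.le
    have h6 := mul_le_mul_of_nonneg_left (hL' y hyb hwy) hE.le
    have h7 := mul_lt_mul_of_pos_right hL1 (mul_pos hwy hE)
    nlinarith

theorem lap_one_sub {v : EE n → ℝ} {z : EE n} (hv : ContDiffAt ℝ 2 v z) :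
    (Δ fun x => 1 - v x) z = -(Δ v) z := by
  have h1 : (Δ fun x => 1 - v x) z = (Δ fun _ : EE n => (1 : ℝ)) z - (Δ v) z :=
    (contDiffAt_const (c := (1 : ℝ))).laplacian_sub hv
  have h2 : (Δ fun _ : EE n => (1 : ℝ)) z = 0 := by
    rw [lap_eq contDiffAt_const]
    refine Finset.sum_eq_zero fun i _ => ?_
    have : pdv i (fun _ : EE n => (1 : ℝ)) = fun _ => 0 := by funext y; simp [pdv]
    rw [this]; simp [pdv]
  rw [h1, h2, zero_sub]

theorem decay : DecayStmt := by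
  intro n a ha ha2
  have h2 : a ^ 2 < 2 := by
    have := pow_lt_pow_left₀ ha2 ha two_ne_zero
    rwa [Real.sq_sqrt (by norm_num)] at this
  set ε := (2 - a ^ 2) / 4 with hε
  have hε0 : 0 < ε := by rw [hε]; linarith
  have hε1 : ε ≤ 1 / 2 := by rw [hε]; nlinarith [sq_nonneg a]
  obtain ⟨R0, hR0, hb⟩ := ballS n ε hε0
  obtain ⟨C, hC1, hC⟩ := decay_core n ha (μ := 2 - 3 * ε) (by rw [hε]; linarith)
  refine ⟨C * 2 * Real.exp (a * R0), fun v hv x R hpos => ?_⟩
  have hE := Real.exp_pos (a * R0)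
  have e : C * 2 * Real.exp (a * R0) * Real.exp (-a * R) = C * 2 * Real.exp (-a * (R - R0)) := by
    rw [mul_assoc, ← Real.exp_add]; congr 2; ring
  rw [e]
  rcases le_or_gt R R0 with h | h
  · have h1 : 1 ≤ Real.exp (-a * (R - R0)) := Real.one_le_exp (by nlinarith)
    have h3 := (hv.mem x).1
    nlinarith
  refine hC (fun y => 1 - v y) x (R - R0) 2 (by linarith) (by norm_num)
    (continuous_const.sub hv.c2.continuous).continuousOn
    (fun _ _ => contDiffAt_const.sub hv.c2.contDiffAt) (fun y hy hw => ?_)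
    (fun y _ => by linarith [(hv.mem y).1])
  have h3 := hb v hv y fun z hz => hpos z (by
    rw [mem_ball] at *
    linarith [dist_triangle z y x])
  rw [lap_one_sub hv.c2.contDiffAt, hv.eq]
  have h4 : 2 - 3 * ε ≤ v y * (1 + v y) := by nlinarith
  have h5 := mul_le_mul_of_nonneg_right h4 hw.le
  nlinarith

end Crest.Agent.N067
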