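import Crest.Agent.N067.A.DVar
import Crest.Agent.N067.A.SMP

/-!
# Row 67, basics: Modica's estimate `t ≥ 0` and the rigidity `t(x0) = 0 ⇒` planar (helper43)

`modica : ModicaStmt` by Bernstein's cut-off argument (maximum of `(R² - |x|²)² (|∇d|² - 1)`, no a
priori bound on `∇d`), `oneD : OneDStmt` by the strong maximum principle.
-/

set_option autoImplicit false

open MeasureTheory Laplacian InnerProductSpace Topology Filter Set Metric
open scoped RealInnerProductSpace Gradient ContDiff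

namespace Crest.Agent.N067

open Crest.Agent.R077

noncomputable section

variable {n : ℕ} {v : EE n → ℝ}

theorem bern_alg {N s ρ r2 R2 w G H L ε : ℝ} (hN : 1 ≤ N) (hs : 0 < s) (hρ : 0 < ρ) (hρR : ρ ≤ R2)
    (hr : r2 ≤ R2) (hw : w ^ 2 ≤ 1) (hε : 0 < ε) (hε1 : ε ≤ 1)
    (hG : G ^ 2 ≤ (1 + s) * (4 * r2)) (hH : 2 * w ^ 2 * s ^ 2 ≤ N * H)
    (h1 : ρ ^ 2 * L ≤ s * (4 * N * ρ + 24 * r2))
    (h2 : ρ ^ 2 * L = -4 * Real.sqrt 2 * w * ρ * s * G
      + ρ ^ 2 * (2 * (1 - w ^ 2) * s * (1 + s) + 2 * H)) :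
    ρ ^ 2 * s ≤ ε * R2 ^ 2 + (N * (4 * N + 24) + 32 * N ^ 2 / ε) * R2 := by
  have hR2 : 0 < R2 := hρ.trans_le hρR
  have a1 : 2 * s ^ 2 ≤ N * (2 * (1 - w ^ 2) * s * (1 + s) + 2 * H) := by
    have b1 : 0 ≤ (1 - w ^ 2) * s := mul_nonneg (by linarith) hs.le
    have b2 : (1 - w ^ 2) * s * s ≤ N * ((1 - w ^ 2) * s * (1 + s)) := by
      have : (1 - w ^ 2) * s * s ≤ (1 - w ^ 2) * s * (1 + s) := by nlinarith
      have : 0 ≤ (1 - w ^ 2) * s * (1 + s) := by positivity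
      nlinarith
    nlinarith [mul_nonneg (sq_nonneg w) (sq_nonneg s)]
  have a2 : 4 * N * ρ + 24 * r2 ≤ (4 * N + 24) * R2 := by nlinarith
  have a3 : s * (2 * (ρ ^ 2 * s)) ≤ s * (N * ((4 * N + 24) * R2) + 4 * Real.sqrt 2 * N * w * ρ * G) := by
    have b1 : ρ ^ 2 * (2 * s ^ 2) ≤ ρ ^ 2 * (N * (2 * (1 - w ^ 2) * s * (1 + s) + 2 * H)) :=
      mul_le_mul_of_nonneg_left a1 (sq_nonneg ρ)
    have b2 : s * (4 * N * ρ + 24 * r2) ≤ s * ((4 * N + 24) * R2) :=
      mul_le_mul_of_nonneg_left a2 hs.le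
    have b3 : N * (ρ ^ 2 * L) ≤ N * (s * ((4 * N + 24) * R2)) :=
      mul_le_mul_of_nonneg_left (h1.trans b2) (by linarith)
    rw [h2] at b3
    nlinarith
  have a4 := le_of_mul_le_mul_left a3 hs
  have a5 : 4 * Real.sqrt 2 * N * w * ρ * G ≤ ε * (ρ ^ 2 * (1 + s)) + 32 * N ^ 2 / ε * R2 := by
    have b0 : G ^ 2 ≤ (1 + s) * (4 * R2) := hG.trans (by nlinarith)
    set A := ε * (ρ ^ 2 * (1 + s)) with hA
    set B := 32 * N ^ 2 / ε * R2 with hB
    have hA0 : 0 ≤ A := by positivity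
    have hB0 : 0 ≤ B := by positivity
    have hAB : A * B = 32 * N ^ 2 * ρ ^ 2 * ((1 + s) * R2) := by rw [hA, hB]; field_simp
    have b1 : (4 * Real.sqrt 2 * N * w * ρ * G) ^ 2 ≤ 4 * (A * B) := by
      have e : (4 * Real.sqrt 2 * N * w * ρ * G) ^ 2 = 32 * N ^ 2 * ρ ^ 2 * (w ^ 2 * G ^ 2) := by
        simp only [mul_pow, sqrt2_sq]; ring
      have c1 : w ^ 2 * G ^ 2 ≤ (1 + s) * (4 * R2) := by nlinarith [sq_nonneg G, sq_nonneg w]
      have c2 := mul_le_mul_of_nonneg_left c1 (show 0 ≤ 32 * N ^ 2 * ρ ^ 2 by positivity)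
      rw [e, hAB]; linarith
    refine le_trans (le_abs_self _) (abs_le_of_sq_le_sq' ?_ (by positivity)).2
    rw [sq_abs]
    nlinarith [sq_nonneg (A - B)]
  have a6 : ρ ^ 2 ≤ R2 ^ 2 := pow_le_pow_left₀ hρ.le hρR 2
  have a7 : ε * (ρ ^ 2 * s) ≤ ρ ^ 2 * s := mul_le_of_le_one_left (by positivity) hε1
  have a8 : ε * ρ ^ 2 ≤ ε * R2 ^ 2 := mul_le_mul_of_nonneg_left a6 hε.le
  nlinarith

theorem Sol.bern (h : Sol v) (hn : 1 ≤ n) (x0 : EE n) {R ε : ℝ} (hR : 0 < R) (hε : 0 < ε)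
    (hε1 : ε ≤ 1) : (R ^ 2) ^ 2 * -tt v x0
      ≤ ε * (R ^ 2) ^ 2 + (n * (4 * n + 24) + 32 * (n : ℝ) ^ 2 / ε) * R ^ 2 := by
  set ρ : EE n → ℝ := fun y => R ^ 2 - ‖y - x0‖ ^ 2 with hρ
  set s : EE n → ℝ := fun y => -tt v y with hs
  have cρ : ContDiff ℝ 2 ρ := contDiff_const.sub (contDiff_sq x0)
  have cs : ContDiff ℝ 2 s := (h.tt_cd 2).neg
  have cF : ContDiff ℝ 2 fun y => ρ y ^ 2 * s y := (cρ.pow 2).mul cs
  obtain ⟨y, hy, hmax⟩ := (isCompact_closedBall x0 R).exists_isMaxOn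
    ⟨x0, mem_closedBall_self hR.le⟩ cF.continuous.continuousOn
  have h0 : ρ x0 ^ 2 * s x0 ≤ ρ y ^ 2 * s y := hmax (mem_closedBall_self hR.le)
  have e0 : ρ x0 = R ^ 2 := by simp [hρ]
  rw [e0] at h0
  refine h0.trans ?_
  by_cases hsy : ρ y ^ 2 * s y ≤ 0
  · exact hsy.trans (by positivity)
  push Not at hsy
  have hs0 : 0 < s y := (pos_iff_pos_of_mul_pos hsy).1
    (lt_of_le_of_ne (sq_nonneg _) fun e => by rw [← e] at hsy; simp at hsy)
  have hyR : ‖y - x0‖ ≤ R := mem_closedBall_iff_norm.1 hy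
  have hr : ‖y - x0‖ ^ 2 ≤ R ^ 2 := pow_le_pow_left₀ (norm_nonneg _) hyR 2
  have hρ0 : 0 < ρ y := by
    refine lt_of_le_of_ne (by simp only [hρ]; linarith) fun e => ?_
    rw [← e] at hsy; simp at hsy
  have hyb : y ∈ ball x0 R := by
    rw [mem_ball_iff_norm]
    exact lt_of_pow_lt_pow_left₀ 2 hR.le (by simp only [hρ] at hρ0; linarith)
  have hloc : IsLocalMax (fun y => ρ y ^ 2 * s y) y :=
    hmax.isLocalMax (mem_of_superset (isOpen_ball.mem_nhds hyb) ball_subset_closedBall)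
  have dρ := cρ.differentiable (by norm_num) y
  have ds := cs.differentiable (by norm_num) y
  have d1 : ∀ i, ρ y * pdv i s y = -2 * s y * pdv i ρ y := by
    intro i
    have e := pdv_of_max hloc i
    rw [pdv_mul (f := fun y => ρ y ^ 2) (dρ.pow 2) ds, pdv_sq dρ] at e
    have : ρ y * (ρ y * pdv i s y - -2 * s y * pdv i ρ y) = 0 := by linarith
    rcases mul_eq_zero.1 this with e | e
    · exact absurd e hρ0.ne'
    · linarith
  have d1' : ∀ f : EE n → ℝ, ρ y * gin f s y = -2 * s y * gin f ρ y := by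
    intro f
    simp only [gin, Finset.mul_sum]
    refine Finset.sum_congr rfl fun i _ => ?_
    have := d1 i
    linear_combination pdv i f y * this
  have gρ : gsq ρ y = 4 * ‖y - x0‖ ^ 2 := by
    rw [← gsq_normSq]
    simp only [gsq, hρ, pdv_const_sub, neg_sq]
  have lρ : (Δ ρ) y = -(2 * (n : ℝ)) := by
    rw [hρ, lap_const_sub (contDiff_sq x0).contDiffAt, lap_normSq]
  have d2 := lap_of_max cF.contDiffAt hloc
  rw [lap_mul' (f := fun y => ρ y ^ 2) (cρ.pow 2).contDiffAt cs.contDiffAt, lap_sq cρ.contDiffAt,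
    gρ, lρ, gin_comm, gin_comp_right (φ := fun r => r ^ 2) (φ' := 2 * ρ y)
      (by simpa using hasDerivAt_pow 2 (ρ y)) dρ, gin_comm] at d2
  have d3 := d1' ρ
  rw [gin_self, gρ] at d3
  have eL : (Δ s) y = 2 * Real.sqrt 2 * v y * gin (dd v) s y
      + (2 * (1 - v y ^ 2) * s y * (1 + s y) + 2 * hsq (dd v) y) := by
    have e := h.Lm_tt y
    have e1 : gin (dd v) s y = -gin (dd v) (tt v) y := by
      simp only [gin, hs, pdv_neg, mul_neg, Finset.sum_neg_distrib]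
    rw [Lm_eq, qq, psi] at e
    rw [e1, hs, lap_neg' (h.tt_cd 2).contDiffAt]
    linarith
  refine bern_alg (r2 := ‖y - x0‖ ^ 2) (w := v y) (G := gin (dd v) ρ y) (H := hsq (dd v) y)
    (L := (Δ s) y) (by exact_mod_cast hn) hs0 hρ0 (by simp [hρ]) hr
    (by nlinarith [one_sub_sq_pos (h.lt y)]) hε hε1 ?_ ?_ ?_ ?_
  · have e := gin_sq_le (dd v) ρ y
    rw [gρ] at e
    have e2 : gsq (dd v) y = 1 + s y := by simp only [hs, tt_eq]; ring
    rwa [e2] at e
  · have e := h.hsq_ge y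
    simpa only [hs, neg_sq] using e
  · nlinarith
  · rw [eL]
    have := d1' (dd v)
    linear_combination 2 * Real.sqrt 2 * v y * ρ y * this

/-- **Modica's estimate** -/
theorem Sol.tt_nonneg (h : Sol v) (x : EE n) : 0 ≤ tt v x := by
  rcases Nat.eq_zero_or_pos n with rfl | hn
  · simp [tt_eq, gsq]
  by_contra hneg
  push Not at hneg
  set s := -tt v x with hs
  have hs0 : 0 < s := by linarith
  set ε := min 1 (s / 2) with hε
  have hε0 : 0 < ε := lt_min one_pos (by positivity)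
  set C := (n * (4 * n + 24) + 32 * (n : ℝ) ^ 2 / ε) with hC
  have hC0 : 0 ≤ C := by positivity
  set R := Real.sqrt (2 * C / s + 1) with hR
  have hR2 : R ^ 2 = 2 * C / s + 1 := Real.sq_sqrt (by positivity)
  have hR0 : 0 < R := Real.sqrt_pos.2 (by positivity)
  have h1 := h.bern hn x hR0 hε0 (min_le_left _ _)
  rw [← hs, ← hC] at h1
  have h2 : ε * (R ^ 2) ^ 2 ≤ s / 2 * (R ^ 2) ^ 2 :=
    mul_le_mul_of_nonneg_right (min_le_right _ _) (by positivity)
  have h3 : R ^ 2 * (R ^ 2 * (s / 2)) ≤ R ^ 2 * C := by nlinarith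
  have h4 := le_of_mul_le_mul_left h3 (by positivity)
  have h5 : R ^ 2 * (s / 2) = C + s / 2 := by rw [hR2]; field_simp
  linarith

theorem modica : ModicaStmt := fun _ _ h => h.tt_nonneg

theorem Sol.gsq_dd_le (h : Sol v) (x : EE n) : gsq (dd v) x ≤ 1 := by
  have := h.tt_nonneg x
  rw [tt_eq] at this
  linarith

theorem Sol.norm_grad_dd_le (h : Sol v) (x : EE n) : ‖∇ (dd v) x‖ ≤ 1 := by
  have := h.gsq_dd_le x
  rw [gsq_eq] at this
  exact (sq_le_one_iff₀ (norm_nonneg _)).1 this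

theorem norm_grad (f : EE n → ℝ) (x : EE n) : ‖∇ f x‖ = ‖fderiv ℝ f x‖ := by
  rw [gradient, LinearIsometryEquiv.norm_map]

theorem Sol.qq_nonneg (h : Sol v) (x : EE n) : 0 ≤ qq v x :=
  mul_nonneg (h.psi_pos x).le (h.tt_nonneg x)

/-- `d` is `1`-Lipschitz -/
theorem Sol.dd_lip (h : Sol v) : LipschitzWith 1 (dd v) :=
  lipschitzWith_of_nnnorm_fderiv_le h.dd_diff fun x => by
    have := h.norm_grad_dd_le x
    rw [norm_grad] at this
    exact_mod_cast this

theorem Sol.abs_dd_sub_le (h : Sol v) (x y : EE n) : |dd v x - dd v y| ≤ ‖x - y‖ := by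
  have := h.dd_lip.dist_le_mul x y
  rwa [Real.dist_eq, dist_eq_norm, NNReal.coe_one, one_mul] at this

/-- either `t > 0` everywhere or `t = 0` everywhere -/
theorem Sol.tt_eq_zero (h : Sol v) {x0 : EE n} (h0 : tt v x0 = 0) (x : EE n) : tt v x = 0 := by
  refine smp_sum (b := fun i x => -(2 * Real.sqrt 2 * v x * pdv i (dd v) x))
    (c := fun x => -(2 * psi v x * (1 - tt v x))) (h.tt_cd 2) h.tt_nonneg (fun i => ?_) ?_
    (fun x => ?_) h0 x
  · exact ((continuous_const.mul h.sm.continuous).mul (h.pdv_dd_sm i).continuous).neg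
  · exact ((continuous_const.mul h.psi_sm.continuous).mul
      (continuous_const.sub h.tt_sm.continuous)).neg
  · have e := h.Lm_tt x
    rw [Lm_eq, qq] at e
    have e2 : ∑ i, -(2 * Real.sqrt 2 * v x * pdv i (dd v) x) * pdv i (tt v) x
        = -(2 * Real.sqrt 2 * v x * gin (dd v) (tt v) x) := by
      simp only [gin, Finset.mul_sum, ← Finset.sum_neg_distrib]
      exact Finset.sum_congr rfl fun i _ => by ring
    rw [e2]
    linarith [hsq_nonneg (dd v) x]

theorem const_of_pdv {f : EE n → ℝ} (hf : Differentiable ℝ f) (h : ∀ i x, pdv i f x = 0)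
    (x y : EE n) : f x = f y := by
  refine is_const_of_fderiv_eq_zero hf (fun z => ?_) x y
  ext w
  rw [fderiv_eq_sum']
  simp [h]

/-- a function with vanishing Hessian is affine -/
theorem affine_of_hsq {f : EE n → ℝ} (hf : ContDiff ℝ 2 f) (h : ∀ x, hsq f x = 0) (x : EE n) :
    f x = ⟪∇ f 0, x⟫ + f 0 := by
  have h1 : ∀ i j x, pdv i (pdv j f) x = 0 := by
    intro i j x
    have e := h x
    rw [hsq_eq, Finset.sum_eq_zero_iff_of_nonneg
      fun _ _ => Finset.sum_nonneg fun _ _ => sq_nonneg _] at e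
    have e2 := e i (Finset.mem_univ i)
    rw [Finset.sum_eq_zero_iff_of_nonneg fun _ _ => sq_nonneg _] at e2
    exact pow_eq_zero_iff two_ne_zero |>.1 (e2 j (Finset.mem_univ j))
  have h2 : ∀ j x, pdv j f x = pdv j f 0 := fun j x =>
    const_of_pdv (fun y => diffAt_pdv hf.contDiffAt j) (fun i y => h1 i j y) x 0
  have df := hf.differentiable (by norm_num)
  have dl : Differentiable ℝ fun y : EE n => ⟪∇ f 0, y⟫ := (innerSL ℝ (∇ f 0)).differentiable
  have h3 := const_of_pdv (f := fun y => f y - ⟪∇ f 0, y⟫) (df.sub dl) (fun i y => by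
    rw [pdv_sub (df y) (dl y), pdv_inner, grad_apply, h2, sub_self]) x 0
  simp only [inner_zero_right, sub_zero] at h3
  linarith

theorem Sol.planarIn (h : Sol v) {x0 : EE n} (h0 : tt v x0 = 0) : PlanarIn v (∇ (dd v) 0) := by
  have ht : tt v = fun _ => 0 := funext (h.tt_eq_zero h0)
  have hH : ∀ x, hsq (dd v) x = 0 := by
    intro x
    have e := h.Lm_tt x
    rw [Lm_eq, qq, ht, lap_const] at e
    simp only [gin, pdv_const] at e
    simpa using e
  refine ⟨?_, -dd v 0, fun x => ?_⟩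
  · have e := congrFun ht 0
    rw [tt] at e
    have : ‖∇ (dd v) 0‖ ^ 2 = 1 ^ 2 := by linarith
    exact (pow_left_inj₀ (norm_nonneg _) zero_le_one two_ne_zero).1 this
  · rw [h.eq_tanh x, affine_of_hsq (h.dd_cd 2) hH x, sub_neg_eq_add]

theorem oneD : OneDStmt := fun _ _ h _ h0 => ⟨_, h.planarIn h0⟩

theorem Sol.planar_or (h : Sol v) : Planar v ∨ ∀ x, 0 < tt v x := by
  by_cases e : ∃ x, tt v x = 0
  · obtain ⟨x, hx⟩ := e
    exact Or.inl ⟨_, h.planarIn hx⟩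
  · push Not at e
    exact Or.inr fun x => lt_of_le_of_ne (h.tt_nonneg x) (e x).symm

end

end Crest.Agent.N067
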