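import Crest.Agent.N067.A.Reg
import Crest.Agent.N067.A.Defs

/-! Row 67, basics (helper2): `RegStmt`. -/

set_option autoImplicit false

namespace Crest.Agent.N067

theorem reg : RegStmt := fun n k => by
  obtain ⟨C, -, hC⟩ := Ker.ac_iter n k
  exact ⟨C, fun v hv => ⟨Ker.ac_smooth hv.c2 hv.bd hv.eq, hC v hv.c2 hv.bd hv.eq k le_rfl⟩⟩

theorem IsSol.smooth {n : ℕ} {v : R077.EE n → ℝ} (h : IsSol v) : ContDiff ℝ (⊤ : ℕ∞) v :=
  Ker.ac_smooth h.c2 h.bd h.eq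

/-- universal bounds in the class `Ker.Bd` -/
theorem exists_bd (n k : ℕ) : ∃ C : ℝ, ∀ v : R077.EE n → ℝ, IsSol v → Ker.Bd k C v := by
  obtain ⟨C, hC⟩ := Ker.ac_bd n k
  exact ⟨C, fun v hv => hC v hv.c2 hv.bd hv.eq⟩

end Crest.Agent.N067
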