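import Crest.Agent.N067.A.UB
import Crest.Agent.N067.A.RegS
import Crest.Agent.N067.A.Modica

/-!
# Row 67 basics (helper47): universal bounds for `d`, `dreg : DRegStmt`

`SS n` is the family of all strict solutions.  `ub_v, ub_psi, ub_d, ub_t, ub_q, ub_B`: the functions
`v, ψ, ∂_i d, t, q, B_ij` and all their derivatives are bounded by universal constants.
-/

set_option autoImplicit false

open MeasureTheory Laplacian InnerProductSpace Topology Filter Set Metric
open scoped RealInnerProductSpace ContDiff Gradient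

namespace Crest.Agent.N067

open Crest.Agent.R077

noncomputable section

variable {n : ℕ}

/-- the family of all strict solutions -/
abbrev SS (n : ℕ) : Type := {v : EE n → ℝ // Sol v}

/-- the drift `b = 2√2 v ∇d` -/
def bb (v : EE n → ℝ) (j : Fin n) (x : EE n) : ℝ := 2 * Real.sqrt 2 * (v x * pdv j (dd v) x)

theorem lap_eq_Lm (v f : EE n → ℝ) (x : EE n) :
    (Δ f) x = ∑ j, bb v j x * pdv j f x + Lm v f x := by
  rw [Lm_eq, gin, Finset.mul_sum]
  simp only [bb, mul_assoc]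
  ring

theorem ub_v (k : ℕ) : UB (fun _ _ => 1) k fun a : SS n => a.1 := by
  obtain ⟨C, hC⟩ := exists_bd n k
  exact ub_of_bd (fun a => a.2.sm) fun a => hC a.1 a.2.isSol

theorem ub_psi (k : ℕ) : UB (fun _ _ => 1) k fun a : SS n => psi a.1 :=
  ((ub_const 1).sub ((ub_v k).bmul (ub_v k))).congr fun a x => by unfold psi; ring

theorem ub_t_of {k : ℕ} (h : ∀ i, UB (fun _ _ => 1) k fun a : SS n => pdv i (dd a.1)) :
    UB (fun _ _ => 1) k fun a : SS n => tt a.1 :=
  ((ub_const 1).sub (UB.sum Finset.univ fun i _ => (h i).bmul (h i))).congr fun a x => by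
    simp only [tt_eq, gsq, sq]

theorem Sol.abs_pdv_dd_le {v : EE n → ℝ} (h : Sol v) (i : Fin n) (x : EE n) :
    |pdv i (dd v) x| ≤ 1 :=
  (abs_pdv_le_fderiv _ i x).trans (by rw [← norm_grad]; exact h.norm_grad_dd_le x)

theorem ub_d (k : ℕ) (i : Fin n) : UB (fun _ _ => 1) k fun a : SS n => pdv i (dd a.1) := by
  have h0 : ∀ i, UB (fun _ _ => 1) 0 fun a : SS n => pdv i (dd a.1) := fun i =>
    ⟨fun a => a.2.pdv_dd_sm i, 1, zero_le_one, fun a x => by
      rw [mul_one]; exact a.2.abs_pdv_dd_le i x⟩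
  induction k generalizing i with
  | zero => exact h0 i
  | succ k ih =>
    refine UB.gain wc_one (b := fun j a => bb a.1 j)
      (fun j => ((ub_v k).bmul (ih j)).const_mul _)
      (((ub_psi k).bmul (ub_t_of ih)).neg.bmul (ih i)) (h0 i) fun a x => ?_
    rw [lap_eq_Lm a.1, a.2.Lm_pdv]
    rfl

theorem ub_t (k : ℕ) : UB (fun _ _ => 1) k fun a : SS n => tt a.1 := ub_t_of (ub_d k)

theorem ub_q (k : ℕ) : UB (fun _ _ => 1) k fun a : SS n => qq a.1 := (ub_psi k).bmul (ub_t k)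

theorem ub_b (k : ℕ) (j : Fin n) : UB (fun _ _ => 1) k fun a : SS n => bb a.1 j :=
  ((ub_v k).bmul (ub_d k j)).const_mul _

theorem ub_B (k : ℕ) (i j : Fin n) : UB (fun _ _ => 1) k fun a : SS n => hs (dd a.1) i j :=
  (ub_d (k + 1) j).pdv i

theorem ub_hsq (k : ℕ) : UB (fun _ _ => 1) k fun a : SS n => hsq (dd a.1) :=
  (UB.sum Finset.univ fun i _ => UB.sum Finset.univ fun j _ =>
    (ub_B k i j).bmul (ub_B k i j)).congr fun a x => by simp only [hsq, sq]

theorem dreg : DRegStmt := fun n k => by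
  obtain ⟨C, -, hC⟩ := ub_iter_succ (fun a : SS n => a.2.dd_sm) (ub_d k)
  exact ⟨C, fun v hv x => by simpa using hC ⟨v, hv⟩ x⟩

theorem Sol.bb_sm {v : EE n → ℝ} (h : Sol v) (j : Fin n) : ContDiff ℝ ∞ (bb v j) :=
  contDiff_const.mul (h.sm.mul (h.pdv_dd_sm j))

/-- the equation of `B_ij` -/
theorem Sol.Lm_hs {v : EE n → ℝ} (h : Sol v) (i j : Fin n) (x : EE n) :
    Lm v (hs (dd v) i j) x = ∑ l, pdv i (bb v l) x * hs (dd v) l j x
      + pdv i (fun y => -(qq v y * pdv j (dd v) y)) x := by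
  have h1 := lap_pdv_eq (h.pdv_dd_sm j) h.bb_sm (g := fun y => -(qq v y * pdv j (dd v) y))
    (h.qq_sm.mul (h.pdv_dd_sm j)).neg (fun y => by rw [lap_eq_Lm v, h.Lm_pdv]; ring) i x
  have h2 := lap_eq_Lm v (hs (dd v) i j) x
  change (Δ (hs (dd v) i j)) x = ∑ l, bb v l x * pdv l (hs (dd v) i j) x
    + (∑ l, pdv i (bb v l) x * hs (dd v) l j x + _) at h1
  linarith

variable {ρ : SS n → EE n → ℝ} {k : ℕ}

/-- `t` is one order better than `B` -/
theorem ub_t_w (ht : UB ρ 0 fun a => tt a.1) (hB : ∀ i j, UB ρ k fun a => hs (dd a.1) i j) :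
    UB ρ (k + 1) fun a => tt a.1 :=
  ⟨ht, fun i => ((UB.sum Finset.univ fun l _ => (ub_d k l).bmul (hB l i)).const_mul (-2)).congr
    fun a x => by rw [a.2.pdv_tt]; rfl⟩

/-- the source of the equation of `B` -/
theorem ub_LmB (ht : UB ρ 0 fun a => tt a.1) (hB : ∀ i j, UB ρ k fun a => hs (dd a.1) i j)
    (i j : Fin n) : UB ρ k fun a => Lm a.1 (hs (dd a.1) i j) :=
  ((UB.sum Finset.univ fun l _ => ((ub_b (k + 1) l).pdv i).bmul (hB l j)).add
    ((((ub_psi (k + 1)).bmul (ub_t_w ht hB)).mulb (ub_d (k + 1) j)).neg.pdv i)).congr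
    fun a x => a.2.Lm_hs i j x

/-- weighted bootstrap for `B` -/
theorem ub_B_w (hρ : WC ρ) (ht : UB ρ 0 fun a => tt a.1)
    (hB : ∀ i j, UB ρ 0 fun a => hs (dd a.1) i j) (k : ℕ) (i j : Fin n) :
    UB ρ k fun a => hs (dd a.1) i j := by
  induction k generalizing i j with
  | zero => exact hB i j
  | succ k ih =>
    exact UB.gain hρ (b := fun l a => bb a.1 l) (ub_b k) (ub_LmB ht ih i j) (hB i j)
      fun a x => lap_eq_Lm a.1 _ x

end

end Crest.Agent.N067
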