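import Crest.Agent.N067.A.Reg

/-!
Row 67, basics (helper2): the gradient of the heat semigroup and of the resolvent on functions of
exponential growth; the bound `∫ |∇ G_μ| e^{a|z|} ≤ cG / √μ`; gradient representation.
-/

set_option autoImplicit false

open MeasureTheory Laplacian InnerProductSpace Topology Filter Set
open scoped RealInnerProductSpace ContDiff

namespace Crest.Agent.N067.Ker

open Crest.Agent.R077

noncomputable section

variable {n : ℕ}

/-- constant of the weighted gradient bound -/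
def cT (n : ℕ) (θ : ℝ) : ℝ := √(1 / (1 - θ)) / 2 * (θ ^ (-(n / 2 : ℝ)) * (1 - θ) ^ (-(n / 2 : ℝ)))

theorem cT_nonneg {θ : ℝ} (h0 : 0 < θ) (h1 : θ < 1) : 0 ≤ cT n θ := by
  have : 0 < 1 - θ := by linarith
  unfold cT
  positivity

theorem hk_div_norm_exp_le {s θ : ℝ} (hs : 0 < s) (h0 : 0 < θ) (h1 : θ < 1) (a : ℝ) (z : EE n) :
    hk s z / (2 * s) * ‖z‖ * Real.exp (a * ‖z‖) ≤
      cT n θ * (s ^ (-(1 / 2 : ℝ)) * Real.exp (a ^ 2 / θ ^ 2 * s)) * hk (s / θ / (1 - θ)) z := by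
  have h2 : 0 < 1 - θ := by linarith
  have h := norm_mul_hk_le hs (θ := 1 - θ) h2 (by linarith) z
  rw [sub_sub_cancel] at h
  have h3 := hk_mul_exp_le (div_pos hs h0) h0 h1 a z
  have h4 : s ^ (-(1 / 2 : ℝ)) = √s / s := by
    rw [Real.rpow_neg hs.le, ← Real.sqrt_eq_rpow, Real.sqrt_div_self']
    simp
  have h5 : √(s / (1 - θ)) = √(1 / (1 - θ)) * √s := by
    rw [← Real.sqrt_mul (by positivity)]
    congr 1
    ring
  calc _ = (‖z‖ * hk s z) * Real.exp (a * ‖z‖) / (2 * s) := by ring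
    _ ≤ (√(s / (1 - θ)) * θ ^ (-(n / 2 : ℝ)) * hk (s / θ) z) * Real.exp (a * ‖z‖) / (2 * s) := by
      gcongr
    _ = √(s / (1 - θ)) * θ ^ (-(n / 2 : ℝ)) * (hk (s / θ) z * Real.exp (a * ‖z‖)) / (2 * s) := by
      ring
    _ ≤ √(s / (1 - θ)) * θ ^ (-(n / 2 : ℝ)) * ((1 - θ) ^ (-(n / 2 : ℝ)) *
        Real.exp (a ^ 2 * (s / θ) / θ) * hk (s / θ / (1 - θ)) z) / (2 * s) := by gcongr
    _ = _ := by
      rw [h4, h5, cT, show a ^ 2 * (s / θ) / θ = a ^ 2 / θ ^ 2 * s by field_simp]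
      field_simp

theorem exists_theta2 {μ a : ℝ} (hμ : 0 < μ) (h : a ^ 2 < μ) :
    ∃ θ : ℝ, 0 < θ ∧ θ < 1 ∧ a ^ 2 / θ ^ 2 < μ := by
  obtain ⟨θ, h0, h1, h2⟩ := exists_theta hμ h
  refine ⟨(1 + θ) / 2, by linarith, by linarith, lt_of_le_of_lt ?_ h2⟩
  exact div_le_div_of_nonneg_left (sq_nonneg _) h0 (by nlinarith [sq_nonneg (1 - θ)])

theorem norm_hD_int_le' {s θ a M : ℝ} (hs : 0 < s) (h0 : 0 < θ) (h1 : θ < 1) {f : EE n → ℝ}
    (h : Gr a M f) (z : EE n) : ‖(hk s z / (2 * s) * f z) • innerSL ℝ z‖ ≤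
      M * cT n θ * (s ^ (-(1 / 2 : ℝ)) * Real.exp (a ^ 2 / θ ^ 2 * s)) * hk (s / θ / (1 - θ)) z := by
  have h2 : 0 ≤ hk s z / (2 * s) := div_nonneg (hk_pos hs z).le (by linarith)
  rw [norm_smul, innerSL_apply_norm, norm_mul, Real.norm_eq_abs, abs_of_nonneg h2,
    Real.norm_eq_abs]
  calc _ ≤ hk s z / (2 * s) * (M * Real.exp (a * ‖z‖)) * ‖z‖ := by gcongr; exact h z
    _ = M * (hk s z / (2 * s) * ‖z‖ * Real.exp (a * ‖z‖)) := by ring
    _ ≤ M * _ := mul_le_mul_of_nonneg_left (hk_div_norm_exp_le hs h0 h1 a z) h.nonneg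
    _ = _ := by ring

theorem norm_hD_le' {s θ a M : ℝ} (hs : 0 < s) (h0 : 0 < θ) (h1 : θ < 1) {f : EE n → ℝ} {x : EE n}
    (h : Gr a M fun z => f (x + z)) :
    ‖hD s f x‖ ≤ M * cT n θ * (s ^ (-(1 / 2 : ℝ)) * Real.exp (a ^ 2 / θ ^ 2 * s)) := by
  have h2 : 0 < s / θ / (1 - θ) := div_pos (div_pos hs h0) (by linarith)
  refine (norm_integral_le_of_norm_le ((integrable_hk h2).const_mul _)
    (Eventually.of_forall fun z => norm_hD_int_le' hs h0 h1 h z)).trans (le_of_eq ?_)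
  rw [integral_const_mul, integral_hk h2, mul_one]

theorem hD_aux' {s a M : ℝ} (hs : 0 < s) (ha : 0 ≤ a) {f : EE n → ℝ} (h : Gr a M f) {x x₀ : EE n}
    (hx : x ∈ Metric.ball x₀ 1) (y : EE n) :
    ‖(hk s (y - x) / (2 * s) * f y) • innerSL ℝ (y - x)‖ ≤
      M * Real.exp (a * (‖x₀‖ + 1)) * cT n (1 / 2) *
        (s ^ (-(1 / 2 : ℝ)) * Real.exp (a ^ 2 / (1 / 2) ^ 2 * s)) *
        (Real.exp (1 / (4 * (4 * s))) * cD n) * hk (2 * (4 * s)) (y - x₀) := by
  have h1 := norm_hD_int_le' hs (θ := 1 / 2) (by norm_num) (by norm_num) (h.shift ha x) (y - x)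
  rw [add_sub_cancel, show s / (1 / 2) / (1 - 1 / 2) = 4 * s by ring] at h1
  refine h1.trans ?_
  have h2 : ‖x‖ ≤ ‖x₀‖ + 1 := by
    have := norm_add_le x₀ (x - x₀)
    rw [add_sub_cancel] at this
    have h2 : ‖x - x₀‖ < 1 := by simpa [dist_eq_norm] using hx
    linarith
  have h3 := hk_shift_le (by linarith : 0 < 4 * s) hx y
  have := cT_nonneg (n := n) (θ := 1 / 2) (by norm_num) (by norm_num)
  have := h.nonneg
  have := (hk_pos (by linarith : 0 < 4 * s) (y - x)).le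
  rw [mul_assoc (_ * _ * _ * _)]
  gcongr

theorem hasFDerivAt_heatP' {s a M : ℝ} (hs : 0 < s) (ha : 0 ≤ a) {f : EE n → ℝ}
    (hf : AEStronglyMeasurable f volume) (h : Gr a M f) (x₀ : EE n) :
    HasFDerivAt (cv (hk s) f) (hD s f x₀) x₀ := by
  have hc := continuous_hk (n := n) s
  rw [show cv (hk s) f = fun x => ∫ y, hk s (y - x) * f y from funext (cv_eq _ _), hD_eq]
  refine hasFDerivAt_integral_of_dominated_of_fderiv_le (s := Metric.ball x₀ 1)
    (F := fun x y => hk s (y - x) * f y)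
    (F' := fun x y => (hk s (y - x) / (2 * s) * f y) • innerSL ℝ (y - x))
    (Metric.ball_mem_nhds _ one_pos)
    (Eventually.of_forall fun x =>
      (by fun_prop : Continuous fun y : EE n => hk s (y - x)).aestronglyMeasurable.mul hf) ?_
    (aesm_hD hf s x₀) (Eventually.of_forall fun y x hx => hD_aux' hs ha h hx y)
    (((integrable_hk (by linarith)).comp_sub_right x₀).const_mul _)
    (Eventually.of_forall fun y x _ => ?_)
  · have := (integrable_hk_mul hs (aesm_shift hf x₀) (h.shift ha x₀)).comp_sub_right x₀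
    simpa using this
  · have h1 := ((hasFDerivAt_hk (s := s) (y - x)).comp x
      ((hasFDerivAt_id x).const_sub y)).mul_const (f y)
    refine h1.congr_fderiv ?_
    ext v
    simp only [smul_apply, ContinuousLinearMap.comp_apply, neg_apply, ContinuousLinearMap.id_apply,
      map_neg, smul_eq_mul]
    ring

theorem continuous_hD' {s a M : ℝ} (hs : 0 < s) (ha : 0 ≤ a) {f : EE n → ℝ}
    (hf : AEStronglyMeasurable f volume) (h : Gr a M f) : Continuous (hD s f) := by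
  have hc := continuous_hk (n := n) s
  rw [show hD s f = _ from funext (hD_eq s f)]
  have h8 : 0 < 2 * (4 * s) := by linarith
  refine continuous_iff_continuousAt.2 fun x₀ => continuousAt_of_dominated
    (Eventually.of_forall fun x => aesm_hD hf s x)
    (Eventually.mono (Metric.ball_mem_nhds x₀ one_pos) fun x hx =>
      Eventually.of_forall fun y => hD_aux' hs ha h hx y)
    (((integrable_hk h8).comp_sub_right x₀).const_mul _)
    (Eventually.of_forall fun y => ?_)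
  fun_prop

theorem e_bound {μ θ a M s : ℝ} : Real.exp (-μ * s) *
    (M * cT n θ * (s ^ (-(1 / 2 : ℝ)) * Real.exp (a ^ 2 / θ ^ 2 * s))) =
    M * cT n θ * (Real.exp (-(μ - a ^ 2 / θ ^ 2) * s) * s ^ (-(1 / 2 : ℝ))) := by
  rw [show -(μ - a ^ 2 / θ ^ 2) * s = -μ * s + a ^ 2 / θ ^ 2 * s by ring, Real.exp_add]
  ring

theorem prod_hD_bound {μ θ a M : ℝ} (h0 : 0 < θ) (h1 : θ < 1) {f : EE n → ℝ} (h : Gr a M f)
    {s : ℝ} (hs : 0 < s) (z : EE n) :
    ‖(Real.exp (-μ * s) * (hk s z / (2 * s)) * f z) • innerSL ℝ z‖ ≤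
      M * cT n θ * (Real.exp (-(μ - a ^ 2 / θ ^ 2) * s) * s ^ (-(1 / 2 : ℝ))) *
        hk (s / θ / (1 - θ)) z := by
  rw [mul_assoc, mul_smul, norm_smul, Real.norm_eq_abs, abs_of_pos (Real.exp_pos _), ← e_bound,
    mul_assoc (Real.exp _)]
  exact mul_le_mul_of_nonneg_left (norm_hD_int_le' hs h0 h1 h z) (Real.exp_pos _).le

theorem int_prod_hD_bound {μ θ a M : ℝ} (h0 : 0 < θ) (h1 : θ < 1) {f : EE n → ℝ} (h : Gr a M f)
    {s : ℝ} (hs : 0 < s) :
    ∫ z, ‖(Real.exp (-μ * s) * (hk s z / (2 * s)) * f z) • innerSL ℝ z‖ ≤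
      M * cT n θ * (Real.exp (-(μ - a ^ 2 / θ ^ 2) * s) * s ^ (-(1 / 2 : ℝ))) := by
  have h2 : 0 < s / θ / (1 - θ) := div_pos (div_pos hs h0) (by linarith)
  refine (integral_mono_of_nonneg (Eventually.of_forall fun z => norm_nonneg _)
    ((integrable_hk h2).const_mul _) (Eventually.of_forall (prod_hD_bound h0 h1 h hs))).trans
    (le_of_eq ?_)
  rw [integral_const_mul, integral_hk h2, mul_one]

theorem integrable_prod_hD' {μ a M : ℝ} (hμ : 0 < μ) (ha : a ^ 2 < μ) {f : EE n → ℝ}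
    (hf : AEStronglyMeasurable f volume) (h : Gr a M f) :
    Integrable (fun p : ℝ × EE n =>
      (Real.exp (-μ * p.1) * (hk p.1 p.2 / (2 * p.1)) * f p.2) • innerSL ℝ p.2)
      ((volume.restrict (Ioi (0 : ℝ))).prod volume) := by
  obtain ⟨θ, h0, h1, hκ⟩ := exists_theta2 hμ ha
  have hm : AEStronglyMeasurable (fun p : ℝ × EE n =>
      (Real.exp (-μ * p.1) * (hk p.1 p.2 / (2 * p.1)) * f p.2) • innerSL ℝ p.2)
      ((volume.restrict (Ioi (0 : ℝ))).prod volume) :=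
    ((measurable_e1 μ).aestronglyMeasurable.mul hf.comp_snd).smul
      (by fun_prop : Continuous fun p : ℝ × EE n => innerSL ℝ p.2).aestronglyMeasurable
  rw [integrable_prod_iff hm]
  constructor
  · filter_upwards [ae_restrict_mem measurableSet_Ioi, hm.prodMk_left] with s hs hs'
    exact Integrable.mono' ((integrable_hk (div_pos (div_pos hs h0) (by linarith))).const_mul _) hs'
      (Eventually.of_forall (prod_hD_bound h0 h1 h hs))
  · refine Integrable.mono' ((integrableOn_exp_rpow (sub_pos.2 hκ)).const_mul (M * cT n θ))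
      hm.norm.integral_prod_right' ?_
    filter_upwards [ae_restrict_mem measurableSet_Ioi] with s hs
    rw [Real.norm_eq_abs, abs_of_nonneg (integral_nonneg fun _ => norm_nonneg _)]
    exact int_prod_hD_bound h0 h1 h hs

theorem integrable_G1_smul' {μ a M : ℝ} (hμ : 0 < μ) (ha : a ^ 2 < μ) {f : EE n → ℝ}
    (hf : AEStronglyMeasurable f volume) (h : Gr a M f) :
    Integrable fun z => (G1 μ z * f z) • innerSL ℝ z := by
  simp_rw [G1_smul_eq]
  exact (integrable_prod_hD' hμ ha hf h).integral_prod_right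

theorem gr_exp (a : ℝ) : Gr a 1 fun z : EE n => Real.exp (a * ‖z‖) := fun z => by
  rw [abs_of_pos (Real.exp_pos _), one_mul]

theorem norm_G1_exp (μ a : ℝ) (z : EE n) : ‖(G1 μ z * Real.exp (a * ‖z‖)) • innerSL ℝ z‖ =
    G1 μ z * ‖z‖ * Real.exp (a * ‖z‖) := by
  rw [norm_smul, innerSL_apply_norm, Real.norm_eq_abs,
    abs_of_nonneg (mul_nonneg (G1_nonneg μ z) (Real.exp_pos _).le)]
  ring

/-- exponential moments of `|∇ G_μ| = G1 μ z ‖z‖` -/
theorem integrable_G1_exp {μ a : ℝ} (hμ : 0 < μ) (ha : a ^ 2 < μ) :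
    Integrable fun z : EE n => G1 μ z * ‖z‖ * Real.exp (a * ‖z‖) := by
  have := (integrable_G1_smul' (n := n) hμ ha (by fun_prop) (gr_exp a)).norm
  simpa only [norm_G1_exp] using this

theorem integral_exp_rpow {κ : ℝ} (hκ : 0 < κ) :
    ∫ s in Ioi (0 : ℝ), Real.exp (-κ * s) * s ^ (-(1 / 2 : ℝ)) = √Real.pi / √κ := by
  have := Real.integral_rpow_mul_exp_neg_mul_Ioi (a := 1 / 2) (by norm_num) hκ
  rw [Real.Gamma_one_half_eq, ← Real.sqrt_eq_rpow, Real.sqrt_div zero_le_one, Real.sqrt_one] at this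
  rw [show √Real.pi / √κ = 1 / √κ * √Real.pi by ring, ← this]
  refine setIntegral_congr_fun measurableSet_Ioi fun s _ => ?_
  rw [mul_comm, neg_mul]
  norm_num

theorem integral_G1_exp_le' {μ θ a : ℝ} (h0 : 0 < θ) (h1 : θ < 1) (hκ : a ^ 2 / θ ^ 2 < μ) :
    ∫ z : EE n, G1 μ z * ‖z‖ * Real.exp (a * ‖z‖) ≤ cT n θ * (√Real.pi / √(μ - a ^ 2 / θ ^ 2)) := by
  have h2 : a ^ 2 ≤ a ^ 2 / θ ^ 2 := le_div_self (sq_nonneg _) (by positivity) (by nlinarith)
  have hμ : 0 < μ := lt_of_le_of_lt (by positivity) hκ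
  have hI := (integrable_prod_hD' (n := n) hμ (lt_of_le_of_lt h2 hκ) (by fun_prop) (gr_exp a)).norm
  have e : ∀ z : EE n, G1 μ z * ‖z‖ * Real.exp (a * ‖z‖) = ∫ s in Ioi (0 : ℝ),
      ‖(Real.exp (-μ * s) * (hk s z / (2 * s)) * Real.exp (a * ‖z‖)) • innerSL ℝ z‖ := fun z => by
    rw [G1, ← integral_mul_const, ← integral_mul_const]
    refine setIntegral_congr_fun measurableSet_Ioi fun s hs => ?_
    have := (hk_pos hs z).le
    have hs' : 0 < s := hs
    rw [norm_smul, innerSL_apply_norm, Real.norm_eq_abs, abs_of_nonneg (by positivity)]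
    ring
  simp_rw [e]
  rw [← integral_integral_swap (f := fun (s : ℝ) (z : EE n) =>
    ‖(Real.exp (-μ * s) * (hk s z / (2 * s)) * Real.exp (a * ‖z‖)) • innerSL ℝ z‖) hI,
    ← integral_exp_rpow (sub_pos.2 hκ), ← integral_const_mul]
  refine setIntegral_mono_on hI.integral_prod_left
    ((integrableOn_exp_rpow (sub_pos.2 hκ)).const_mul _) measurableSet_Ioi fun s hs => ?_
  simpa only [one_mul] using int_prod_hD_bound (n := n) (μ := μ) h0 h1 (gr_exp a) hs

/-- the constant in `∫ |∇ G_μ| e^{a|z|} ≤ cG / √μ` -/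
def cG (n : ℕ) : ℝ := cT n (1 / 2) * (√Real.pi * √2)

theorem cG_nonneg : 0 ≤ cG n := mul_nonneg (cT_nonneg (by norm_num) (by norm_num)) (by positivity)

theorem integral_G1_exp_le {μ a : ℝ} (hμ : 0 < μ) (ha : 8 * a ^ 2 ≤ μ) :
    ∫ z : EE n, G1 μ z * ‖z‖ * Real.exp (a * ‖z‖) ≤ cG n / √μ := by
  have e : a ^ 2 / (1 / 2) ^ 2 = 4 * a ^ 2 := by ring
  refine (integral_G1_exp_le' (θ := 1 / 2) (by norm_num) (by norm_num) (by linarith)).trans ?_
  rw [cG, mul_div_assoc, mul_div_assoc, e, div_eq_mul_one_div √Real.pi]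
  refine mul_le_mul_of_nonneg_left (mul_le_mul_of_nonneg_left ?_ (Real.sqrt_nonneg _))
    (cT_nonneg (by norm_num) (by norm_num))
  have h1 : 0 < μ - 4 * a ^ 2 := by linarith [sq_nonneg a]
  rw [div_le_div_iff₀ (Real.sqrt_pos.2 h1) (Real.sqrt_pos.2 hμ), one_mul,
    ← Real.sqrt_mul zero_le_two]
  exact Real.sqrt_le_sqrt (by linarith)

theorem resD_eq' {μ a M : ℝ} (hμ : 0 < μ) (ha : a ^ 2 < μ) {f : EE n → ℝ}
    (hf : AEStronglyMeasurable f volume) {x : EE n} (h : Gr a M fun z => f (x + z)) :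
    resD μ f x = ∫ s in Ioi (0 : ℝ), Real.exp (-μ * s) • hD s f x := by
  unfold resD
  simp_rw [G1_smul_eq μ (fun z => f (x + z))]
  rw [← integral_integral_swap (f := fun s z =>
    (Real.exp (-μ * s) * (hk s z / (2 * s)) * f (x + z)) • innerSL ℝ z)
    (integrable_prod_hD' hμ ha (aesm_shift hf x) h)]
  simp_rw [mul_assoc, mul_smul (Real.exp _), integral_smul, hD]

theorem aesm_e_hD' {μ a M : ℝ} (hμ : 0 < μ) (ha : a ^ 2 < μ) {f : EE n → ℝ}
    (hf : AEStronglyMeasurable f volume) {x : EE n} (h : Gr a M fun z => f (x + z)) :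
    AEStronglyMeasurable (fun s => Real.exp (-μ * s) • hD s f x) (volume.restrict (Ioi 0)) := by
  have := (integrable_prod_hD' hμ ha (aesm_shift hf x) h).integral_prod_left.1
  simp_rw [mul_assoc, mul_smul (Real.exp _), integral_smul] at this
  exact this

theorem norm_e_hD_le' {μ θ a M : ℝ} (h0 : 0 < θ) (h1 : θ < 1) (ha : 0 ≤ a) {f : EE n → ℝ}
    (h : Gr a M f) {s : ℝ} (hs : 0 < s) {x x₀ : EE n} (hx : x ∈ Metric.ball x₀ 1) :
    ‖Real.exp (-μ * s) • hD s f x‖ ≤ M * Real.exp (a * (‖x₀‖ + 1)) * cT n θ *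
      (Real.exp (-(μ - a ^ 2 / θ ^ 2) * s) * s ^ (-(1 / 2 : ℝ))) := by
  have h2 : ‖x‖ ≤ ‖x₀‖ + 1 := by
    have := norm_add_le x₀ (x - x₀)
    rw [add_sub_cancel] at this
    have h2 : ‖x - x₀‖ < 1 := by simpa [dist_eq_norm] using hx
    linarith
  rw [norm_smul, Real.norm_eq_abs, abs_of_pos (Real.exp_pos _), ← e_bound]
  refine mul_le_mul_of_nonneg_left ((norm_hD_le' hs h0 h1 (h.shift ha x)).trans ?_)
    (Real.exp_pos _).le
  have := cT_nonneg (n := n) h0 h1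
  have := h.nonneg
  gcongr

theorem res_eq_heat' {μ a M : ℝ} (hμ : 0 < μ) (ha0 : 0 ≤ a) (ha : a ^ 2 < μ) {f : EE n → ℝ}
    (hf : AEStronglyMeasurable f volume) (h : Gr a M f) (x : EE n) :
    res μ f x = ∫ s in Ioi (0 : ℝ), Real.exp (-μ * s) * cv (hk s) f x :=
  integral_Gk_mul hμ ha (aesm_shift hf x) (h.shift ha0 x)

theorem hasFDerivAt_res' {μ a M : ℝ} (hμ : 0 < μ) (ha0 : 0 ≤ a) (ha : a ^ 2 < μ) {f : EE n → ℝ}
    (hf : AEStronglyMeasurable f volume) (h : Gr a M f) (x₀ : EE n) :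
    HasFDerivAt (res μ f) (resD μ f x₀) x₀ := by
  obtain ⟨θ, h0, h1, hκ⟩ := exists_theta2 hμ ha
  rw [show res μ f = _ from funext (res_eq_heat' hμ ha0 ha hf h),
    resD_eq' hμ ha hf (h.shift ha0 x₀)]
  have hI : ∀ x, Integrable (fun s => Real.exp (-μ * s) * cv (hk s) f x)
      (volume.restrict (Ioi 0)) := fun x => by
    have := (integrable_prod_hk hμ ha (aesm_shift hf x) (h.shift ha0 x)).integral_prod_left
    simp_rw [mul_assoc, integral_const_mul] at this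
    exact this
  refine hasFDerivAt_integral_of_dominated_of_fderiv_le (s := Metric.ball x₀ 1)
    (F := fun x s => Real.exp (-μ * s) * cv (hk s) f x)
    (F' := fun x s => Real.exp (-μ * s) • hD s f x) (Metric.ball_mem_nhds _ one_pos)
    (Eventually.of_forall fun x => (hI x).1) (hI x₀) (aesm_e_hD' hμ ha hf (h.shift ha0 x₀))
    (Eventually.mono (ae_restrict_mem measurableSet_Ioi) fun s hs x hx =>
      norm_e_hD_le' h0 h1 ha0 h hs hx)
    ((integrableOn_exp_rpow (sub_pos.2 hκ)).const_mul _) ?_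
  filter_upwards [ae_restrict_mem measurableSet_Ioi] with s hs x _
  exact (hasFDerivAt_heatP' hs ha0 hf h x).const_mul _

theorem continuous_resD' {μ a M : ℝ} (hμ : 0 < μ) (ha0 : 0 ≤ a) (ha : a ^ 2 < μ) {f : EE n → ℝ}
    (hf : AEStronglyMeasurable f volume) (h : Gr a M f) : Continuous (resD μ f) := by
  obtain ⟨θ, h0, h1, hκ⟩ := exists_theta2 hμ ha
  rw [show resD μ f = _ from funext fun x => resD_eq' hμ ha hf (h.shift ha0 x)]
  refine continuous_iff_continuousAt.2 fun x₀ => continuousAt_of_dominated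
    (Eventually.of_forall fun x => aesm_e_hD' hμ ha hf (h.shift ha0 x))
    (Eventually.mono (Metric.ball_mem_nhds x₀ one_pos) fun x hx =>
      Eventually.mono (ae_restrict_mem measurableSet_Ioi) fun s hs =>
        norm_e_hD_le' h0 h1 ha0 h hs hx)
    ((integrableOn_exp_rpow (sub_pos.2 hκ)).const_mul _) ?_
  filter_upwards [ae_restrict_mem measurableSet_Ioi] with s hs
  exact ((continuous_hD' hs ha0 hf h).const_smul (Real.exp (-μ * s))).continuousAt

theorem contDiff_one_res' {μ a M : ℝ} (hμ : 0 < μ) (ha0 : 0 ≤ a) (ha : a ^ 2 < μ) {f : EE n → ℝ}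
    (hf : AEStronglyMeasurable f volume) (h : Gr a M f) : ContDiff ℝ 1 (res μ f) := by
  rw [contDiff_one_iff_fderiv]
  refine ⟨fun x => (hasFDerivAt_res' hμ ha0 ha hf h x).differentiableAt, ?_⟩
  rw [show fderiv ℝ (res μ f) = _ from funext fun x => (hasFDerivAt_res' hμ ha0 ha hf h x).fderiv]
  exact continuous_resD' hμ ha0 ha hf h

theorem pdv_res' {μ a M : ℝ} (hμ : 0 < μ) (ha0 : 0 ≤ a) (ha : a ^ 2 < μ) {f : EE n → ℝ}
    (hf : AEStronglyMeasurable f volume) (h : Gr a M f) (i : Fin n) :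
    pdv i (res μ f) = cv (fun z => G1 μ z * z i) f := by
  funext x
  unfold pdv
  rw [(hasFDerivAt_res' hμ ha0 ha hf h x).fderiv, resD, ContinuousLinearMap.integral_apply
    (integrable_G1_smul' hμ ha (aesm_shift hf x) (h.shift ha0 x)), cv]
  congr 1
  funext z
  simp [EuclideanSpace.inner_single_right]
  ring

theorem norm_resD_le {μ b A : ℝ} (hμ : 0 < μ) (hb : b ^ 2 < μ) {f : EE n → ℝ} {x : EE n}
    (h : ∀ z, |f (x + z)| ≤ A * Real.exp (b * ‖z‖)) :
    ‖resD μ f x‖ ≤ A * ∫ z : EE n, G1 μ z * ‖z‖ * Real.exp (b * ‖z‖) := by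
  rw [← integral_const_mul]
  refine norm_integral_le_of_norm_le ((integrable_G1_exp hμ hb).const_mul A)
    (Eventually.of_forall fun z => ?_)
  rw [norm_smul, innerSL_apply_norm, norm_mul, Real.norm_eq_abs, abs_of_nonneg (G1_nonneg μ z),
    Real.norm_eq_abs]
  have := G1_nonneg μ z
  calc _ ≤ G1 μ z * (A * Real.exp (b * ‖z‖)) * ‖z‖ := by gcongr; exact h z
    _ = _ := by ring

theorem gr_mu_sub {μ a M : ℝ} {w : EE n → ℝ} (h0 : Gr a M w) (h2 : Gr a M (Δ w)) :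
    Gr a (|μ| * M + |(-1 : ℝ)| * M) fun z => μ * w z - (Δ w) z := by
  have := (h0.const_mul μ).add (h2.const_mul (-1))
  intro z
  have e : μ * w z - (Δ w) z = μ * w z + -1 * (Δ w) z := by ring
  simp only [e]
  exact this z

/-- GRADIENT REPRESENTATION `∇ w = ∇ G_μ * (μ w - Δ w)` -/
theorem fderiv_rep {μ a M : ℝ} (hμ : 0 < μ) (ha0 : 0 ≤ a) (ha : a ^ 2 < μ) {w : EE n → ℝ}
    (hw : ContDiff ℝ 2 w) (h0 : Gr a M w) (h2 : Gr a M (Δ w)) (x : EE n) :
    fderiv ℝ w x = resD μ (fun y => μ * w y - (Δ w) y) x := by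
  have cw := hw.continuous
  have cl := continuous_lap hw
  conv_lhs => rw [rep_res hμ ha0 ha hw h0 h2]
  exact (hasFDerivAt_res' hμ ha0 ha (by fun_prop) (gr_mu_sub h0 h2) x).fderiv

theorem pdv_rep {μ a M : ℝ} (hμ : 0 < μ) (ha0 : 0 ≤ a) (ha : a ^ 2 < μ) {w : EE n → ℝ}
    (hw : ContDiff ℝ 2 w) (h0 : Gr a M w) (h2 : Gr a M (Δ w)) (i : Fin n) (x : EE n) :
    pdv i w x = ∫ z, G1 μ z * z i * (μ * w (x + z) - (Δ w) (x + z)) := by
  have cw := hw.continuous
  have cl := continuous_lap hw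
  conv_lhs => rw [rep_res hμ ha0 ha hw h0 h2]
  rw [pdv_res' hμ ha0 ha (by fun_prop) (gr_mu_sub h0 h2)]
  rfl

/-- WEIGHTED GRADIENT BOUND -/
theorem norm_fderiv_le_of {μ a M b A : ℝ} (hμ : 0 < μ) (ha0 : 0 ≤ a) (ha : a ^ 2 < μ)
    (hb : 8 * b ^ 2 ≤ μ) {w : EE n → ℝ} (hw : ContDiff ℝ 2 w) (h0 : Gr a M w) (h2 : Gr a M (Δ w))
    {x : EE n} (h : ∀ z, |μ * w (x + z) - (Δ w) (x + z)| ≤ A * Real.exp (b * ‖z‖)) :
    ‖fderiv ℝ w x‖ ≤ cG n / √μ * A := by
  have hA : 0 ≤ A := by simpa using (abs_nonneg _).trans (h 0)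
  rw [fderiv_rep hμ ha0 ha hw h0 h2, mul_comm]
  exact (norm_resD_le hμ (by nlinarith [sq_nonneg b]) h).trans
    (mul_le_mul_of_nonneg_left (integral_G1_exp_le hμ hb) hA)

theorem abs_pdv_le_fderiv (w : EE n → ℝ) (i : Fin n) (x : EE n) : |pdv i w x| ≤ ‖fderiv ℝ w x‖ := by
  have := (fderiv ℝ w x).le_opNorm (ev i)
  simpa [pdv] using this

end

end Crest.Agent.N067.Ker
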