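import Crest.Agent.N067.A.Lim
import Crest.Agent.N067.A.RegS
import Crest.Agent.N067.A.Modica

/-!
# Row 67 basics: unconditional `dich`, `lim`, and limits of `Sol` (helper88)
-/

set_option autoImplicit false

open Laplacian InnerProductSpace Topology Filter Set Metric
open scoped RealInnerProductSpace Gradient ContDiff

namespace Crest.Agent.N067

open Crest.Agent.R077

variable {n : ℕ}

theorem dich : DichStmt := dich_of reg

theorem lim : LimStmt := lim_of reg

theorem lim_all (v : ℕ → EE n → ℝ) (hv : ∀ j, IsSol (v j)) :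
    ∃ (w : EE n → ℝ) (φ : ℕ → ℕ), StrictMono φ ∧ IsSol w ∧ CLim atTop (fun j => v (φ j)) w :=
  lim_all_of reg v hv

theorem clim_of_tendsto {ι : Type} {l : Filter ι} [l.NeBot]
    [l.IsCountablyGenerated] {v : ι → EE n → ℝ} {w : EE n → ℝ} (hv : ∀ j, IsSol (v j))
    (h : ∀ x, Tendsto (fun j => v j x) l (𝓝 (w x))) : IsSol w ∧ CLim l v w :=
  clim_of_tendsto_of reg hv h

theorem IsSol.sol {v : EE n → ℝ} (h : IsSol v) {x : EE n} (hx : |v x| < 1) : Sol v := by
  rcases dich n v h with h1 | h1 | h1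
  · simp [h1 x] at hx
  · simp [h1 x] at hx
  · exact h1

/-- solutions staying away from `±1` at a point subconverge to a `Sol` -/
theorem lim_sol (v : ℕ → EE n → ℝ) (hv : ∀ j, IsSol (v j)) {x : EE n} {m : ℝ} (hm : m < 1)
    (hx : ∀ j, |v j x| ≤ m) :
    ∃ (w : EE n → ℝ) (φ : ℕ → ℕ), StrictMono φ ∧ Sol w ∧ CLim atTop (fun j => v (φ j)) w := by
  obtain ⟨w, φ, hφ, hw, h⟩ := lim_all v hv
  exact ⟨w, φ, hφ, hw.sol ((le_of_tendsto' (h.tendsto x).abs fun j => hx _).trans_lt hm), h⟩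

end Crest.Agent.N067
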