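import Crest.Agent.N067.A.Defs
import Crest.Agent.R281.YVSMax0_355

/-!
# Row 67, basics: flat calculus with partial derivatives (helper43)

`gin f g = ⟪∇f, ∇g⟫`, `gsq f = |∇f|²`, as sums of partial derivatives; chain and
product rules at a point, symmetry of second derivatives, Bochner's formula, `(Δf)² ≤ n |Hess f|²`,
first and second order conditions at a local extremum.
-/

set_option autoImplicit false

open MeasureTheory Laplacian InnerProductSpace Topology Filter Set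
open scoped RealInnerProductSpace Gradient ContDiff

namespace Crest.Agent.N067

open Crest.Agent.R077

noncomputable section

variable {n : ℕ} {f g : EE n → ℝ} {x : EE n}

/-- `⟪∇f, ∇g⟫` -/
def gin (f g : EE n → ℝ) (x : EE n) : ℝ := ∑ i, pdv i f x * pdv i g x

/-- `|∇f|²` -/
def gsq (f : EE n → ℝ) (x : EE n) : ℝ := ∑ i, pdv i f x ^ 2

theorem hsq_eq (f : EE n → ℝ) (x : EE n) : hsq f x = ∑ i, ∑ j, pdv i (pdv j f) x ^ 2 := rfl

theorem grad_apply (f : EE n → ℝ) (x : EE n) (i : Fin n) : (∇ f x) i = pdv i f x := by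
  have h : ⟪∇ f x, ev i⟫ = fderiv ℝ f x (ev i) := by
    rw [gradient, InnerProductSpace.toDual_symm_apply]
  rw [pdv, ← h, EuclideanSpace.inner_single_right]
  simp

theorem inner_grad (f : EE n → ℝ) (x w : EE n) : ⟪∇ f x, w⟫ = fderiv ℝ f x w := by
  rw [gradient, InnerProductSpace.toDual_symm_apply]

theorem inner_eq_sum (a b : EE n) : ⟪a, b⟫ = ∑ i, a i * b i := by
  simp [PiLp.inner_apply, mul_comm]

theorem fderiv_eq_sum' (f : EE n → ℝ) (x w : EE n) :
    fderiv ℝ f x w = ∑ i, pdv i f x * w i := by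
  rw [← inner_grad, inner_eq_sum]
  simp only [grad_apply]

theorem gin_eq (f g : EE n → ℝ) (x : EE n) : gin f g x = ⟪∇ f x, ∇ g x⟫ := by
  rw [inner_eq_sum]
  simp only [grad_apply, gin]

theorem gsq_eq (f : EE n → ℝ) (x : EE n) : gsq f x = ‖∇ f x‖ ^ 2 := by
  rw [← real_inner_self_eq_norm_sq, inner_eq_sum]
  simp only [grad_apply, gsq, sq]

theorem gin_self (f : EE n → ℝ) (x : EE n) : gin f f x = gsq f x := by
  simp only [gin, gsq, sq]

theorem gin_comm (f g : EE n → ℝ) (x : EE n) : gin f g x = gin g f x := by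
  simp only [gin, mul_comm]

theorem gsq_nonneg (f : EE n → ℝ) (x : EE n) : 0 ≤ gsq f x :=
  Finset.sum_nonneg fun _ _ => sq_nonneg _

theorem hsq_nonneg (f : EE n → ℝ) (x : EE n) : 0 ≤ hsq f x :=
  Finset.sum_nonneg fun _ _ => Finset.sum_nonneg fun _ _ => sq_nonneg _

theorem gin_sq_le (f g : EE n → ℝ) (x : EE n) : gin f g x ^ 2 ≤ gsq f x * gsq g x :=
  Finset.sum_mul_sq_le_sq_mul_sq _ _ _

theorem abs_gin_le (f g : EE n → ℝ) (x : EE n) : |gin f g x| ≤ ‖∇ f x‖ * ‖∇ g x‖ := by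
  rw [gin_eq]; exact abs_real_inner_le_norm _ _

/-! ### regularity -/

theorem contDiffAt_pdv {m k : WithTop ℕ∞} (hf : ContDiffAt ℝ k f x) (hmk : m + 1 ≤ k)
    (i : Fin n) : ContDiffAt ℝ m (pdv i f) x :=
  (hf.fderiv_right (m := m) hmk).clm_apply (contDiffAt_const (c := ev i))

theorem diffAt_pdv (hf : ContDiffAt ℝ 2 f x) (i : Fin n) : DifferentiableAt ℝ (pdv i f) x :=
  (contDiffAt_pdv (m := 1) hf (by norm_num) i).differentiableAt (by norm_num)

theorem ev_diff (hf : ContDiffAt ℝ 2 f x) : ∀ᶠ y in 𝓝 x, DifferentiableAt ℝ f y := by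
  filter_upwards [hf.eventually (by simp)] with y hy
  exact hy.differentiableAt (by norm_num)

theorem contDiffAt_gin {m k : WithTop ℕ∞} (hf : ContDiffAt ℝ k f x) (hg : ContDiffAt ℝ k g x)
    (hmk : m + 1 ≤ k) : ContDiffAt ℝ m (gin f g) x :=
  ContDiffAt.sum fun i _ => (contDiffAt_pdv hf hmk i).mul (contDiffAt_pdv hg hmk i)

theorem contDiffAt_gsq {m k : WithTop ℕ∞} (hf : ContDiffAt ℝ k f x) (hmk : m + 1 ≤ k) :
    ContDiffAt ℝ m (gsq f) x :=
  ContDiffAt.sum fun i _ => (contDiffAt_pdv hf hmk i).pow 2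

theorem contDiffAt_hsq {m k : WithTop ℕ∞} (hf : ContDiffAt ℝ k f x) (hmk : m + 1 + 1 ≤ k) :
    ContDiffAt ℝ m (hsq f) x :=
  ContDiffAt.sum fun i _ => ContDiffAt.sum fun j _ =>
    (contDiffAt_pdv (contDiffAt_pdv hf hmk j) le_rfl i).pow 2

theorem lap_ev (hf : ContDiffAt ℝ 2 f x) :
    (Δ f) =ᶠ[𝓝 x] fun y => ∑ i, pdv i (pdv i f) y := by
  filter_upwards [hf.eventually (by simp)] with y hy
  exact lap_eq hy

theorem contDiffAt_lap {m k : WithTop ℕ∞} (hf : ContDiffAt ℝ k f x) (hmk : m + 1 + 1 ≤ k) :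
    ContDiffAt ℝ m (Δ f) x := by
  have h2 : ContDiffAt ℝ 2 f x := hf.of_le (le_trans (by
    rw [add_assoc, one_add_one_eq_two]; exact le_add_self) hmk)
  refine ContDiffAt.congr_of_eventuallyEq ?_ (lap_ev h2)
  exact ContDiffAt.sum fun i _ => contDiffAt_pdv (contDiffAt_pdv hf hmk i) le_rfl i

/-! ### first order rules -/

theorem pdv_const (c : ℝ) (i : Fin n) (x : EE n) : pdv i (fun _ => c) x = 0 := by
  simp [pdv]

theorem pdv_neg (f : EE n → ℝ) (i : Fin n) (x : EE n) :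
    pdv i (fun y => -f y) x = -pdv i f x := by
  simp [pdv, fderiv_fun_neg]

theorem pdv_sub (hf : DifferentiableAt ℝ f x) (hg : DifferentiableAt ℝ g x) (i : Fin n) :
    pdv i (fun y => f y - g y) x = pdv i f x - pdv i g x := by
  unfold pdv
  rw [fderiv_fun_sub hf hg]
  rfl

theorem pdv_const_sub (c : ℝ) (f : EE n → ℝ) (i : Fin n) (x : EE n) :
    pdv i (fun y => c - f y) x = -pdv i f x := by
  simp [pdv, fderiv_const_sub]

theorem pdv_sub_const (c : ℝ) (f : EE n → ℝ) (i : Fin n) (x : EE n) :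
    pdv i (fun y => f y - c) x = pdv i f x := by
  simp [pdv, fderiv_sub_const]

theorem pdv_add_const (c : ℝ) (f : EE n → ℝ) (i : Fin n) (x : EE n) :
    pdv i (fun y => f y + c) x = pdv i f x := by
  simp [pdv, fderiv_add_const]

theorem pdv_sum {ι : Type*} (s : Finset ι) {F : ι → EE n → ℝ}
    (hF : ∀ k ∈ s, DifferentiableAt ℝ (F k) x) (i : Fin n) :
    pdv i (fun y => ∑ k ∈ s, F k y) x = ∑ k ∈ s, pdv i (F k) x := by
  unfold pdv
  rw [fderiv_fun_sum hF]
  simp

theorem pdv_comp {φ : ℝ → ℝ} {φ' : ℝ} (hφ : HasDerivAt φ φ' (f x)) (hf : DifferentiableAt ℝ f x)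
    (i : Fin n) : pdv i (fun y => φ (f y)) x = φ' * pdv i f x := by
  unfold pdv
  have h := hφ.comp_hasFDerivAt x hf.hasFDerivAt
  have h2 : fderiv ℝ (fun y => φ (f y)) x = φ' • fderiv ℝ f x := h.fderiv
  rw [h2]
  rfl

theorem pdv_sq (hf : DifferentiableAt ℝ f x) (i : Fin n) :
    pdv i (fun y => f y ^ 2) x = 2 * f x * pdv i f x := by
  have h := pdv_comp (φ := fun s => s ^ 2) (φ' := 2 * f x) (f := f) (x := x)
    (by simpa using hasDerivAt_pow 2 (f x)) hf i
  exact h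

theorem pdv_coord (i j : Fin n) (x : EE n) :
    pdv i (fun y : EE n => y j) x = if j = i then 1 else 0 := by
  have h : HasFDerivAt (fun y : EE n => y j) (EuclideanSpace.proj j : EE n →L[ℝ] ℝ) x :=
    (EuclideanSpace.proj j : EE n →L[ℝ] ℝ).hasFDerivAt
  rw [pdv, h.fderiv]
  simp

theorem pdv_inner (a : EE n) (i : Fin n) (x : EE n) : pdv i (fun y : EE n => ⟪a, y⟫) x = a i := by
  have h : HasFDerivAt (fun y : EE n => ⟪a, y⟫) (innerSL ℝ a) x := (innerSL ℝ a).hasFDerivAt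
  rw [pdv, h.fderiv]
  simp [EuclideanSpace.inner_single_right]

theorem pdv_normSq (x0 : EE n) (i : Fin n) (x : EE n) :
    pdv i (fun y : EE n => ‖y - x0‖ ^ 2) x = 2 * (x i - x0 i) := by
  have h := ((hasFDerivAt_id x).sub_const x0).norm_sq
  have h2 : fderiv ℝ (fun y : EE n => ‖y - x0‖ ^ 2) x = _ := h.fderiv
  rw [pdv, h2]
  simp [EuclideanSpace.inner_single_right]

theorem pdv_pdv_eq (hf : ContDiffAt ℝ 2 f x) (i j : Fin n) :
    pdv i (pdv j f) x = fderiv ℝ (fderiv ℝ f) x (ev i) (ev j) := by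
  have hd : DifferentiableAt ℝ (fderiv ℝ f) x :=
    ((hf.fderiv_right (m := 1) (by norm_num)).differentiableAt (by norm_num))
  have h2 : fderiv ℝ (fun y => fderiv ℝ f y (ev j)) x
      = (fderiv ℝ (fderiv ℝ f) x).flip (ev j) := by
    rw [fderiv_clm_apply hd (differentiableAt_const _)]
    ext v
    simp
  change fderiv ℝ (fun y => fderiv ℝ f y (ev j)) x (ev i) = _
  rw [h2]
  rfl

theorem pdv_comm (hf : ContDiffAt ℝ 2 f x) (i j : Fin n) :
    pdv i (pdv j f) x = pdv j (pdv i f) x := by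
  rw [pdv_pdv_eq hf, pdv_pdv_eq hf]
  exact hf.isSymmSndFDerivAt (by simp) _ _

theorem pdv_comm_ev (hf : ContDiffAt ℝ 2 f x) (i j : Fin n) :
    pdv i (pdv j f) =ᶠ[𝓝 x] pdv j (pdv i f) := by
  filter_upwards [hf.eventually (by simp)] with y hy
  exact pdv_comm hy i j

/-! ### rules for `gin`, `gsq` -/

theorem gin_congr_left {f' : EE n → ℝ} (h : f =ᶠ[𝓝 x] f') : gin f g x = gin f' g x := by
  simp only [gin, pdv_congr h]

theorem gin_congr_right {g' : EE n → ℝ} (h : g =ᶠ[𝓝 x] g') : gin f g x = gin f g' x := by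
  simp only [gin, pdv_congr h]

theorem gin_mul_right {h : EE n → ℝ} (hg : DifferentiableAt ℝ g x) (hh : DifferentiableAt ℝ h x) :
    gin f (fun y => g y * h y) x = gin f g x * h x + g x * gin f h x := by
  simp only [gin, pdv_mul hg hh, Finset.sum_mul, Finset.mul_sum, ← Finset.sum_add_distrib]
  exact Finset.sum_congr rfl fun i _ => by ring

theorem gin_const_mul_right (hg : DifferentiableAt ℝ g x) (c : ℝ) :
    gin f (fun y => c * g y) x = c * gin f g x := by
  simp only [gin, pdv_const_mul hg, Finset.mul_sum]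
  exact Finset.sum_congr rfl fun i _ => by ring

theorem gin_add_right {h : EE n → ℝ} (hg : DifferentiableAt ℝ g x) (hh : DifferentiableAt ℝ h x) :
    gin f (fun y => g y + h y) x = gin f g x + gin f h x := by
  simp only [gin, pdv_add hg hh, mul_add, Finset.sum_add_distrib]

theorem gin_sub_right {h : EE n → ℝ} (hg : DifferentiableAt ℝ g x) (hh : DifferentiableAt ℝ h x) :
    gin f (fun y => g y - h y) x = gin f g x - gin f h x := by
  simp only [gin, pdv_sub hg hh, mul_sub, Finset.sum_sub_distrib]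

theorem gin_const_sub_right (c : ℝ) : gin f (fun y => c - g y) x = -gin f g x := by
  simp only [gin, pdv_const_sub, mul_neg, Finset.sum_neg_distrib]

theorem gin_comp_right {φ : ℝ → ℝ} {φ' : ℝ} (hφ : HasDerivAt φ φ' (g x))
    (hg : DifferentiableAt ℝ g x) : gin f (fun y => φ (g y)) x = φ' * gin f g x := by
  simp only [gin, pdv_comp hφ hg, Finset.mul_sum]
  exact Finset.sum_congr rfl fun i _ => by ring

theorem gsq_comp {φ : ℝ → ℝ} {φ' : ℝ} (hφ : HasDerivAt φ φ' (f x))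
    (hf : DifferentiableAt ℝ f x) : gsq (fun y => φ (f y)) x = φ' ^ 2 * gsq f x := by
  simp only [gsq, pdv_comp hφ hf, Finset.mul_sum]
  exact Finset.sum_congr rfl fun i _ => by ring

theorem pdv_gin (hf : ContDiffAt ℝ 2 f x) (hg : ContDiffAt ℝ 2 g x) (i : Fin n) :
    pdv i (gin f g) x = ∑ j, (pdv i (pdv j f) x * pdv j g x + pdv j f x * pdv i (pdv j g) x) := by
  change pdv i (fun y => ∑ j, pdv j f y * pdv j g y) x = _
  rw [pdv_sum (F := fun j y => pdv j f y * pdv j g y) _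
    fun j _ => (diffAt_pdv hf j).mul (diffAt_pdv hg j)]
  exact Finset.sum_congr rfl fun j _ => pdv_mul (diffAt_pdv hf j) (diffAt_pdv hg j) i

theorem pdv_gsq (hf : ContDiffAt ℝ 2 f x) (i : Fin n) :
    pdv i (gsq f) x = 2 * ∑ j, pdv j f x * pdv i (pdv j f) x := by
  change pdv i (fun y => ∑ j, pdv j f y ^ 2) x = _
  rw [pdv_sum (F := fun j y => pdv j f y ^ 2) _ fun j _ => (diffAt_pdv hf j).pow 2,
    Finset.mul_sum]
  exact Finset.sum_congr rfl fun j _ => by rw [pdv_sq (diffAt_pdv hf j)]; ring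

/-- `|∇|∇f|²|² ≤ 4 |∇f|² |Hess f|²` -/
theorem gsq_gsq_le (hf : ContDiffAt ℝ 2 f x) : gsq (gsq f) x ≤ 4 * gsq f x * hsq f x := by
  simp only [gsq.eq_1 (gsq f), hsq_eq, pdv_gsq hf, Finset.mul_sum]
  refine Finset.sum_le_sum fun i _ => ?_
  have h := Finset.sum_mul_sq_le_sq_mul_sq Finset.univ (fun j => pdv j f x)
    (fun j => pdv i (pdv j f) x)
  rw [← Finset.mul_sum, ← Finset.mul_sum]
  unfold gsq
  nlinarith

/-! ### second order rules -/

theorem lap_const (c : ℝ) (x : EE n) : (Δ fun _ : EE n => c) x = 0 := by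
  rw [lap_eq contDiffAt_const]
  refine Finset.sum_eq_zero fun i _ => ?_
  rw [show pdv i (fun _ : EE n => c) = fun _ => 0 from funext fun y => pdv_const c i y]
  exact pdv_const 0 i x

theorem lap_add' (hf : ContDiffAt ℝ 2 f x) (hg : ContDiffAt ℝ 2 g x) :
    (Δ fun y => f y + g y) x = (Δ f) x + (Δ g) x :=
  hf.laplacian_add hg

theorem lap_const_mul (hf : ContDiffAt ℝ 2 f x) (c : ℝ) :
    (Δ fun y => c * f y) x = c * (Δ f) x :=
  InnerProductSpace.laplacian_smul c hf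

theorem lap_neg' (hf : ContDiffAt ℝ 2 f x) : (Δ fun y => -f y) x = -(Δ f) x := by
  have h := lap_const_mul hf (-1)
  simpa using h

theorem lap_sub' (hf : ContDiffAt ℝ 2 f x) (hg : ContDiffAt ℝ 2 g x) :
    (Δ fun y => f y - g y) x = (Δ f) x - (Δ g) x := by
  have h := lap_add' hf hg.neg
  rw [lap_neg' hg] at h
  simpa [sub_eq_add_neg] using h

theorem lap_const_sub (hf : ContDiffAt ℝ 2 f x) (c : ℝ) :
    (Δ fun y => c - f y) x = -(Δ f) x := by
  rw [lap_sub' contDiffAt_const hf, lap_const, zero_sub]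

theorem lap_sub_const (hf : ContDiffAt ℝ 2 f x) (c : ℝ) :
    (Δ fun y => f y - c) x = (Δ f) x := by
  rw [lap_sub' hf contDiffAt_const, lap_const, sub_zero]

theorem lap_mul' (hf : ContDiffAt ℝ 2 f x) (hg : ContDiffAt ℝ 2 g x) :
    (Δ fun y => f y * g y) x = (Δ f) x * g x + 2 * gin f g x + f x * (Δ g) x := by
  rw [lap_eq (hf.mul hg), lap_eq hf, lap_eq hg]
  have df := hf.differentiableAt (by norm_num)
  have dg := hg.differentiableAt (by norm_num)
  have h : ∀ i, pdv i (pdv i fun y => f y * g y) x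
      = pdv i (pdv i f) x * g x + 2 * (pdv i f x * pdv i g x) + f x * pdv i (pdv i g) x := by
    intro i
    have h1 : pdv i (fun y => f y * g y) =ᶠ[𝓝 x]
        fun y => pdv i f y * g y + f y * pdv i g y := by
      filter_upwards [ev_diff hf, ev_diff hg] with y h1 h2
      exact pdv_mul h1 h2 i
    rw [pdv_congr h1, pdv_add (f := fun y => pdv i f y * g y) (g := fun y => f y * pdv i g y)
      ((diffAt_pdv hf i).mul dg) (df.mul (diffAt_pdv hg i)), pdv_mul (diffAt_pdv hf i) dg,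
      pdv_mul df (diffAt_pdv hg i)]
    ring
  simp_rw [h]
  rw [Finset.sum_add_distrib, Finset.sum_add_distrib, Finset.sum_mul, gin, Finset.mul_sum,
    Finset.mul_sum]

/-- chain rule for the Laplacian -/
theorem lap_comp {φ φ1 : ℝ → ℝ} {φ2 : ℝ} (hf : ContDiffAt ℝ 2 f x)
    (hφ : ContDiffAt ℝ 2 φ (f x)) (h1 : ∀ᶠ s in 𝓝 (f x), HasDerivAt φ (φ1 s) s)
    (h2 : HasDerivAt φ1 φ2 (f x)) :
    (Δ fun y => φ (f y)) x = φ1 (f x) * (Δ f) x + φ2 * gsq f x := by
  have hc : ContDiffAt ℝ 2 (fun y => φ (f y)) x := hφ.comp x hf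
  rw [lap_eq hc, lap_eq hf]
  have df := hf.differentiableAt (by norm_num)
  have h : ∀ i, pdv i (pdv i fun y => φ (f y)) x
      = φ1 (f x) * pdv i (pdv i f) x + φ2 * pdv i f x ^ 2 := by
    intro i
    have e1 : pdv i (fun y => φ (f y)) =ᶠ[𝓝 x] fun y => φ1 (f y) * pdv i f y := by
      filter_upwards [ev_diff hf, hf.continuousAt.eventually h1] with y hy1 hy2
      exact pdv_comp hy2 hy1 i
    have d1 : DifferentiableAt ℝ (fun y => φ1 (f y)) x := h2.differentiableAt.comp x df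
    rw [pdv_congr e1, pdv_mul d1 (diffAt_pdv hf i), pdv_comp h2 df]
    ring
  simp_rw [h]
  rw [Finset.sum_add_distrib, gsq, Finset.mul_sum, Finset.mul_sum]

theorem lap_sq (hf : ContDiffAt ℝ 2 f x) :
    (Δ fun y => f y ^ 2) x = 2 * f x * (Δ f) x + 2 * gsq f x := by
  have h := lap_mul' hf hf
  simp only [← sq, gin_self] at h
  rw [h]; ring

theorem lap_normSq (x0 x : EE n) : (Δ fun y : EE n => ‖y - x0‖ ^ 2) x = 2 * (n : ℝ) := by
  have hc : ContDiff ℝ 2 fun y : EE n => ‖y - x0‖ ^ 2 := (contDiff_id.sub contDiff_const).norm_sq ℝ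
  rw [lap_eq hc.contDiffAt]
  have h : ∀ i, pdv i (pdv i fun y : EE n => ‖y - x0‖ ^ 2) x = 2 := by
    intro i
    rw [show (pdv i fun y : EE n => ‖y - x0‖ ^ 2) = fun y : EE n => 2 * (y i - x0 i) from
      funext fun y => pdv_normSq x0 i y]
    have hd : DifferentiableAt ℝ (fun y : EE n => y i) x :=
      (EuclideanSpace.proj i : EE n →L[ℝ] ℝ).differentiableAt
    rw [pdv_const_mul (hd.sub_const _), pdv_sub_const, pdv_coord]
    simp
  simp [h, mul_comm]

theorem gsq_normSq (x0 x : EE n) : gsq (fun y : EE n => ‖y - x0‖ ^ 2) x = 4 * ‖x - x0‖ ^ 2 := by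
  simp only [gsq, pdv_normSq]
  rw [EuclideanSpace.norm_sq_eq, Finset.mul_sum]
  exact Finset.sum_congr rfl fun i _ => by simp; ring

theorem lap_inner (a x : EE n) : (Δ fun y : EE n => ⟪a, y⟫) x = 0 := by
  have hc : ContDiff ℝ 2 fun y : EE n => ⟪a, y⟫ := (innerSL ℝ a).contDiff
  rw [lap_eq hc.contDiffAt]
  refine Finset.sum_eq_zero fun i _ => ?_
  rw [show (pdv i fun y : EE n => ⟪a, y⟫) = fun _ => a i from funext fun y => pdv_inner a i y]
  exact pdv_const _ i x

/-- `Δ` commutes with partial derivatives -/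
theorem lap_pdv (hf : ContDiffAt ℝ 3 f x) (j : Fin n) : (Δ (pdv j f)) x = pdv j (Δ f) x := by
  have h2 : ContDiffAt ℝ 2 f x := hf.of_le (by norm_num)
  have hp : ∀ i, ContDiffAt ℝ 2 (pdv i f) x := fun i => contDiffAt_pdv hf (by norm_num) i
  rw [lap_eq (hp j), pdv_congr (lap_ev h2), pdv_sum _ fun i _ => diffAt_pdv (hp i) i]
  refine Finset.sum_congr rfl fun i _ => ?_
  rw [pdv_congr (pdv_comm_ev h2 i j), pdv_comm (hp i)]

theorem lap_sum {ι : Type*} (s : Finset ι) {F : ι → EE n → ℝ}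
    (hF : ∀ k ∈ s, ContDiffAt ℝ 2 (F k) x) :
    (Δ fun y => ∑ k ∈ s, F k y) x = ∑ k ∈ s, (Δ (F k)) x := by
  classical
  induction s using Finset.induction_on with
  | empty => simp
  | insert a s ha ih =>
    simp only [Finset.sum_insert ha]
    rw [lap_add' (hF a (Finset.mem_insert_self _ _))
      (ContDiffAt.sum fun k hk => hF k (Finset.mem_insert_of_mem hk)),
      ih fun k hk => hF k (Finset.mem_insert_of_mem hk)]

/-- polarized Bochner formula -/
theorem bochner2 (hf : ContDiffAt ℝ 3 f x) (hg : ContDiffAt ℝ 3 g x) :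
    (Δ (gin f g)) x = gin (Δ f) g x + 2 * ∑ i, ∑ j, pdv i (pdv j f) x * pdv i (pdv j g) x
      + gin f (Δ g) x := by
  have hp : ∀ i, ContDiffAt ℝ 2 (pdv i f) x := fun i => contDiffAt_pdv hf (by norm_num) i
  have hq : ∀ i, ContDiffAt ℝ 2 (pdv i g) x := fun i => contDiffAt_pdv hg (by norm_num) i
  change (Δ fun y => ∑ j, pdv j f y * pdv j g y) x = _
  rw [lap_sum _ fun j _ => (hp j).mul (hq j), Finset.sum_comm]
  simp only [gin, Finset.mul_sum, ← Finset.sum_add_distrib]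
  refine Finset.sum_congr rfl fun j _ => ?_
  rw [lap_mul' (hp j) (hq j), lap_pdv hf, lap_pdv hg, gin, Finset.mul_sum]

/-- **Bochner's formula** -/
theorem bochner (hf : ContDiffAt ℝ 3 f x) :
    (Δ (gsq f)) x = 2 * hsq f x + 2 * gin f (Δ f) x := by
  have h := bochner2 hf hf
  rw [show gin f f = gsq f from funext fun y => gin_self f y, gin_comm (Δ f)] at h
  rw [h, hsq_eq]
  simp only [sq]
  ring

theorem lap_sq_le (hf : ContDiffAt ℝ 2 f x) : (Δ f) x ^ 2 ≤ n * hsq f x := by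
  rw [lap_eq hf]
  have h1 := sq_sum_le_card_mul_sum_sq (s := (Finset.univ : Finset (Fin n)))
    (f := fun i => pdv i (pdv i f) x)
  simp only [Finset.card_univ, Fintype.card_fin] at h1
  refine h1.trans (mul_le_mul_of_nonneg_left ?_ (Nat.cast_nonneg n))
  refine Finset.sum_le_sum fun i _ => ?_
  exact Finset.single_le_sum (f := fun j => pdv i (pdv j f) x ^ 2) (fun j _ => sq_nonneg _)
    (Finset.mem_univ i)

/-! ### local extrema -/

theorem pdv_of_max (h : IsLocalMax f x) (i : Fin n) : pdv i f x = 0 := by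
  rw [pdv, h.fderiv_eq_zero]; rfl

theorem pdv_of_min (h : IsLocalMin f x) (i : Fin n) : pdv i f x = 0 := by
  rw [pdv, h.fderiv_eq_zero]; rfl

theorem lap_of_max (hf : ContDiffAt ℝ 2 f x) (h : IsLocalMax f x) : (Δ f) x ≤ 0 := by
  rw [lap_eq hf]
  refine Finset.sum_nonpos fun i _ => ?_
  rw [pdv_pdv_eq hf]
  exact R281.YVSMax_355.hess_nonpos hf h _

theorem lap_of_min (hf : ContDiffAt ℝ 2 f x) (h : IsLocalMin f x) : 0 ≤ (Δ f) x := by
  have h1 := lap_of_max (f := fun y => -f y) hf.neg h.neg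
  rw [lap_neg' hf] at h1
  linarith

end

end Crest.Agent.N067
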