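import Crest.Agent.N067.A.Calc
import Crest.Agent.N067.A.Stab

/-!
# Row 67, basics: the `d`-variables (helper43)

`v = tanh (d/√2)`, `∇v = ψ/√2 ∇d`, `Δ d = -√2 v t`, the equations of `d_i` and of `t`: `deq : DEqStmt`.
-/

set_option autoImplicit false

open MeasureTheory Laplacian InnerProductSpace Topology Filter Set
open scoped RealInnerProductSpace Gradient ContDiff

namespace Crest.Agent.N067

open Crest.Agent.R077

noncomputable section

variable {n : ℕ} {v f : EE n → ℝ} {x : EE n}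

theorem sqrt2_pos : 0 < Real.sqrt 2 := by positivity

theorem sqrt2_sq : Real.sqrt 2 ^ 2 = 2 := Real.sq_sqrt (by norm_num)

theorem sqrt2_mul : Real.sqrt 2 * Real.sqrt 2 = 2 := Real.mul_self_sqrt (by norm_num)

theorem artanh_ev {s : ℝ} (hs : |s| < 1) :
    Real.artanh =ᶠ[𝓝 s] fun r => 1 / 2 * (Real.log (1 + r) - Real.log (1 - r)) := by
  filter_upwards [Ioo_mem_nhds (abs_lt.1 hs).1 (abs_lt.1 hs).2] with r hr
  rw [Real.artanh_eq_half_log ⟨hr.1.le, hr.2.le⟩,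
    Real.log_div (by linarith [hr.1]) (by linarith [hr.2])]

theorem contDiffAt_artanh {s : ℝ} (hs : |s| < 1) {k : WithTop ℕ∞} :
    ContDiffAt ℝ k Real.artanh s := by
  refine ContDiffAt.congr_of_eventuallyEq ?_ (artanh_ev hs)
  have h1 : (1 : ℝ) + s ≠ 0 := by linarith [(abs_lt.1 hs).1]
  have h2 : (1 : ℝ) - s ≠ 0 := by linarith [(abs_lt.1 hs).2]
  exact contDiffAt_const.mul (((contDiffAt_const.add contDiffAt_id).log h1).sub
    ((contDiffAt_const.sub contDiffAt_id).log h2))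

theorem one_sub_sq_pos {s : ℝ} (hs : |s| < 1) : 0 < 1 - s ^ 2 := by
  have := abs_lt.1 hs
  nlinarith

theorem hasDerivAt_artanh {s : ℝ} (hs : |s| < 1) :
    HasDerivAt Real.artanh (1 - s ^ 2)⁻¹ s := by
  refine HasDerivAt.congr_of_eventuallyEq ?_ (artanh_ev hs)
  have h1 : (1 : ℝ) + s ≠ 0 := by linarith [(abs_lt.1 hs).1]
  have h2 : (1 : ℝ) - s ≠ 0 := by linarith [(abs_lt.1 hs).2]
  have h3 := (one_sub_sq_pos hs).ne'
  have h := ((((hasDerivAt_id s).const_add 1).log h1).sub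
    (((hasDerivAt_id s).const_sub 1).log h2)).const_mul (1 / 2 : ℝ)
  refine HasDerivAt.congr_deriv h ?_
  simp only [id]
  field_simp
  ring

theorem hasDerivAt_inv_one_sub_sq {s : ℝ} (hs : |s| < 1) :
    HasDerivAt (fun r : ℝ => (1 - r ^ 2)⁻¹) (2 * s / (1 - s ^ 2) ^ 2) s := by
  have h := ((hasDerivAt_pow 2 s).const_sub 1).inv (one_sub_sq_pos hs).ne'
  refine HasDerivAt.congr_deriv h ?_
  simp

theorem tt_eq (v : EE n → ℝ) (x : EE n) : tt v x = 1 - gsq (dd v) x := by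
  rw [tt, gsq_eq]

theorem tt_fun (v : EE n → ℝ) : tt v = fun x => 1 - gsq (dd v) x := funext (tt_eq v)

theorem tt_le_one (v : EE n → ℝ) (x : EE n) : tt v x ≤ 1 := by
  rw [tt_eq]; linarith [gsq_nonneg (dd v) x]

theorem Lm_eq (v f : EE n → ℝ) (x : EE n) :
    Lm v f x = (Δ f) x - 2 * Real.sqrt 2 * v x * gin (dd v) f x := by
  rw [Lm, gin_eq]

theorem psi_le_one (v : EE n → ℝ) (x : EE n) : psi v x ≤ 1 := by
  unfold psi; nlinarith [sq_nonneg (v x)]

namespace Sol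

theorem cd (h : Sol v) (k : ℕ) : ContDiff ℝ k v := contDiff_infty.1 h.sm k

theorem diff (h : Sol v) : Differentiable ℝ v := h.sm.differentiable (by simp)

theorem dd_sm (h : Sol v) : ContDiff ℝ ∞ (dd v) :=
  contDiff_iff_contDiffAt.2 fun x =>
    contDiffAt_const.mul ((contDiffAt_artanh (h.lt x)).comp x h.sm.contDiffAt)

theorem dd_cd (h : Sol v) (k : ℕ) : ContDiff ℝ k (dd v) := contDiff_infty.1 h.dd_sm k

theorem dd_diff (h : Sol v) : Differentiable ℝ (dd v) := h.dd_sm.differentiable (by simp)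

theorem psi_sm (h : Sol v) : ContDiff ℝ ∞ (psi v) := contDiff_const.sub (h.sm.pow 2)

theorem pdv_dd_sm (h : Sol v) (i : Fin n) : ContDiff ℝ ∞ (pdv i (dd v)) :=
  contDiff_pdv h.dd_sm (by simp) i

theorem gsq_dd_sm (h : Sol v) : ContDiff ℝ ∞ (gsq (dd v)) :=
  contDiff_iff_contDiffAt.2 fun _ => contDiffAt_gsq h.dd_sm.contDiffAt (by simp)

theorem tt_sm (h : Sol v) : ContDiff ℝ ∞ (tt v) := by
  rw [tt_fun]; exact contDiff_const.sub h.gsq_dd_sm

theorem tt_cd (h : Sol v) (k : ℕ) : ContDiff ℝ k (tt v) := contDiff_infty.1 h.tt_sm k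

theorem tt_diff (h : Sol v) : Differentiable ℝ (tt v) := h.tt_sm.differentiable (by simp)

theorem qq_sm (h : Sol v) : ContDiff ℝ ∞ (qq v) := h.psi_sm.mul h.tt_sm

theorem hs_sm (h : Sol v) (i j : Fin n) : ContDiff ℝ ∞ (hs (dd v) i j) :=
  contDiff_pdv (h.pdv_dd_sm j) (by simp) i

theorem hsq_sm (h : Sol v) : ContDiff ℝ ∞ (hsq (dd v)) :=
  ContDiff.sum fun i _ => ContDiff.sum fun j _ => (h.hs_sm i j).pow 2

/-- `v = tanh (d / √2)` -/
theorem eq_tanh (h : Sol v) (x : EE n) : v x = Real.tanh (dd v x / Real.sqrt 2) := by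
  rw [dd, mul_div_cancel_left₀ _ sqrt2_pos.ne', Real.tanh_artanh (abs_lt.1 (h.lt x))]

/-- `∇v = ψ/√2 ∇d` -/
theorem pdv_v (h : Sol v) (i : Fin n) (x : EE n) :
    pdv i v x = psi v x / Real.sqrt 2 * pdv i (dd v) x := by
  have := h.psi_pos x
  have := sqrt2_pos
  rw [h.pdv_dd]; field_simp

theorem grad_v (h : Sol v) (x : EE n) : ∇ v x = (psi v x / Real.sqrt 2) • ∇ (dd v) x := by
  ext i
  simp only [PiLp.smul_apply, grad_apply, smul_eq_mul, h.pdv_v]

theorem gin_v (h : Sol v) (f : EE n → ℝ) (x : EE n) :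
    gin f v x = psi v x / Real.sqrt 2 * gin f (dd v) x := by
  simp only [gin, h.pdv_v, Finset.mul_sum]
  exact Finset.sum_congr rfl fun i _ => by ring

theorem gsq_v (h : Sol v) (x : EE n) : gsq v x = psi v x ^ 2 / 2 * gsq (dd v) x := by
  simp only [gsq, h.pdv_v, Finset.mul_sum, mul_pow, div_pow, sqrt2_sq]

/-- `∇ψ = -√2 v ψ ∇d` -/
theorem pdv_psi (h : Sol v) (i : Fin n) (x : EE n) :
    pdv i (psi v) x = -Real.sqrt 2 * v x * psi v x * pdv i (dd v) x := by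
  change pdv i (fun y => 1 - v y ^ 2) x = _
  rw [pdv_const_sub, pdv_sq (h.diff x), h.pdv_v]
  have h2 := sqrt2_pos
  field_simp
  rw [sqrt2_sq]
  ring

/-- `Δ d = -√2 v t` -/
theorem lap_dd (h : Sol v) (x : EE n) : (Δ (dd v)) x = -Real.sqrt 2 * v x * tt v x := by
  have h1 : ∀ᶠ s in 𝓝 (v x), HasDerivAt (fun s => Real.sqrt 2 * Real.artanh s)
      (Real.sqrt 2 * (1 - s ^ 2)⁻¹) s := by
    filter_upwards [Ioo_mem_nhds (abs_lt.1 (h.lt x)).1 (abs_lt.1 (h.lt x)).2] with s hs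
    exact (hasDerivAt_artanh (abs_lt.2 hs)).const_mul _
  have h2 := lap_comp (f := v) (x := x) (φ := fun s => Real.sqrt 2 * Real.artanh s)
    (φ1 := fun s => Real.sqrt 2 * (1 - s ^ 2)⁻¹) (h.cd 2).contDiffAt
    (contDiffAt_const.mul (contDiffAt_artanh (h.lt x))) h1
    ((hasDerivAt_inv_one_sub_sq (h.lt x)).const_mul _)
  change (Δ (dd v)) x = _ at h2
  rw [h2, h.eq, h.gsq_v, tt_eq]
  have := h.psi_pos x
  unfold psi at this ⊢
  field_simp
  ring

theorem lap_dd_fun (h : Sol v) : Δ (dd v) = fun x => -Real.sqrt 2 * (v x * tt v x) :=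
  funext fun x => by rw [h.lap_dd]; ring

theorem pdv_lap_dd (h : Sol v) (i : Fin n) (x : EE n) :
    pdv i (Δ (dd v)) x = -qq v x * pdv i (dd v) x - Real.sqrt 2 * v x * pdv i (tt v) x := by
  rw [h.lap_dd_fun, pdv_const_mul (f := fun x => v x * tt v x) ((h.diff x).mul (h.tt_diff x)),
    pdv_mul (h.diff x) (h.tt_diff x), h.pdv_v, qq]
  have h2 := sqrt2_pos
  field_simp
  ring

/-- `∂_i t = -2 ⟪∇d, ∇d_i⟫` -/
theorem pdv_tt (h : Sol v) (i : Fin n) (x : EE n) :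
    pdv i (tt v) x = -2 * gin (dd v) (pdv i (dd v)) x := by
  rw [tt_fun, pdv_const_sub, pdv_gsq (h.dd_cd 2).contDiffAt, gin]
  simp only [pdv_comm (h.dd_cd 2).contDiffAt i]
  ring

/-- the equation of `d_i` -/
theorem Lm_pdv (h : Sol v) (i : Fin n) (x : EE n) :
    Lm v (pdv i (dd v)) x = -qq v x * pdv i (dd v) x := by
  rw [Lm_eq, lap_pdv (h.dd_cd 3).contDiffAt, h.pdv_lap_dd, h.pdv_tt]
  ring

theorem gin_lap_dd (h : Sol v) (x : EE n) : gin (dd v) (Δ (dd v)) x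
    = -qq v x * (1 - tt v x) - Real.sqrt 2 * v x * gin (dd v) (tt v) x := by
  have e : 1 - tt v x = gsq (dd v) x := by rw [tt_eq]; ring
  rw [e]
  simp only [gin, gsq, h.pdv_lap_dd, Finset.mul_sum, ← Finset.sum_sub_distrib]
  exact Finset.sum_congr rfl fun i _ => by ring

/-- the equation of `t` -/
theorem Lm_tt (h : Sol v) (x : EE n) :
    Lm v (tt v) x / 2 = qq v x * (1 - tt v x) - hsq (dd v) x := by
  have e : (Δ (tt v)) x = -(2 * hsq (dd v) x + 2 * gin (dd v) (Δ (dd v)) x) := by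
    rw [tt_fun, lap_const_sub (contDiffAt_gsq (h.dd_cd 3).contDiffAt (by norm_num)),
      bochner (h.dd_cd 3).contDiffAt]
  rw [Lm_eq, e, h.gin_lap_dd]
  ring

/-- `|Hess d|² ≥ 2 v² t² / n` -/
theorem hsq_ge (h : Sol v) (x : EE n) : 2 * v x ^ 2 * tt v x ^ 2 ≤ n * hsq (dd v) x := by
  have h1 := lap_sq_le (h.dd_cd 2).contDiffAt (x := x)
  rw [h.lap_dd] at h1
  calc 2 * v x ^ 2 * tt v x ^ 2 = (-Real.sqrt 2 * v x * tt v x) ^ 2 := by
        rw [mul_pow, mul_pow, neg_sq, sqrt2_sq]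
    _ ≤ _ := h1

/-- `(2 - Δ) ψ = ψ² (3 - t)` -/
theorem lap_psi2 (h : Sol v) (x : EE n) :
    (Δ (psi v)) x = 2 * psi v x - psi v x ^ 2 * (3 - tt v x) := by
  rw [show psi v = fun y => 1 - v y ^ 2 from rfl,
    lap_const_sub (f := fun y => v y ^ 2) ((h.cd 2).contDiffAt.pow 2),
    lap_sq (h.cd 2).contDiffAt, h.eq, h.gsq_v, tt_eq]
  unfold psi
  ring

/-- `Δ_μ d = -√2 v (2 - t)` -/
theorem Lm_dd (h : Sol v) (x : EE n) : Lm v (dd v) x = -Real.sqrt 2 * v x * (2 - tt v x) := by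
  rw [Lm_eq, h.lap_dd, gin_self, tt_eq]
  ring

/-- the energy density in `d`-variables -/
theorem en_eq (h : Sol v) (x : EE n) : en v x = psi v x ^ 2 * (2 - tt v x) / 4 := by
  rw [en, ← gsq_eq, h.gsq_v, tt_eq, psi]
  ring

end Sol

theorem deq : DEqStmt := fun _ _ h =>
  ⟨h.dd_sm, fun x => ⟨h.lap_dd x, fun i => h.Lm_pdv i x, h.Lm_tt x⟩⟩

end

end Crest.Agent.N067
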