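import Crest.Agent.N067.A.Ker5
import Crest.Agent.N067.A.RegS
import Crest.Agent.N067.A.Modica

/-!
Row 67, basics (helper2): Fubini for convolutions, `(μ - Δ) res μ f = f`, the weak equation and the
energy identity of `res μ f`, stability for `C¹` test functions of finite energy, dual stability.
-/

set_option autoImplicit false

open MeasureTheory Laplacian InnerProductSpace Topology Filter Set
open scoped RealInnerProductSpace ContDiff Gradient

namespace Crest.Agent.N067.Ker

open Crest.Agent.R077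

noncomputable section

variable {n : ℕ}

/-! ### Fubini -/

theorem integrable_ker {k f g : EE n → ℝ} {M : ℝ} (hk : Integrable k) (hf : Integrable f)
    (hg : AEStronglyMeasurable g volume) (hb : ∀ x, |g x| ≤ M) :
    Integrable (fun p : EE n × EE n => f p.1 * k (p.2 - p.1) * g p.2) (volume.prod volume) := by
  have h := (hf.convolution_integrand (ContinuousLinearMap.mul ℝ ℝ) hk).swap
  exact Integrable.mul_bdd (c := M) h hg.comp_snd (Eventually.of_forall fun p => hb p.2)

theorem integrable_ker' {k f g : EE n → ℝ} {M : ℝ} (hk : Integrable k)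
    (hf : AEStronglyMeasurable f volume) (hb : ∀ x, |f x| ≤ M) (hg : Integrable g) :
    Integrable (fun p : EE n × EE n => f p.1 * k (p.2 - p.1) * g p.2) (volume.prod volume) := by
  refine (integrable_ker hk.comp_neg hg hf hb).swap.congr (Eventually.of_forall fun p => ?_)
  simp only [Function.comp, Prod.fst_swap, Prod.snd_swap, neg_sub]
  ring

theorem integral_mul_cv_of {k f g : EE n → ℝ}
    (h : Integrable (fun p : EE n × EE n => f p.1 * k (p.2 - p.1) * g p.2) (volume.prod volume)) :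
    ∫ x, f x * cv k g x = ∫ y, cv (fun z => k (-z)) f y * g y := by
  simp_rw [cv_eq, ← integral_const_mul, ← integral_mul_const, ← mul_assoc]
  rw [integral_integral_swap (f := fun x y => f x * k (y - x) * g y) h]
  simp_rw [neg_sub, mul_comm (f _)]

theorem integrable_cv_int {k g : EE n → ℝ} (hk : Integrable k) (hg : Integrable g) :
    Integrable (cv k g) := by
  have h := (integrable_ker' (f := fun _ => 1) (M := 1) hk aestronglyMeasurable_const
    (fun _ => by simp) hg).integral_prod_left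
  simp only [one_mul] at h
  rwa [show cv k g = _ from funext (cv_eq k g)]

/-- the resolvent is symmetric -/
theorem integral_mul_res {μ M : ℝ} (hμ : 0 < μ) {f g : EE n → ℝ} (hf : Integrable f)
    (hg : AEStronglyMeasurable g volume) (hb : ∀ x, |g x| ≤ M) :
    ∫ x, f x * res μ g x = ∫ y, res μ f y * g y := by
  rw [res, integral_mul_cv_of (integrable_ker (integrable_Gk hμ) hf hg hb)]
  simp only [Gk_neg]
  rfl

theorem G1_neg (μ : ℝ) (z : EE n) : G1 μ (-z) = G1 μ z := by simp [G1, hk_neg]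

/-- the gradient kernel is antisymmetric -/
theorem integral_mul_cvG1 {μ M : ℝ} (hμ : 0 < μ) {f g : EE n → ℝ} (hf : Integrable f)
    (hg : AEStronglyMeasurable g volume) (hb : ∀ x, |g x| ≤ M) (i : Fin n) :
    ∫ x, f x * cv (fun z => G1 μ z * z i) g x = -∫ y, cv (fun z => G1 μ z * z i) f y * g y := by
  rw [integral_mul_cv_of (integrable_ker (integrable_G1_coord hμ i) hf hg hb), ← integral_neg]
  congr 1
  funext y
  simp only [cv, G1_neg, PiLp.neg_apply, mul_neg, neg_mul, integral_neg]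

theorem integrable_res {μ : ℝ} (hμ : 0 < μ) {f : EE n → ℝ} (hf : Integrable f) :
    Integrable (res μ f) := integrable_cv_int (integrable_Gk hμ) hf

theorem res_nonneg (μ : ℝ) {f : EE n → ℝ} (h : ∀ x, 0 ≤ f x) (x : EE n) : 0 ≤ res μ f x :=
  integral_nonneg fun z => mul_nonneg (Gk_nonneg μ z) (h _)

theorem cv_sub {k f g : EE n → ℝ} {x : EE n} (hf : Integrable fun z => k z * f (x + z))
    (hg : Integrable fun z => k z * g (x + z)) :
    cv k (fun y => f y - g y) x = cv k f x - cv k g x := by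
  simp only [cv, mul_sub]
  exact integral_sub hf hg

theorem cv_add {k f g : EE n → ℝ} {x : EE n} (hf : Integrable fun z => k z * f (x + z))
    (hg : Integrable fun z => k z * g (x + z)) :
    cv k (fun y => f y + g y) x = cv k f x + cv k g x := by
  simp only [cv, mul_add]
  exact integral_add hf hg

theorem cv_const_mul (k f : EE n → ℝ) (c : ℝ) (x : EE n) :
    cv k (fun y => c * f y) x = c * cv k f x := by
  simp only [cv, ← integral_const_mul, mul_left_comm]

theorem exists_bdd_of_cs {f : EE n → ℝ} (hf : Continuous f) (hc : HasCompactSupport f) :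
    ∃ M : ℝ, ∀ x, |f x| ≤ M := hf.bounded_above_of_compact_support hc

/-! ### `(μ - Δ) res μ f = f` -/

theorem res_inj {μ M : ℝ} (hμ : 0 < μ) {h : EE n → ℝ} (hc : Continuous h) (hb : ∀ x, |h x| ≤ M)
    (h0 : ∀ x, res μ h x = 0) (x : EE n) : h x = 0 := by
  have key := ae_eq_zero_of_integral_contDiff_smul_eq_zero (μ := volume) hc.locallyIntegrable
    fun g hg hs => by
      have hg2 : ContDiff ℝ 2 g := contDiff_infty.1 hg 2
      obtain ⟨M1, h1⟩ := exists_bdd_of_cs hg.continuous hs
      obtain ⟨M2, h2⟩ := exists_bdd_of_cs (continuous_lap hg2) (hasCompactSupport_lap hs)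
      have e := rep_res hμ le_rfl (by simpa using hμ) hg2
        (gr_of_bdd fun x => (h1 x).trans (le_max_left M1 M2))
        (gr_of_bdd fun x => (h2 x).trans (le_max_right M1 M2))
      have hI : Integrable fun y => μ * g y - (Δ g) y :=
        ((hg.continuous.integrable_of_hasCompactSupport hs).const_mul μ).sub
          ((continuous_lap hg2).integrable_of_hasCompactSupport (hasCompactSupport_lap hs))
      have := integral_mul_res hμ hI hc.aestronglyMeasurable hb
      rw [← e] at this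
      simp only [smul_eq_mul, ← this, h0, mul_zero, integral_zero]
  exact congrFun ((hc.ae_eq_iff_eq volume continuous_zero).1 key) x

/-- the resolvent solves the equation -/
theorem mu_res_sub_lap {μ C : ℝ} (hμ : 0 < μ) {f : EE n → ℝ} (h : Bd 1 C f) (x : EE n) :
    μ * res μ f x - (Δ (res μ f)) x = f x := by
  have hu := h.res hμ
  have h2 : ContDiff ℝ 2 (res μ f) := hu.contDiff
  have cl := continuous_lap h2
  have cu := h2.continuous
  have cf := h.continuous
  have b1 : ∀ y, |μ * res μ f y - (Δ (res μ f)) y| ≤ |μ| * (cR n μ * C) + n * (cR n μ * C) :=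
    fun y => (abs_sub _ _).trans (add_le_add
      (by rw [abs_mul]; exact mul_le_mul_of_nonneg_left (hu.bdd y) (abs_nonneg _))
      (hu.abs_lap_le y))
  have e := rep_res hμ le_rfl (by simpa using hμ) h2
    (gr_of_bdd fun y => (hu.bdd y).trans (le_max_left _ _))
    (gr_of_bdd fun y => (hu.abs_lap_le y).trans (le_max_right _ _))
  refine sub_eq_zero.1 (res_inj hμ (h := fun y => μ * res μ f y - (Δ (res μ f)) y - f y)
    (by fun_prop) (fun y => (abs_sub _ _).trans (add_le_add (b1 y) (h.bdd y))) (fun y => ?_) x)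
  rw [res, cv_sub (integrable_cv (integrable_Gk hμ) (by fun_prop) b1 y)
    (integrable_cv (integrable_Gk hμ) cf.aestronglyMeasurable h.bdd y)]
  exact sub_eq_zero.2 (congrFun e y).symm

theorem lap_res {μ C : ℝ} (hμ : 0 < μ) {f : EE n → ℝ} (h : Bd 1 C f) (x : EE n) :
    (Δ (res μ f)) x = ∑ i, cv (fun z => G1 μ z * z i) (pdv i f) x := by
  rw [lap_eq ((h.res hμ).contDiff.contDiffAt)]
  refine Finset.sum_congr rfl fun i _ => ?_
  rw [res, pdv_cv (integrable_Gk hμ) h, ← res,
    pdv_res hμ (h.pdv i).continuous.aestronglyMeasurable (h.pdv i).bdd]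

theorem bd_one_res {μ M : ℝ} (hμ : 0 < μ) {f : EE n → ℝ} (hf : AEStronglyMeasurable f volume)
    (h : ∀ x, |f x| ≤ M) : Bd 1 (cR n μ * M) (res μ f) := by
  have hM : 0 ≤ M := (abs_nonneg _).trans (h 0)
  have h0 : 0 ≤ ∫ z : EE n, G1 μ z * ‖z‖ :=
    integral_nonneg fun z => mul_nonneg (G1_nonneg μ z) (norm_nonneg z)
  have h1 : 0 ≤ μ⁻¹ := (inv_pos.2 hμ).le
  have hc := contDiff_one_res hμ hf h
  refine ⟨hc.differentiable (by norm_num), fun x =>
    (abs_res_le hμ h x).trans (mul_le_mul_of_nonneg_right ?_ hM), fun i =>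
    ⟨St.continuous_pdv hc i, fun x => ?_⟩⟩
  · unfold cR
    linarith
  · rw [pdv_res hμ hf h]
    refine (abs_cv_le (integrable_G1_coord hμ i) h x).trans (mul_le_mul_of_nonneg_right ?_ hM)
    unfold cR
    linarith [integral_abs_G1_le (n := n) hμ i]

theorem integrable_pdv_res {μ M : ℝ} (hμ : 0 < μ) {f : EE n → ℝ} (hf : Integrable f)
    (h : ∀ x, |f x| ≤ M) (i : Fin n) : Integrable (pdv i (res μ f)) := by
  rw [pdv_res hμ hf.1 h]
  exact integrable_cv_int (integrable_G1_coord hμ i) hf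

/-- WEAK EQUATION of `φ = res μ f`, `f` bounded measurable, test function `ζ ∈ C¹_b ∩ W^{1,1}` -/
theorem weak_res {μ M C : ℝ} (hμ : 0 < μ) {f ζ : EE n → ℝ} (hf : AEStronglyMeasurable f volume)
    (h : ∀ x, |f x| ≤ M) (hζ : Bd 1 C ζ) (h0 : Integrable ζ) (h1 : ∀ i, Integrable (pdv i ζ)) :
    (∑ i, ∫ x, pdv i ζ x * pdv i (res μ f) x) + μ * ∫ x, ζ x * res μ f x = ∫ x, ζ x * f x := by
  have hI : ∀ i, Integrable fun y => cv (fun z => G1 μ z * z i) (pdv i ζ) y * f y := fun i =>
    (integrable_cv_int (integrable_G1_coord hμ i) (h1 i)).mul_bdd hf (Eventually.of_forall h)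
  have hJ : Integrable fun y => res μ ζ y * f y :=
    (integrable_res hμ h0).mul_bdd hf (Eventually.of_forall h)
  simp_rw [pdv_res hμ hf h, fun i => integral_mul_cvG1 hμ (h1 i) hf h i]
  rw [integral_mul_res hμ h0 hf h, Finset.sum_neg_distrib, ← integral_finsetSum _ fun i _ => hI i,
    ← integral_const_mul, neg_add_eq_sub,
    ← integral_sub (hJ.const_mul μ) (integrable_finsetSum _ fun i _ => hI i)]
  congr 1
  funext y
  rw [← Finset.sum_mul, ← lap_res hμ hζ, ← mul_assoc, ← sub_mul, mu_res_sub_lap hμ hζ y]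

/-- ENERGY IDENTITY -/
theorem energy_res {μ M : ℝ} (hμ : 0 < μ) {f : EE n → ℝ} (hf : Integrable f)
    (h : ∀ x, |f x| ≤ M) :
    (∑ i, ∫ x, pdv i (res μ f) x ^ 2) + μ * ∫ x, res μ f x ^ 2 = ∫ x, res μ f x * f x := by
  simp only [sq]
  exact weak_res hμ hf.1 h (bd_one_res hμ hf.1 h) (integrable_res hμ hf) (integrable_pdv_res hμ hf h)

theorem integrable_sq_of_bdd {f : EE n → ℝ} {M : ℝ} (hf : Integrable f) (h : ∀ x, |f x| ≤ M) :
    Integrable fun x => f x ^ 2 := by
  simp only [sq]
  exact hf.mul_bdd hf.1 (Eventually.of_forall h)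

/-! ### cut-offs and stability for test functions of finite energy -/

theorem exists_cutoff (n : ℕ) : ∃ (η : ℕ → EE n → ℝ) (C : ℝ), 0 ≤ C ∧ (∀ k, ContDiff ℝ ∞ (η k)) ∧
    (∀ k, HasCompactSupport (η k)) ∧ (∀ k x, 0 ≤ η k x ∧ η k x ≤ 1) ∧
    (∀ k i x, |pdv i (η k) x| ≤ C) ∧ ∀ x, ∀ᶠ k in atTop, η k =ᶠ[𝓝 x] fun _ => 1 := by
  obtain ⟨C, hC0, hC⟩ := exists_chi1_bound (n := n)
  have hk1 : ∀ k : ℕ, (1 : ℝ) ≤ (k : ℝ) + 1 := fun k => by
    have : (0 : ℝ) ≤ k := Nat.cast_nonneg k
    linarith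
  have hk0 : ∀ k : ℕ, (0 : ℝ) < (k : ℝ) + 1 := fun k => lt_of_lt_of_le one_pos (hk1 k)
  refine ⟨fun k x => 1 - chi ((k : ℝ) + 1) x, C, hC0,
    fun k => contDiff_const.sub (contDiff_chi (m := ⊤) _), fun k => ?_, fun k x => ?_,
    fun k i x => ?_, fun x => ?_⟩
  · refine HasCompactSupport.intro (isCompact_closedBall (0 : EE n) (2 * ((k : ℝ) + 1))) ?_
    intro x hx
    simp only
    rw [chi_one (hk0 k) (le_of_lt (by simpa using hx)), sub_self]
  · have := chi_nonneg ((k : ℝ) + 1) x
    have := chi_le_one ((k : ℝ) + 1) x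
    constructor <;> linarith
  · rw [pdv_const_sub, abs_neg, pdv_chi, abs_mul, abs_of_pos (inv_pos.2 (hk0 k))]
    calc _ ≤ 1 * C := mul_le_mul (inv_le_one_of_one_le₀ (hk1 k)) (hC i _).1 (abs_nonneg _) zero_le_one
      _ = C := one_mul C
  · obtain ⟨N, hN⟩ := exists_nat_gt ‖x‖
    filter_upwards [eventually_ge_atTop N] with k hk
    have hlt : ‖x‖ < (k : ℝ) + 1 := by
      have : (N : ℝ) ≤ k := by exact_mod_cast hk
      linarith
    filter_upwards [(isOpen_lt continuous_norm continuous_const).mem_nhds hlt] with y hy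
    rw [chi_zero (hk0 k) (le_of_lt hy), sub_zero]

/-- a quadratic-form inequality passes from compact support to finite energy -/
theorem form_ext {c ρ : EE n → ℝ} {M : ℝ} (hc : Continuous c) (hρ : Continuous ρ)
    (hcb : ∀ x, |c x| ≤ M) (hρb : ∀ x, |ρ x| ≤ M)
    (H : ∀ φ : EE n → ℝ, ContDiff ℝ 1 φ → HasCompactSupport φ →
      0 ≤ ∫ x, (ρ x * ‖∇ φ x‖ ^ 2 + c x * φ x ^ 2))
    {φ : EE n → ℝ} (hφ : ContDiff ℝ 1 φ) (h0 : Integrable fun x => φ x ^ 2)
    (h1 : ∀ i, Integrable fun x => pdv i φ x ^ 2) :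
    0 ≤ ∫ x, (ρ x * ‖∇ φ x‖ ^ 2 + c x * φ x ^ 2) := by
  obtain ⟨η, C, hC, hη, hs, hb, hp, he⟩ := exists_cutoff n
  have hM : 0 ≤ M := (abs_nonneg _).trans (hcb 0)
  have hη1 : ∀ k, ContDiff ℝ 1 (η k) := fun k => contDiff_infty.1 (hη k) 1
  have hk : ∀ k, ContDiff ℝ 1 fun x => η k x * φ x := fun k => (hη1 k).mul hφ
  refine ge_of_tendsto' (tendsto_integral_of_dominated_convergence
    (F := fun k x => ρ x * ‖∇ (fun y => η k y * φ y) x‖ ^ 2 + c x * (η k x * φ x) ^ 2)
    (fun x => M * ∑ i, (2 * C ^ 2 * φ x ^ 2 + 2 * pdv i φ x ^ 2) + M * φ x ^ 2) (fun k => ?_) ?_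
    (fun k => Eventually.of_forall fun x => ?_) (Eventually.of_forall fun x => ?_))
    fun k => H _ (hk k) (hs k).mul_right
  · have := St.continuous_grad (hk k)
    have := (hk k).continuous
    exact Continuous.aestronglyMeasurable (by fun_prop)
  · exact ((integrable_finsetSum _ fun i _ => (h0.const_mul _).add ((h1 i).const_mul _)).const_mul
      M).add (h0.const_mul M)
  · refine (norm_add_le _ _).trans (add_le_add ?_ ?_)
    · rw [norm_mul, Real.norm_eq_abs, Real.norm_of_nonneg (sq_nonneg _), St.norm_grad_sq]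
      refine mul_le_mul (hρb x) (Finset.sum_le_sum fun i _ => ?_) (by positivity) hM
      rw [pdv_mul ((hη1 k).differentiable (by norm_num) x) (hφ.differentiable (by norm_num) x)]
      have a1 : pdv i (η k) x ^ 2 ≤ C ^ 2 := sq_le_sq' (abs_le.1 (hp k i x)).1 (abs_le.1 (hp k i x)).2
      have a2 : η k x ^ 2 ≤ 1 := pow_le_one₀ (hb k x).1 (hb k x).2
      nlinarith [sq_nonneg (pdv i (η k) x * φ x - η k x * pdv i φ x), sq_nonneg (φ x),
        sq_nonneg (pdv i φ x), mul_le_mul_of_nonneg_right a1 (sq_nonneg (φ x)),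
        mul_le_mul_of_nonneg_right a2 (sq_nonneg (pdv i φ x))]
    · rw [norm_mul, Real.norm_eq_abs, Real.norm_of_nonneg (sq_nonneg _), mul_pow]
      exact mul_le_mul (hcb x) (mul_le_of_le_one_left (sq_nonneg _)
        (pow_le_one₀ (hb k x).1 (hb k x).2)) (by positivity) hM
  · refine tendsto_const_nhds.congr' ?_
    filter_upwards [he x] with k hk
    have : (fun y => η k y * φ y) =ᶠ[𝓝 x] φ := by
      filter_upwards [hk] with y hy
      rw [hy, one_mul]
    rw [this.gradient_eq, hk.eq_of_nhds, one_mul]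

theorem stable_ext {v φ : EE n → ℝ} (hv : IsSol v) (hs : Stable v) (hφ : ContDiff ℝ 1 φ)
    (h0 : Integrable fun x => φ x ^ 2) (h1 : ∀ i, Integrable fun x => pdv i φ x ^ 2) :
    ∫ x, 3 * psi v x * φ x ^ 2 ≤ (∑ i, ∫ x, pdv i φ x ^ 2) + 2 * ∫ x, φ x ^ 2 := by
  have cv := hv.c2.continuous
  have hq : ∀ x, v x ^ 2 ≤ 1 := fun x => (sq_le_one_iff_abs_le_one _).2 (hv.bd x)
  have hb : ∀ x, |3 * v x ^ 2 - 1| ≤ 2 := fun x => by
    rw [abs_le]
    constructor <;> nlinarith [hq x, sq_nonneg (v x)]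
  have h := form_ext (c := fun x => 3 * v x ^ 2 - 1) (ρ := fun _ => 1) (M := 2) (by fun_prop)
    continuous_const hb (fun _ => by norm_num)
    (fun φ h1 h2 => by simpa only [one_mul] using hs φ h1 h2) hφ h0 h1
  have hI : Integrable fun x => 3 * psi v x * φ x ^ 2 :=
    h0.bdd_mul (c := 3) (Continuous.aestronglyMeasurable (by unfold psi; fun_prop))
      (Eventually.of_forall fun x => by
        rw [Real.norm_eq_abs, abs_le, psi]
        constructor <;> nlinarith [hq x, sq_nonneg (v x)])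
  have hS := integrable_finsetSum Finset.univ fun i _ => h1 i
  rw [← integral_finsetSum _ fun i _ => h1 i, ← integral_const_mul,
    ← integral_add hS (h0.const_mul 2), ← sub_nonneg, ← integral_sub (f := fun x =>
      ∑ i, pdv i φ x ^ 2 + 2 * φ x ^ 2) (hS.add (h0.const_mul 2)) hI]
  refine h.trans (le_of_eq ?_)
  congr 1
  funext x
  rw [St.norm_grad_sq, psi]
  ring

theorem _root_.Crest.Agent.N067.IsSol.psi_mem {v : EE n → ℝ} (hv : IsSol v) (x : EE n) : 0 ≤ psi v x ∧ psi v x ≤ 1 :=
  ⟨sub_nonneg.2 ((sq_le_one_iff_abs_le_one _).2 (hv.bd x)), psi_le_one v x⟩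

/-- DUAL STABILITY (Birman-Schwinger form): `⟨G (3 ψ a), 3 ψ a⟩ ≤ ∫ 3 ψ a²`, `G = (2 - Δ)⁻¹` -/
theorem dual {v a : EE n → ℝ} {M : ℝ} (hv : IsSol v) (hs : Stable v)
    (ha : AEStronglyMeasurable a volume) (hb : ∀ x, |a x| ≤ M)
    (hi : Integrable fun x => psi v x * a x) :
    ∫ x, res 2 (fun y => 3 * psi v y * a y) x * (3 * psi v x * a x) ≤
      ∫ x, 3 * psi v x * a x ^ 2 := by
  set f : EE n → ℝ := fun y => 3 * psi v y * a y with hf
  have hM : 0 ≤ M := (abs_nonneg _).trans (hb 0)
  have hψ := IsSol.psi_mem hv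
  have fi : Integrable f := by simpa only [hf, mul_assoc] using hi.const_mul 3
  have fb : ∀ x, |f x| ≤ 3 * M := fun x => by
    simp only [hf]
    rw [abs_mul, abs_of_nonneg (by linarith [(hψ x).1])]
    exact mul_le_mul (by linarith [(hψ x).2]) (hb x) (abs_nonneg _) (by norm_num)
  have hB := bd_one_res two_pos fi.1 fb
  have i0 := integrable_sq_of_bdd (integrable_res two_pos fi) hB.bdd
  have h1 := stable_ext hv hs hB.contDiff i0
    fun i => integrable_sq_of_bdd (integrable_pdv_res two_pos fi fb i) (hB.pdv i).bdd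
  rw [energy_res two_pos fi fb] at h1
  have cψ : Continuous (psi v) := by
    have := hv.c2.continuous
    unfold psi
    fun_prop
  have i1 : Integrable fun x => 3 * psi v x * res 2 f x ^ 2 :=
    i0.bdd_mul (c := 3) (Continuous.aestronglyMeasurable (by fun_prop))
      (Eventually.of_forall fun x => by
        rw [Real.norm_eq_abs, abs_le]
        constructor <;> linarith [(hψ x).1, (hψ x).2])
  have i2 : Integrable fun x => 3 * psi v x * a x ^ 2 := by
    have := fi.mul_bdd ha (Eventually.of_forall hb)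
    simpa only [hf, sq, mul_assoc] using this
  have i3 : Integrable fun x => res 2 f x * f x :=
    (integrable_res two_pos fi).mul_bdd fi.1 (Eventually.of_forall fb)
  have h2 : ∫ x, 2 * (res 2 f x * f x) ≤
      ∫ x, (3 * psi v x * res 2 f x ^ 2 + 3 * psi v x * a x ^ 2) :=
    integral_mono (i3.const_mul 2) (i1.add i2) fun x => by
      simp only [hf]
      nlinarith [mul_nonneg (hψ x).1 (sq_nonneg (res 2 f x - a x))]
  rw [integral_const_mul, integral_add i1 i2] at h2
  linarith

/-- double-integral form of the resolvent pairing -/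
theorem integral_res_mul {μ M : ℝ} (hμ : 0 < μ) {f g : EE n → ℝ} (hf : Integrable f)
    (hg : AEStronglyMeasurable g volume) (hb : ∀ x, |g x| ≤ M) :
    ∫ x, f x * res μ g x = ∫ p : EE n × EE n, f p.1 * Gk μ (p.2 - p.1) * g p.2
      ∂(volume.prod volume) := by
  rw [integral_prod _ (integrable_ker (integrable_Gk hμ) hf hg hb)]
  simp_rw [res, cv_eq, ← integral_const_mul, mul_assoc]

/-! ### kernel formulas for a solution -/

/-- `v_i = G (3 ψ v_i)` -/
theorem pdv_eq_res {v : EE n → ℝ} (hv : IsSol v) (i : Fin n) :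
    pdv i v = res 2 fun y => 3 * psi v y * pdv i v y := by
  obtain ⟨C, hC⟩ := exists_bd n 3
  have h := (hC v hv).pdv i
  have e := rep_res (μ := 2) two_pos le_rfl (by norm_num) h.contDiff
    (gr_of_bdd fun y => (h.bdd y).trans (le_max_left _ _))
    (gr_of_bdd fun y => (h.abs_lap_le y).trans (le_max_right _ _))
  refine e.trans ?_
  congr 1
  funext y
  have := St.lap_dir_sol (hC v hv).contDiff hv.eq (ev i) y
  change (Δ (pdv i v)) y = _ * pdv i v y at this
  rw [this, psi]
  ring

/-- `ψ = G (ψ² (3 - t))` -/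
theorem psi_eq_res {v : EE n → ℝ} (hv : Sol v) :
    psi v = res 2 fun y => psi v y ^ 2 * (3 - tt v y) := by
  have hψ := IsSol.psi_mem hv.isSol
  have e := rep_res (μ := 2) (M := 3) two_pos le_rfl (by norm_num) (contDiff_infty.1 hv.psi_sm 2)
    (gr_of_bdd fun y => by rw [abs_le]; constructor <;> linarith [(hψ y).1, (hψ y).2])
    (gr_of_bdd fun y => by
      have := hψ y
      have h1 := hv.tt_nonneg y
      have h2 := tt_le_one v y
      have h3 : psi v y ^ 2 ≤ 1 := pow_le_one₀ this.1 this.2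
      rw [hv.lap_psi2, abs_le]
      constructor <;> nlinarith [sq_nonneg (psi v y)])
  refine e.trans ?_
  congr 1
  funext y
  rw [hv.lap_psi2]
  ring

end

end Crest.Agent.N067.Ker
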