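import Crest.Agent.N067.A.All
import Crest.Agent.N067.A.Harn

/-!
# Row 67 basics: ball barrier for `d`, Harnack for ordered pairs, Gibbons (helper88)
-/

set_option autoImplicit false

open Laplacian InnerProductSpace Topology Filter Set Metric
open scoped RealInnerProductSpace Gradient ContDiff

namespace Crest.Agent.N067

open Crest.Agent.R077

variable {n : ℕ} {v : EE n → ℝ}

theorem Sol.neg' (h : Sol v) : Sol fun x => -v x :=
  ⟨h.sm.neg, fun x => by rw [abs_neg]; exact h.lt x, neg_sol h.eq⟩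

theorem Sol.dd_neg' (h : Sol v) (x : EE n) : dd (fun x => -v x) x = -dd v x := by
  have e : -v x = Real.tanh (-(dd v x / Real.sqrt 2)) := by rw [Real.tanh_neg, ← h.eq_tanh]
  change Real.sqrt 2 * Real.artanh (-v x) = _
  rw [e, Real.artanh_tanh]
  have := sqrt2_pos
  field_simp

theorem Sol.dd_pos (h : Sol v) {x : EE n} (hx : 0 < v x) : 0 < dd v x :=
  mul_pos sqrt2_pos (Real.artanh_pos ⟨hx, (abs_lt.1 (h.lt x)).2⟩)

theorem Sol.dd_lt_zero (h : Sol v) {x : EE n} (hx : v x < 0) : dd v x < 0 :=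
  mul_neg_of_pos_of_neg sqrt2_pos (Real.artanh_neg ⟨(abs_lt.1 (h.lt x)).1, hx⟩)

theorem hasDerivAt_sqrt_add {L s : ℝ} (hs : 0 < s + L ^ 2) :
    HasDerivAt (fun s => √(s + L ^ 2)) (1 / (2 * √(s + L ^ 2))) s :=
  ((hasDerivAt_id s).add_const (L ^ 2)).sqrt hs.ne'

theorem contDiff_sqrtbar {L : ℝ} (hL : 0 < L) (x : EE n) {k : WithTop ℕ∞} :
    ContDiff ℝ k fun z : EE n => √(‖z - x‖ ^ 2 + L ^ 2) :=
  ((contDiff_sq x).add contDiff_const).sqrt fun z => by positivity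

theorem norm_fderiv_sqrtbar {L : ℝ} (hL : 0 < L) (x y : EE n) :
    ‖fderiv ℝ (fun z : EE n => √(‖z - x‖ ^ 2 + L ^ 2)) y‖ =
      ‖y - x‖ / √(‖y - x‖ ^ 2 + L ^ 2) := by
  have hs : 0 < ‖y - x‖ ^ 2 + L ^ 2 := by positivity
  rw [(hasFDerivAt_rad (F := fun s => √(s + L ^ 2)) (hasDerivAt_sqrt_add hs)).fderiv, norm_smul,
    innerSL_apply_norm, Real.norm_eq_abs, abs_of_nonneg (by positivity)]
  field_simp

theorem lap_sqrtbar {L : ℝ} (hL : 0 < L) (x y : EE n) :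
    (Δ fun z : EE n => √(‖z - x‖ ^ 2 + L ^ 2)) y ≤ n / √(‖y - x‖ ^ 2 + L ^ 2) := by
  have hs : 0 < ‖y - x‖ ^ 2 + L ^ 2 := by positivity
  have hF : ContDiffAt ℝ 2 (fun s : ℝ => √(s + L ^ 2)) (‖y - x‖ ^ 2) :=
    (contDiffAt_id.add contDiffAt_const).sqrt hs.ne'
  have h1 : deriv (fun s : ℝ => √(s + L ^ 2)) =ᶠ[𝓝 (‖y - x‖ ^ 2)]
      fun s => 1 / 2 * (√(s + L ^ 2))⁻¹ := by
    filter_upwards [Ioi_mem_nhds (show -L ^ 2 < ‖y - x‖ ^ 2 by linarith)] with s hs'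
    rw [(hasDerivAt_sqrt_add (show 0 < s + L ^ 2 by linarith [mem_Ioi.1 hs'])).deriv]
    ring
  have hρ0 := Real.sqrt_pos.2 hs
  have h2 := (((hasDerivAt_sqrt_add hs).fun_inv hρ0.ne').const_mul (1 / 2)).deriv
  rw [lap_rad (F := fun s : ℝ => √(s + L ^ 2)) hF, h1.deriv_eq, h2, h1.self_of_nhds]
  set ρ := √(‖y - x‖ ^ 2 + L ^ 2)
  have e : 4 * ‖y - x‖ ^ 2 * (1 / 2 * (-(1 / (2 * ρ)) / ρ ^ 2)) + 2 * n * (1 / 2 * ρ⁻¹) =
      n / ρ - ‖y - x‖ ^ 2 / ρ ^ 3 := by field_simp; ring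
  rw [e]
  have : 0 ≤ ‖y - x‖ ^ 2 / ρ ^ 3 := by positivity
  linarith

theorem ball_alg {n ρ L r q : ℝ} (hn : 0 ≤ n) (hρ1 : 1 ≤ ρ) (hL : 0 < L)
    (hL2 : L ^ 2 = 4 * (n + 1) ^ 2 * ρ) (hr : 0 ≤ r) (hq0 : 0 < q) (hq2 : q ^ 2 = r ^ 2 + L ^ 2)
    (h : 1 - ((1 - 1 / ρ) * (r / q)) ^ 2 ≤ n / q) : False := by
  have hρ0 : 0 < ρ := by linarith
  have hi : 1 / ρ ≤ 1 := (div_le_one hρ0).2 hρ1
  have hi0 : 0 < 1 / ρ := by positivity
  have hqle : q ≤ r + L := le_of_sq_le_sq (by rw [hq2]; nlinarith) (by positivity)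
  have h6 := mul_le_mul_of_nonneg_right h (sq_nonneg q)
  rw [show n / q * q ^ 2 = n * q by field_simp, show (1 - ((1 - 1 / ρ) * (r / q)) ^ 2) * q ^ 2 =
    q ^ 2 - (1 - 1 / ρ) ^ 2 * r ^ 2 by field_simp] at h6
  have h7 : (1 - 1 / ρ) ^ 2 * r ^ 2 ≤ (1 - 1 / ρ) * r ^ 2 :=
    mul_le_mul_of_nonneg_right (by nlinarith) (sq_nonneg r)
  have h8 : n * r ≤ 1 / ρ * r ^ 2 + n ^ 2 * ρ / 4 := by
    have h9 : 0 ≤ 1 / ρ * (r - n * ρ / 2) ^ 2 := by positivity
    have e : 1 / ρ * (r - n * ρ / 2) ^ 2 = 1 / ρ * r ^ 2 - n * r + n ^ 2 * ρ / 4 := by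
      field_simp; ring
    linarith
  have h9 : 2 * (n + 1) ≤ L := le_of_sq_le_sq (by
    have := mul_le_mul_of_nonneg_left hρ1 (by positivity : 0 ≤ 4 * (n + 1) ^ 2)
    linarith) hL.le
  have h10 := mul_le_mul_of_nonneg_right h9 hL.le
  have h11 := mul_le_mul_of_nonneg_left hqle hn
  have h12 : 0 ≤ n * ρ := by positivity
  have h13 : 0 ≤ n ^ 2 * ρ := by positivity
  linarith

/-- BALL BARRIER for `d`: inside a ball of radius `ρ` in `{v > 0}`, `d` is at least the distance to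
the sphere, up to a constant when `‖y - c‖ ≥ θ ρ` -/
theorem ball_dd (n : ℕ) : ∃ C : ℝ, 1 ≤ C ∧ ∀ v : EE n → ℝ, Sol v → ∀ (c y : EE n) (ρ : ℝ),
    (∀ z ∈ ball c ρ, 0 < v z) → ‖y - c‖ < ρ → ρ - √(‖y - c‖ ^ 2 + C * ρ) - C ≤ dd v y := by
  obtain ⟨R0, hR0, hb⟩ := ballS n (1 / 4) (by norm_num)
  have hn : (0 : ℝ) ≤ n := n.cast_nonneg
  have h4 : 0 ≤ 4 * ((n : ℝ) + 1) ^ 2 := by positivity
  refine ⟨4 * (n + 1) ^ 2 + R0 + 1, by linarith, fun v hv c y ρ hpos hy => ?_⟩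
  have hρ0 : 0 < ρ := (norm_nonneg _).trans_lt hy
  have hdy := hv.dd_pos (hpos y (mem_ball_iff_norm.2 hy))
  set L := √(4 * (n + 1) ^ 2 * ρ) with hLd
  have hL : 0 < L := Real.sqrt_pos.2 (by positivity)
  have hL2 : L ^ 2 = 4 * (n + 1) ^ 2 * ρ := Real.sq_sqrt (by positivity)
  have hm : √(‖y - c‖ ^ 2 + L ^ 2) ≤ √(‖y - c‖ ^ 2 + (4 * (n + 1) ^ 2 + R0 + 1) * ρ) :=
    Real.sqrt_le_sqrt (by
      have := mul_pos hR0 hρ0
      rw [hL2]; linarith)
  have hr : ∀ z : EE n, ‖z - c‖ ≤ √(‖z - c‖ ^ 2 + L ^ 2) := fun z =>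
    Real.le_sqrt_of_sq_le (by linarith [sq_nonneg L])
  clear_value L
  rcases le_or_gt (ρ - R0 - 1) ‖y - c‖ with h | h
  · linarith [hr y]
  have hρ1 : 1 ≤ ρ := by linarith [norm_nonneg (y - c)]
  set a := 1 - 1 / ρ with ha
  have hi : 1 / ρ ≤ 1 := (div_le_one hρ0).2 hρ1
  have hi0 : 0 < 1 / ρ := by positivity
  have ha0 : 0 ≤ a := by linarith
  have ha1 : a ≤ 1 := by linarith
  have hg := contDiff_sqrtbar hL c (k := 2)
  have hvz : ∀ z ∈ closedBall c (ρ - R0), 3 / 4 ≤ v z := fun z hz => by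
    have := hb v hv.isSol z fun u hu => hpos u (by
      rw [mem_ball] at *
      linarith [dist_triangle u z c, mem_closedBall.1 hz])
    linarith
  obtain ⟨z, hz, hmin⟩ := (isCompact_closedBall c (ρ - R0)).exists_isMinOn
    (f := fun z => dd v z + a * √(‖z - c‖ ^ 2 + L ^ 2))
    ⟨y, mem_closedBall_iff_norm.2 (by linarith)⟩
    (hv.dd_sm.continuous.add (continuous_const.mul hg.continuous)).continuousOn
  have h1 : dd v z + a * √(‖z - c‖ ^ 2 + L ^ 2) ≤ dd v y + a * √(‖y - c‖ ^ 2 + L ^ 2) :=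
    hmin (mem_closedBall_iff_norm.2 (by linarith) : y ∈ closedBall c (ρ - R0))
  have hv3 := hvz z hz
  rcases (mem_closedBall_iff_norm.1 hz).eq_or_lt with hzc | hzc
  · have h2 := hv.dd_pos (show 0 < v z by linarith)
    have h3 := mul_le_mul_of_nonneg_left (hr z) ha0
    have h5 := mul_le_mul_of_nonneg_right ha1 (Real.sqrt_nonneg (‖y - c‖ ^ 2 + L ^ 2))
    have h6 : a * ‖z - c‖ = ρ - R0 - 1 + R0 / ρ := by rw [hzc, ha]; field_simp; ring
    have h7 : 0 ≤ R0 / ρ := by positivity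
    linarith
  exfalso
  have hm' := hmin.isLocalMin (mem_of_superset (isOpen_ball.mem_nhds (mem_ball_iff_norm.2 hzc))
    ball_subset_closedBall)
  have hd2 := (hv.dd_cd 2).contDiffAt (x := z)
  have hg2 : ContDiffAt ℝ 2 (fun z : EE n => a * √(‖z - c‖ ^ 2 + L ^ 2)) z :=
    contDiffAt_const.mul hg.contDiffAt
  have l1 := laplacian_nonneg_of_isLocalMin (hd2.add hg2) hm'
  rw [lap_add' hd2 hg2, lap_const_mul hg.contDiffAt, hv.lap_dd] at l1
  have g1 := hm'.hasFDerivAt_eq_zero ((hv.dd_diff z).hasFDerivAt.add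
    ((hg.differentiable (by norm_num) z).hasFDerivAt.const_mul a))
  have g2 : ‖∇ (dd v) z‖ = a * (‖z - c‖ / √(‖z - c‖ ^ 2 + L ^ 2)) := by
    rw [norm_grad, eq_neg_of_add_eq_zero_left g1, norm_neg, norm_smul, norm_fderiv_sqrtbar hL,
      Real.norm_eq_abs, abs_of_nonneg ha0]
  have l2 := mul_le_mul_of_nonneg_left (lap_sqrtbar hL c z) ha0
  have ht0 := hv.tt_nonneg z
  have hs : 0 < ‖z - c‖ ^ 2 + L ^ 2 := by positivity
  have hq0 := Real.sqrt_pos.2 hs
  have h2 : 1 ≤ Real.sqrt 2 * v z := by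
    have h43 : 4 / 3 ≤ Real.sqrt 2 := Real.le_sqrt_of_sq_le (by norm_num)
    have := mul_le_mul h43 hv3 (by norm_num) sqrt2_pos.le
    linarith
  have h3 := mul_le_mul_of_nonneg_right h2 ht0
  have h5 : a * (n / √(‖z - c‖ ^ 2 + L ^ 2)) ≤ n / √(‖z - c‖ ^ 2 + L ^ 2) :=
    mul_le_of_le_one_left (by positivity) ha1
  refine ball_alg hn hρ1 hL hL2 (norm_nonneg (z - c)) hq0 (Real.sq_sqrt hs.le) ?_
  rw [tt, g2] at l1 h3
  linarith

/-- the form away from the centre: only a constant is lost -/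
theorem ball_dd' (n : ℕ) : ∃ C : ℝ, 1 ≤ C ∧ ∀ v : EE n → ℝ, Sol v → ∀ (c y : EE n) (ρ : ℝ),
    (∀ z ∈ ball c ρ, 0 < v z) → ρ / 2 ≤ ‖y - c‖ → ‖y - c‖ < ρ → ρ - ‖y - c‖ - C ≤ dd v y := by
  obtain ⟨C, hC1, hC⟩ := ball_dd n
  refine ⟨2 * C, by linarith, fun v hv c y ρ hpos h1 h2 => ?_⟩
  have h3 := hC v hv c y ρ hpos h2
  have h4 : √(‖y - c‖ ^ 2 + C * ρ) ≤ ‖y - c‖ + C :=
    Real.sqrt_le_iff.2 ⟨by positivity, by nlinarith⟩
  linarith

/-- HALF-SPACE comparison -/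
theorem half_dd (n : ℕ) : ∃ C : ℝ, 1 ≤ C ∧ ∀ v : EE n → ℝ, Sol v → ∀ (e : EE n) (K : ℝ), ‖e‖ = 1 →
    (∀ x, K < ⟪e, x⟫ → 0 < v x) → ∀ x, ⟪e, x⟫ - K - C ≤ dd v x ∨ ⟪e, x⟫ ≤ K := by
  obtain ⟨C, hC1, hC⟩ := ball_dd' n
  refine ⟨C, hC1, fun v hv e K he hp x => ?_⟩
  rcases le_or_gt ⟪e, x⟫ K with h | h
  · exact Or.inr h
  set s := ⟪e, x⟫ - K with hs
  have hs0 : 0 < s := by linarith
  have e1 : ‖x - (x + s • e)‖ = s := by
    rw [sub_add_cancel_left, norm_neg, norm_smul, he, mul_one, Real.norm_eq_abs, abs_of_pos hs0]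
  have h1 := hC v hv (x + s • e) x (2 * s) (fun z hz => hp z ?_) (by rw [e1]; linarith)
    (by rw [e1]; linarith)
  · rw [e1] at h1
    exact Or.inl (by linarith)
  have h2 := abs_real_inner_le_norm e (z - (x + s • e))
  rw [he, one_mul, inner_sub_right, inner_add_right, inner_smul_right, real_inner_self_eq_norm_sq,
    he] at h2
  linarith [neg_abs_le (⟪e, z⟫ - (⟪e, x⟫ + s * 1 ^ 2)), mem_ball_iff_norm.1 hz]

theorem abs_tanh_sub_le (a b : ℝ) : |Real.tanh a - Real.tanh b| ≤ |a - b| := by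
  have h := convex_univ.norm_image_sub_le_of_norm_hasDerivWithin_le (C := 1) (f := Real.tanh)
    (fun s _ => (Aac.hasDerivAt_tanh s).hasDerivWithinAt) (fun s _ => by
      rw [Real.norm_eq_abs, abs_le]
      have := Real.tanh_sq_lt_one s
      constructor <;> nlinarith [sq_nonneg (Real.tanh s)]) (mem_univ b) (mem_univ a)
  simpa using h

/-- the difference of two `d`-functions solves a linear inequality with universal coefficients -/
theorem lap_dd_sub_le {v w : EE n → ℝ} (hv : Sol v) (hw : Sol w) (x : EE n) :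
    |(Δ fun y => dd v y - dd w y) x| ≤
      3 * ‖fderiv ℝ (fun y => dd v y - dd w y) x‖ + 3 * |dd v x - dd w x| := by
  rw [lap_sub' (hv.dd_cd 2).contDiffAt (hw.dd_cd 2).contDiffAt, hv.lap_dd, hw.lap_dd,
    fderiv_fun_sub (hv.dd_diff x) (hw.dd_diff x)]
  have h2 := sqrt2_pos
  have h22 : Real.sqrt 2 ≤ 3 / 2 := Real.sqrt_le_iff.2 ⟨by norm_num, by norm_num⟩
  have h1 : Real.sqrt 2 * |v x - w x| ≤ |dd v x - dd w x| := by
    have := abs_tanh_sub_le (dd v x / Real.sqrt 2) (dd w x / Real.sqrt 2)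
    rw [← hv.eq_tanh, ← hw.eq_tanh, ← sub_div, abs_div, abs_of_pos h2, le_div_iff₀ h2] at this
    linarith
  have h3 : |tt v x - tt w x| ≤ 2 * ‖fderiv ℝ (dd v) x - fderiv ℝ (dd w) x‖ := by
    have a1 := hv.norm_grad_dd_le x
    have a2 := hw.norm_grad_dd_le x
    rw [norm_grad] at a1 a2
    rw [tt, tt, norm_grad, norm_grad]
    have a3 := abs_norm_sub_norm_le (fderiv ℝ (dd v) x) (fderiv ℝ (dd w) x)
    set p := ‖fderiv ℝ (dd v) x‖
    set q := ‖fderiv ℝ (dd w) x‖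
    have a4 : 0 ≤ p + q := by positivity
    rw [show 1 - p ^ 2 - (1 - q ^ 2) = -((p - q) * (p + q)) by ring, abs_neg, abs_mul,
      abs_of_nonneg a4]
    have := mul_le_mul a3 (show p + q ≤ 2 by linarith) a4 (norm_nonneg _)
    linarith
  have e : -Real.sqrt 2 * v x * tt v x - -Real.sqrt 2 * w x * tt w x =
      -(Real.sqrt 2 * ((v x - w x) * tt v x + w x * (tt v x - tt w x))) := by ring
  rw [e, abs_neg, abs_mul, abs_of_pos h2]
  have h4 := abs_add_le ((v x - w x) * tt v x) (w x * (tt v x - tt w x))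
  rw [abs_mul, abs_mul, abs_of_nonneg (hv.tt_nonneg x)] at h4
  have h5 := mul_le_of_le_one_right (abs_nonneg (v x - w x)) (tt_le_one v x)
  have h6 := mul_le_of_le_one_left (abs_nonneg (tt v x - tt w x)) (hw.lt x).le
  have h7 := mul_le_mul_of_nonneg_left (h4.trans (add_le_add h5 (h6.trans h3))) h2.le
  have h8 := mul_le_mul_of_nonneg_right h22 (norm_nonneg (fderiv ℝ (dd v) x - fderiv ℝ (dd w) x))
  linarith [abs_nonneg (dd v x - dd w x)]

/-- HARNACK for ordered pairs of solutions, in `d`-variables -/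
theorem harnack_dd (n : ℕ) : ∃ C : ℝ, 1 ≤ C ∧ ∀ v w : EE n → ℝ, Sol v → Sol w →
    (∀ x, dd w x ≤ dd v x) →
    ∀ x y, dd v y - dd w y ≤ Real.exp (C * ‖y - x‖) * (dd v x - dd w x) := by
  obtain ⟨C, hC1, hC⟩ := harnack_glob n (B := 3) (by norm_num)
  refine ⟨C, hC1, fun v w hv hw h => (hC (fun y => dd v y - dd w y)
    ((hv.dd_cd 2).sub (hw.dd_cd 2)) (fun z => sub_nonneg.2 (h z)) fun z => ?_).2⟩
  have := lap_dd_sub_le hv hw z
  rwa [abs_of_nonneg (sub_nonneg.2 (h z))] at this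

/-- SLIDING: if `d` stays at bounded distance from `⟪e, ·⟫` it increases in every direction of the
half-space `⟪e, ·⟫ > 0` -/
theorem slide (hv : Sol v) {e : EE n} {K : ℝ} (hK : ∀ x, |dd v x - ⟪e, x⟫| ≤ K) {ν : EE n}
    (hν : 0 < ⟪e, ν⟫) (x : EE n) : dd v x ≤ dd v (x + ν) := by
  obtain ⟨C, hC1, hC⟩ := harnack_dd n
  have hK0 : 0 ≤ K := (abs_nonneg _).trans (hK 0)
  have hν0 : 0 < ‖ν‖ := norm_pos_iff.2 fun h => by simp [h] at hν
  have hgr : ∀ (σ : ℝ) (x : EE n), σ * ⟪e, ν⟫ - 2 * K ≤ dd v (x + σ • ν) - dd v x := by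
    intro σ x
    have h1 := abs_le.1 (hK x)
    have h2 := abs_le.1 (hK (x + σ • ν))
    rw [inner_add_right, inner_smul_right] at h2
    linarith
  have hlip : ∀ (σ τ : ℝ) (x : EE n), dd v (x + τ • ν) - |σ - τ| * ‖ν‖ ≤ dd v (x + σ • ν) := by
    intro σ τ x
    have h1 := hv.abs_dd_sub_le (x + σ • ν) (x + τ • ν)
    rw [add_sub_add_left_eq_sub, ← sub_smul, norm_smul, Real.norm_eq_abs] at h1
    linarith [neg_abs_le (dd v (x + σ • ν) - dd v (x + τ • ν))]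
  let A : Set ℝ := {τ | 0 ≤ τ ∧ ∀ σ, τ ≤ σ → ∀ x, dd v x ≤ dd v (x + σ • ν)}
  have hne : A.Nonempty := ⟨2 * K / ⟪e, ν⟫, by positivity, fun σ hσ x => by
    have := hgr σ x
    rw [div_le_iff₀ hν] at hσ
    linarith⟩
  have hbd : BddBelow A := ⟨0, fun τ hτ => hτ.1⟩
  have hτ0 : 0 ≤ sInf A := le_csInf hne fun τ hτ => hτ.1
  have hgt : ∀ σ, sInf A < σ → ∀ x, dd v x ≤ dd v (x + σ • ν) := fun σ hσ => by
    obtain ⟨τ, hτ, h⟩ := exists_lt_of_csInf_lt hne hσ
    exact hτ.2 σ h.le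
  rcases hτ0.eq_or_lt with h0 | h0
  · simpa using hgt 1 (by rw [← h0]; exact one_pos) x
  exfalso
  set τ := sInf A with hτ
  have hP : ∀ x, dd v x ≤ dd v (x + τ • ν) := fun x => by
    refine le_of_forall_pos_le_add fun ε hε => ?_
    have h1 := hgt (τ + ε / ‖ν‖) (by have := div_pos hε hν0; linarith) x
    have h2 := hlip τ (τ + ε / ‖ν‖) x
    rw [sub_add_cancel_left, abs_neg, abs_of_pos (div_pos hε hν0), div_mul_cancel₀ _ hν0.ne'] at h2
    linarith
  have hH := hC (fun y => v (τ • ν + y)) v (hv.shift _) hv fun y => by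
    have := hP y
    rwa [add_comm] at this
  obtain ⟨N, hN⟩ := exists_nat_gt ((2 * K + 1) / (τ * ⟪e, ν⟫))
  have hN0 : (0 : ℝ) < N := lt_trans (by positivity) hN
  set E := Real.exp (C * (N * τ * ‖ν‖)) with hE
  have hE0 : 0 < E := Real.exp_pos _
  have hc : ∀ x, 1 / (N * E) ≤ dd v (x + τ • ν) - dd v x := fun x => by
    have hk : ∀ k : ℕ, k ≤ N → dd v (x + (k * τ) • ν) - dd v x ≤
        k * (E * (dd v (x + τ • ν) - dd v x)) := by
      intro k
      induction k with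
      | zero => simp
      | succ k ih =>
        intro hk
        have h1 := ih (by omega)
        have h2 : dd v (τ • ν + (x + (k * τ) • ν)) - dd v (x + (k * τ) • ν) ≤
            Real.exp (C * ‖x + (k * τ) • ν - x‖) * (dd v (τ • ν + x) - dd v x) :=
          hH x (x + (k * τ) • ν)
        have e1 : τ • ν + (x + (k * τ) • ν) = x + (((k + 1 : ℕ) : ℝ) * τ) • ν := by
          push_cast; rw [add_mul, one_mul, add_smul]; abel
        have h3 : Real.exp (C * ‖x + (k * τ) • ν - x‖) ≤ E := by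
          rw [add_sub_cancel_left, norm_smul, Real.norm_eq_abs, abs_of_nonneg (by positivity)]
          have hk' : (k : ℝ) ≤ N := by exact_mod_cast (by omega : k ≤ N)
          exact Real.exp_le_exp.2 (by gcongr)
        rw [e1, add_comm (τ • ν) x] at h2
        have h4 := mul_le_mul_of_nonneg_right h3 (sub_nonneg.2 (hP x))
        push_cast at h2 ⊢
        linarith
    have h1 := hk N le_rfl
    have h2 := hgr (N * τ) x
    rw [div_lt_iff₀ (by positivity)] at hN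
    rw [div_le_iff₀ (by positivity)]
    linarith
  set c := min (1 / (N * E) / ‖ν‖) τ with hcd
  have hc0 : 0 < c := lt_min (by positivity) h0
  have hmem : τ - c ∈ A := ⟨by linarith [min_le_right (1 / (N * E) / ‖ν‖) τ], fun σ hσ x => by
    rcases le_or_gt σ τ with h | h
    · have h1 := hlip σ τ x
      have h2 := hc x
      have h3 : |σ - τ| * ‖ν‖ ≤ 1 / (N * E) := by
        rw [← le_div_iff₀ hν0, abs_of_nonpos (by linarith)]
        linarith [min_le_left (1 / (N * E) / ‖ν‖) τ]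
      linarith
    · exact hgt σ h x⟩
  linarith [csInf_le hbd hmem]

/-- GIBBONS in `d`-variables -/
theorem gibbons_dd (hv : Sol v) {e : EE n} (he : ‖e‖ = 1) {K : ℝ}
    (hK : ∀ x, |dd v x - ⟪e, x⟫| ≤ K) : PlanarIn v e := by
  have hee : ⟪e, e⟫ = (1 : ℝ) := by rw [real_inner_self_eq_norm_sq, he]; norm_num
  have hlat : ∀ η : EE n, ⟪e, η⟫ = 0 → ∀ x, dd v x ≤ dd v (x + η) := fun η hη x => by
    refine le_of_forall_pos_le_add fun ε hε => ?_
    have h1 := slide hv hK (ν := η + ε • e)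
      (by rw [inner_add_right, inner_smul_right, hη, hee]; linarith) x
    have h2 := hv.abs_dd_sub_le (x + (η + ε • e)) (x + η)
    rw [add_sub_add_left_eq_sub, add_sub_cancel_left, norm_smul, he, mul_one, Real.norm_eq_abs,
      abs_of_pos hε] at h2
    linarith [le_abs_self (dd v (x + (η + ε • e)) - dd v (x + η))]
  let g : ℝ → ℝ := fun s => dd v (s • e)
  have hd : dd v = fun x => g ⟪e, x⟫ := by
    funext x
    have hη : ⟪e, x - ⟪e, x⟫ • e⟫ = (0 : ℝ) := by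
      rw [inner_sub_right, inner_smul_right, hee]; ring
    have h1 := hlat _ hη (⟪e, x⟫ • e)
    have h2 := hlat (-(x - ⟪e, x⟫ • e)) (by rw [inner_neg_right, hη, neg_zero]) x
    rw [add_sub_cancel] at h1
    rw [show x + -(x - ⟪e, x⟫ • e) = ⟪e, x⟫ • e by abel] at h2
    exact le_antisymm h2 h1
  have hg : ContDiff ℝ 2 g := (hv.dd_cd 2).comp (contDiff_id.smul contDiff_const)
  have hg1 : Differentiable ℝ g := hg.differentiable (by norm_num)
  have hg2 : Differentiable ℝ (deriv g) := hg.differentiable_deriv_two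
  have hin : ContDiff ℝ 2 fun x : EE n => ⟪e, x⟫ := (innerSL ℝ e).contDiff
  have hgs : ∀ x, gsq (fun x : EE n => ⟪e, x⟫) x = 1 := fun x => by
    simp only [gsq, pdv_inner]
    have := EuclideanSpace.real_norm_sq_eq e
    rw [he] at this
    linarith
  have hse : ∀ s : ℝ, ⟪e, s • e⟫ = s := fun s => by rw [inner_smul_right, hee, mul_one]
  have ht : ∀ s : ℝ, tt v (s • e) = 1 - deriv g s ^ 2 := fun s => by
    rw [tt_eq, hd, gsq_comp (f := fun x : EE n => ⟪e, x⟫) (hg1 _).hasDerivAt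
      (hin.differentiable (by norm_num) _), hgs, hse, mul_one]
  have hl : ∀ s : ℝ, deriv (deriv g) s = -Real.sqrt 2 * v (s • e) * tt v (s • e) := fun s => by
    rw [← hv.lap_dd, hd, lap_comp (f := fun x : EE n => ⟪e, x⟫) (φ := g) (φ1 := deriv g)
      hin.contDiffAt hg.contDiffAt (Eventually.of_forall fun s => (hg1 s).hasDerivAt)
      (hg2 _).hasDerivAt, lap_inner, hgs, hse]
    ring
  have hgK : ∀ s, |g s - s| ≤ K := fun s => by
    have := hK (s • e)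
    rwa [hse] at this
  obtain ⟨x0, hx0⟩ : ∃ x0, tt v x0 = 0 := by
    by_contra hne
    push Not at hne
    have h1 : deriv g K < 1 := by
      have := lt_of_le_of_ne (hv.tt_nonneg (K • e)) (hne _).symm
      rw [ht] at this
      nlinarith
    have h2 : AntitoneOn (deriv g) (Ici K) := by
      refine antitoneOn_of_deriv_nonpos (convex_Ici K) hg2.continuous.continuousOn
        hg2.differentiableOn fun s hs => ?_
      rw [interior_Ici] at hs
      have h3 : 0 ≤ v (s • e) := by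
        by_contra h4
        have h5 : g s < 0 := hv.dd_lt_zero (lt_of_not_ge h4)
        linarith [(abs_le.1 (hgK s)).1, mem_Ioi.1 hs]
      rw [hl]
      have := mul_nonneg (mul_nonneg sqrt2_pos.le h3) (hv.tt_nonneg (s • e))
      linarith
    have hK0 : 0 ≤ K := (abs_nonneg _).trans (hK 0)
    set T := (2 * K + 1) / (1 - deriv g K) with hT
    have hT0 : 0 < T := div_pos (by linarith) (by linarith)
    have h3 := (convex_Ici K).image_sub_le_mul_sub_of_deriv_le hg1.continuous.continuousOn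
      hg1.differentiableOn (C := deriv g K)
      (fun s hs => h2 self_mem_Ici (interior_subset hs) (interior_subset hs)) K self_mem_Ici
      (K + T) (by simp [hT0.le]) (by linarith)
    have h4 : T * (1 - deriv g K) = 2 * K + 1 := div_mul_cancel₀ _ (by linarith)
    linarith [(abs_le.1 (hgK K)).2, (abs_le.1 (hgK (K + T))).1]
  obtain ⟨ha, b, hb⟩ := hv.planarIn hx0
  set a := ∇ (dd v) 0
  have hda : ∀ x, dd v x = ⟪a, x⟫ - b := fun x => by
    rw [dd, hb x, Real.artanh_tanh]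
    have := sqrt2_pos
    field_simp
  have hae : a = e := by
    by_contra hne
    have h1 : 0 < ‖a - e‖ ^ 2 := pow_pos (norm_pos_iff.2 (sub_ne_zero.2 hne)) 2
    have h2 := (abs_le.1 (hK (((K + |b| + 1) / ‖a - e‖ ^ 2) • (a - e)))).2
    rw [hda, sub_right_comm, ← inner_sub_left, inner_smul_right, real_inner_self_eq_norm_sq,
      div_mul_cancel₀ _ h1.ne'] at h2
    linarith [le_abs_self b]
  exact ⟨he, b, hae ▸ hb⟩

/-- a solution whose zero set lies in a slab stays at bounded distance from the linear function -/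
theorem slab_dd (n : ℕ) : ∃ C : ℝ, 1 ≤ C ∧ ∀ v : EE n → ℝ, Sol v → ∀ (e : EE n) (K : ℝ), ‖e‖ = 1 →
    0 ≤ K → (∀ x, K < ⟪e, x⟫ → 0 < v x) → (∀ x, ⟪e, x⟫ < -K → v x < 0) →
    ∀ x, |dd v x - ⟪e, x⟫| ≤ 3 * K + C := by
  obtain ⟨C, hC1, hC⟩ := half_dd n
  have key : ∀ v : EE n → ℝ, Sol v → ∀ (e : EE n) (K : ℝ), ‖e‖ = 1 → 0 ≤ K →
      (∀ x, K < ⟪e, x⟫ → 0 < v x) → ∀ x, ⟪e, x⟫ ≤ K → ⟪e, x⟫ - K - 1 ≤ dd v x := by
    intro v hv e K he hK hp x hx
    have h1 := hv.dd_pos (hp (x + (K + 1 - ⟪e, x⟫) • e) (by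
      rw [inner_add_right, inner_smul_right, real_inner_self_eq_norm_sq, he]; linarith))
    have h2 := hv.abs_dd_sub_le (x + (K + 1 - ⟪e, x⟫) • e) x
    rw [add_sub_cancel_left, norm_smul, he, mul_one, Real.norm_eq_abs,
      abs_of_pos (show 0 < K + 1 - ⟪e, x⟫ by linarith)] at h2
    linarith [le_abs_self (dd v (x + (K + 1 - ⟪e, x⟫) • e) - dd v x)]
  have low : ∀ v : EE n → ℝ, Sol v → ∀ (e : EE n) (K : ℝ), ‖e‖ = 1 → 0 ≤ K →
      (∀ x, K < ⟪e, x⟫ → 0 < v x) → ∀ x, ⟪e, x⟫ - K - C ≤ dd v x := by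
    intro v hv e K he hK hp x
    rcases hC v hv e K he hp x with h | h
    · exact h
    · linarith [key v hv e K he hK hp x h]
  refine ⟨C, hC1, fun v hv e K he hK hp hm x => abs_le.2 ⟨?_, ?_⟩⟩
  · linarith [low v hv e K he hK hp x]
  · have h := low _ hv.neg' (-e) K (by rwa [norm_neg]) hK (fun x hx => by
      rw [inner_neg_left] at hx
      linarith [hm x (by linarith)]) x
    rw [hv.dd_neg', inner_neg_left] at h
    linarith

/-- GIBBONS: a solution whose zero set lies in a slab is the planar profile -/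
theorem gibbons (hv : Sol v) {e : EE n} (he : ‖e‖ = 1) {K : ℝ}
    (hp : ∀ x, K < ⟪e, x⟫ → 0 < v x) (hm : ∀ x, ⟪e, x⟫ < -K → v x < 0) : PlanarIn v e := by
  obtain ⟨C, -, hC⟩ := slab_dd n
  exact gibbons_dd hv he (hC v hv e |K| he (abs_nonneg K)
    (fun x hx => hp x ((le_abs_self K).trans_lt hx))
    fun x hx => hm x (by linarith [le_abs_self K]))

end Crest.Agent.N067
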