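import Crest.Agent.N067.A.Ker2

/-!
Row 67, basics (helper2): the resolvent kernel `Gk μ = (μ - Δ)⁻¹ = ∫₀^∞ e^{-μ s} hk s ds` and the
representation `w x = ∫ Gk μ z (μ w - Δ w)(x + z) dz` for `C²` functions of growth `e^{a|x|}`, `a² < μ`.
-/

set_option autoImplicit false

open MeasureTheory Laplacian InnerProductSpace Topology Filter Set
open scoped RealInnerProductSpace ContDiff

namespace Crest.Agent.N067.Ker

open Crest.Agent.R077

noncomputable section

variable {n : ℕ}

/-- the kernel of `(μ - Δ)⁻¹` on `ℝⁿ` -/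
def Gk (μ : ℝ) (z : EE n) : ℝ := ∫ s in Ioi (0 : ℝ), Real.exp (-μ * s) * hk s z

theorem Gk_nonneg (μ : ℝ) (z : EE n) : 0 ≤ Gk μ z :=
  setIntegral_nonneg measurableSet_Ioi fun _ hs =>
    mul_nonneg (Real.exp_pos _).le (hk_pos hs z).le

theorem Gk_congr_norm (μ : ℝ) {y z : EE n} (h : ‖y‖ = ‖z‖) : Gk μ y = Gk μ z := by
  simp [Gk, hk, h]

theorem Gk_neg (μ : ℝ) (z : EE n) : Gk μ (-z) = Gk μ z := Gk_congr_norm μ (norm_neg z)

theorem Gk_sub_comm (μ : ℝ) (x y : EE n) : Gk μ (x - y) = Gk μ (y - x) :=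
  Gk_congr_norm μ (norm_sub_rev x y)

theorem measurable_ehk (μ : ℝ) :
    Measurable fun p : ℝ × EE n => Real.exp (-μ * p.1) * hk p.1 p.2 :=
  (by fun_prop : Measurable fun p : ℝ × EE n => Real.exp (-μ * p.1)).mul measurable_hk

theorem measurable_Gk (μ : ℝ) : Measurable (Gk μ : EE n → ℝ) :=
  ((measurable_ehk μ).stronglyMeasurable.integral_prod_left'
    (μ := volume.restrict (Ioi (0 : ℝ)))).measurable

theorem exists_theta {μ a : ℝ} (hμ : 0 < μ) (h : a ^ 2 < μ) :
    ∃ θ : ℝ, 0 < θ ∧ θ < 1 ∧ a ^ 2 / θ < μ := by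
  have h0 := sq_nonneg a
  refine ⟨(a ^ 2 + μ) / (2 * μ), by positivity, ?_, ?_⟩
  · rw [div_lt_one (by positivity)]
    linarith
  · rw [div_lt_iff₀ (by positivity),
      show μ * ((a ^ 2 + μ) / (2 * μ)) = (a ^ 2 + μ) / 2 by field_simp]
    linarith

theorem exp_integral_abs_le {μ s θ a M : ℝ} (hs : 0 < s) (hθ0 : 0 < θ) (hθ : θ < 1)
    {f : EE n → ℝ} (h : Gr a M f) :
    Real.exp (-μ * s) * ∫ z, |hk s z * f z| ≤
      M * (1 - θ) ^ (-(n / 2 : ℝ)) * Real.exp (-(μ - a ^ 2 / θ) * s) := by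
  refine (mul_le_mul_of_nonneg_left (integral_abs_hk_mul_le hs hθ0 hθ h)
    (Real.exp_pos _).le).trans (le_of_eq ?_)
  rw [show -(μ - a ^ 2 / θ) * s = -μ * s + a ^ 2 * s / θ by ring, Real.exp_add]
  ring

theorem integrable_prod_hk {μ a M : ℝ} (hμ : 0 < μ) (ha : a ^ 2 < μ) {f : EE n → ℝ}
    (hf : AEStronglyMeasurable f volume) (h : Gr a M f) :
    Integrable (fun p : ℝ × EE n => Real.exp (-μ * p.1) * hk p.1 p.2 * f p.2)
      ((volume.restrict (Ioi (0 : ℝ))).prod volume) := by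
  obtain ⟨θ, hθ0, hθ, hκ⟩ := exists_theta hμ ha
  have hm : AEStronglyMeasurable (fun p : ℝ × EE n => Real.exp (-μ * p.1) * hk p.1 p.2 * f p.2)
      ((volume.restrict (Ioi (0 : ℝ))).prod volume) :=
    (measurable_ehk μ).aestronglyMeasurable.mul hf.comp_snd
  rw [integrable_prod_iff hm]
  constructor
  · filter_upwards [ae_restrict_mem measurableSet_Ioi] with s hs
    simp_rw [mul_assoc]
    exact (integrable_hk_mul hs hf h).const_mul _
  · refine Integrable.mono' ((exp_neg_integrableOn_Ioi 0 (sub_pos.2 hκ)).const_mul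
      (M * (1 - θ) ^ (-(n / 2 : ℝ)))) hm.norm.integral_prod_right' ?_
    filter_upwards [ae_restrict_mem measurableSet_Ioi] with s hs
    rw [Real.norm_eq_abs, abs_of_nonneg (integral_nonneg fun _ => norm_nonneg _)]
    refine le_trans (le_of_eq ?_) (exp_integral_abs_le (μ := μ) hs hθ0 hθ h)
    rw [← integral_const_mul]
    congr 1
    funext z
    rw [mul_assoc, norm_mul, Real.norm_eq_abs, Real.norm_eq_abs, abs_of_pos (Real.exp_pos _)]

theorem Gk_mul_eq (μ : ℝ) (f : EE n → ℝ) (z : EE n) :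
    Gk μ z * f z = ∫ s in Ioi (0 : ℝ), Real.exp (-μ * s) * hk s z * f z := by
  rw [integral_mul_const, Gk]

theorem integrable_Gk_mul {μ a M : ℝ} (hμ : 0 < μ) (ha : a ^ 2 < μ) {f : EE n → ℝ}
    (hf : AEStronglyMeasurable f volume) (h : Gr a M f) : Integrable fun z => Gk μ z * f z := by
  simp_rw [Gk_mul_eq]
  exact (integrable_prod_hk hμ ha hf h).integral_prod_right

theorem integral_Gk_mul {μ a M : ℝ} (hμ : 0 < μ) (ha : a ^ 2 < μ) {f : EE n → ℝ}
    (hf : AEStronglyMeasurable f volume) (h : Gr a M f) :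
    ∫ z, Gk μ z * f z = ∫ s in Ioi (0 : ℝ), Real.exp (-μ * s) * ∫ z, hk s z * f z := by
  simp_rw [Gk_mul_eq]
  rw [← integral_integral_swap (f := fun s z => Real.exp (-μ * s) * hk s z * f z)
    (integrable_prod_hk hμ ha hf h)]
  simp_rw [mul_assoc, integral_const_mul]

theorem gr_one : Gr 0 1 fun _ : EE n => (1 : ℝ) := gr_of_bdd fun _ => by simp

theorem integrable_Gk {μ : ℝ} (hμ : 0 < μ) : Integrable (Gk μ : EE n → ℝ) := by
  simpa using integrable_Gk_mul (n := n) hμ (a := 0) (by simpa using hμ)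
    aestronglyMeasurable_const gr_one

/-- exponential moments of the kernel -/
theorem integrable_Gk_exp {μ a : ℝ} (hμ : 0 < μ) (ha : a ^ 2 < μ) :
    Integrable fun z : EE n => Gk μ z * Real.exp (a * ‖z‖) :=
  integrable_Gk_mul hμ ha (M := 1) (by fun_prop) fun z => by
    rw [abs_of_pos (Real.exp_pos _), one_mul]

theorem Gk_pos_ae {μ : ℝ} (hμ : 0 < μ) : ∀ᵐ z : EE n, 0 < Gk μ z := by
  have h := (integrable_prod_hk (n := n) hμ (a := 0) (by simpa using hμ)
    aestronglyMeasurable_const gr_one).prod_left_ae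
  filter_upwards [h] with z hz
  simp only [mul_one] at hz
  unfold Gk
  rw [setIntegral_pos_iff_support_of_nonneg_ae ?_ hz]
  · have : Function.support (fun s : ℝ => Real.exp (-μ * s) * hk s z) ∩ Ioi 0 = Ioi 0 := by
      refine inter_eq_right.2 fun s hs => ?_
      exact (mul_pos (Real.exp_pos _) (hk_pos hs z)).ne'
    rw [this]
    simp
  · filter_upwards [ae_restrict_mem measurableSet_Ioi] with s hs
    exact mul_nonneg (Real.exp_pos _).le (hk_pos hs z).le

/-- representation formula at the origin -/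
theorem rep_zero {μ a M : ℝ} (hμ : 0 < μ) (ha0 : 0 ≤ a) (ha : a ^ 2 < μ) {w : EE n → ℝ}
    (hw : ContDiff ℝ 2 w) (h0 : Gr a M w) (h2 : Gr a M (Δ w)) :
    w 0 = ∫ z, Gk μ z * (μ * w z - (Δ w) z) := by
  obtain ⟨θ, hθ0, hθ, hκ⟩ := exists_theta hμ ha
  have cw := hw.continuous
  have cl := continuous_lap hw
  have cg : Continuous fun z => μ * w z - (Δ w) z := by fun_prop
  have gg : Gr a (|μ| * M + |(-1 : ℝ)| * M) fun z => μ * w z - (Δ w) z := by
    have := (h0.const_mul μ).add (h2.const_mul (-1))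
    intro z
    have e : μ * w z - (Δ w) z = μ * w z + -1 * (Δ w) z := by ring
    simp only [e]
    exact this z
  rw [integral_Gk_mul hμ ha cg.aestronglyMeasurable gg]
  set F : ℝ → ℝ := fun s => -(Real.exp (-μ * s) * ∫ y, hk 1 y * w (√s • y)) with hF
  have hFe : ∀ s, 0 < s → F s = -(Real.exp (-μ * s) * ∫ z, hk s z * w z) := fun s hs => by
    rw [integral_hk_scale hs]
  have key := integral_Ioi_of_hasDerivAt_of_tendsto (f := F) (a := 0) (m := 0)
    (f' := fun s => Real.exp (-μ * s) * ∫ z, hk s z * (μ * w z - (Δ w) z)) ?_ ?_ ?_ ?_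
  · rw [key]
    simp only [hF, Real.sqrt_zero, zero_smul, mul_zero, Real.exp_zero, one_mul, sub_neg_eq_add,
      zero_add]
    rw [integral_mul_const, integral_hk one_pos, one_mul]
  · exact (((by fun_prop : Continuous fun s : ℝ => Real.exp (-μ * s)).continuousWithinAt).mul
      (continuousWithinAt_heat ha0 cw h0)).neg
  · intro s hs
    have hs0 : 0 < s := hs
    have he : HasDerivAt (fun t : ℝ => Real.exp (-μ * t)) (Real.exp (-μ * s) * -μ) s := by
      simpa using ((hasDerivAt_id s).const_mul (-μ)).exp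
    have h1 := (he.mul (hasDerivAt_heat hs0 cw h0)).neg
    have h3 : F =ᶠ[𝓝 s] -((fun t : ℝ => Real.exp (-μ * t)) * fun t => ∫ z, hk t z * w z) := by
      filter_upwards [Ioi_mem_nhds hs0] with t ht
      rw [hFe t ht]
      rfl
    refine (h1.congr_of_eventuallyEq h3).congr_deriv ?_
    rw [← heat_green hs0 hw h0 h2]
    have e : ∫ z, hk s z * (μ * w z - (Δ w) z)
        = μ * (∫ z, hk s z * w z) - ∫ z, hk s z * (Δ w) z := by
      rw [← integral_const_mul, ← integral_sub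
        ((integrable_hk_mul hs0 cw.aestronglyMeasurable h0).const_mul μ)
        (integrable_hk_mul hs0 cl.aestronglyMeasurable h2)]
      congr 1
      funext z
      ring
    rw [e]
    ring
  · have := (integrable_prod_hk hμ ha cg.aestronglyMeasurable gg).integral_prod_left
    simp_rw [mul_assoc, integral_const_mul] at this
    exact this
  · have hl : Tendsto (fun s : ℝ => M * (1 - θ) ^ (-(n / 2 : ℝ)) *
        Real.exp (-(μ - a ^ 2 / θ) * s)) atTop (𝓝 0) := by
      have h1 : Tendsto (fun s : ℝ => -(μ - a ^ 2 / θ) * s) atTop atBot :=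
        tendsto_id.const_mul_atTop_of_neg (by linarith)
      simpa using (Real.tendsto_exp_atBot.comp h1).const_mul (M * (1 - θ) ^ (-(n / 2 : ℝ)))
    refine squeeze_zero_norm' ?_ hl
    filter_upwards [Ioi_mem_atTop 0] with s hs
    rw [hFe s hs, norm_neg, norm_mul, Real.norm_eq_abs, abs_of_pos (Real.exp_pos _)]
    refine le_trans (mul_le_mul_of_nonneg_left ?_ (Real.exp_pos _).le)
      (exp_integral_abs_le (μ := μ) hs hθ0 hθ h0)
    exact norm_integral_le_integral_norm _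

theorem lap_shift (w : EE n → ℝ) (x z : EE n) : (Δ fun y => w (x + y)) z = (Δ w) (x + z) := by
  rw [laplacian_eq_iteratedFDeriv_orthonormalBasis _ (EuclideanSpace.basisFun (Fin n) ℝ),
    laplacian_eq_iteratedFDeriv_orthonormalBasis _ (EuclideanSpace.basisFun (Fin n) ℝ)]
  simp only [iteratedFDeriv_comp_add_left]

/-- REPRESENTATION: `w = (μ - Δ)⁻¹ (μ w - Δ w)` for `C²` functions of growth `e^{a|x|}`, `a² < μ`. -/
theorem rep {μ a M : ℝ} (hμ : 0 < μ) (ha0 : 0 ≤ a) (ha : a ^ 2 < μ) {w : EE n → ℝ}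
    (hw : ContDiff ℝ 2 w) (h0 : Gr a M w) (h2 : Gr a M (Δ w)) (x : EE n) :
    w x = ∫ z, Gk μ z * (μ * w (x + z) - (Δ w) (x + z)) := by
  have e : (Δ fun y => w (x + y)) = fun z => (Δ w) (x + z) := funext (lap_shift w x)
  have h := rep_zero hμ ha0 ha (w := fun y => w (x + y))
    (hw.comp (contDiff_const.add contDiff_id)) (h0.shift ha0 x) (by rw [e]; exact h2.shift ha0 x)
  simpa [e] using h

/-- the two forms of the convolution -/
theorem integral_shift (g f : EE n → ℝ) (x : EE n) :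
    ∫ z, g z * f (x + z) = ∫ y, g (y - x) * f y := by
  rw [← integral_add_left_eq_self (fun y => g (y - x) * f y) x]
  simp

theorem rep' {μ a M : ℝ} (hμ : 0 < μ) (ha0 : 0 ≤ a) (ha : a ^ 2 < μ) {w : EE n → ℝ}
    (hw : ContDiff ℝ 2 w) (h0 : Gr a M w) (h2 : Gr a M (Δ w)) (x : EE n) :
    w x = ∫ y, Gk μ (x - y) * (μ * w y - (Δ w) y) := by
  rw [rep hμ ha0 ha hw h0 h2 x]
  refine (integral_shift (Gk μ) (fun y => μ * w y - (Δ w) y) x).trans ?_
  simp_rw [Gk_sub_comm μ x]

theorem integral_Gk {μ : ℝ} (hμ : 0 < μ) : ∫ z : EE n, Gk μ z = μ⁻¹ := by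
  have h := rep_zero (n := n) hμ le_rfl (by simpa using hμ) (w := fun _ => 1) contDiff_const gr_one
    (gr_of_bdd fun z => by simp)
  simp only [laplacian_const, mul_one, Pi.zero_apply, sub_zero, integral_mul_const] at h
  field_simp
  linarith

end

end Crest.Agent.N067.Ker
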