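import Crest.Agent.N067.A.Calc
import Crest.Agent.N067.A.Ker3

/-!
# Row 67 basics (helper47): interior gradient estimates

`brandt`: `|u| ≤ M`, `|Δu| ≤ F` on a ball of radius `r` give `‖Du(x)‖ ≤ n M / r + F r / 2`
(reflection and an explicit barrier).  `grad_drift`: the same with `|Δu| ≤ β ‖Du‖ + G`.
-/

set_option autoImplicit false

open MeasureTheory Laplacian InnerProductSpace Topology Filter Set Metric
open scoped RealInnerProductSpace ContDiff Gradient

namespace Crest.Agent.N067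

open Crest.Agent.R077

noncomputable section

variable {n : ℕ}

/-- the Laplacian commutes with linear isometries -/
theorem lap_comp_iso {u : EE n → ℝ} (hu : ContDiff ℝ 2 u) (R : EE n ≃ₗᵢ[ℝ] EE n) (z : EE n) :
    (Δ fun y => u (R y)) z = (Δ u) (R z) := by
  rw [laplacian_eq_iteratedFDeriv_orthonormalBasis _ (EuclideanSpace.basisFun (Fin n) ℝ),
    laplacian_eq_iteratedFDeriv_orthonormalBasis _ ((EuclideanSpace.basisFun (Fin n) ℝ).map R)]
  refine Finset.sum_congr rfl fun i _ => ?_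
  have h := (R.toContinuousLinearEquiv : EE n →L[ℝ] EE n).iteratedFDeriv_comp_right hu z
    (i := 2) le_rfl
  have e : (fun y => u (R y)) = u ∘ (R.toContinuousLinearEquiv : EE n →L[ℝ] EE n) := rfl
  rw [e, h]
  simp only [ContinuousMultilinearMap.compContinuousLinearMap_apply]
  congr 1
  funext j
  fin_cases j <;> simp

/-- weak maximum principle on a half ball -/
theorem half_ball {h : EE n → ℝ} (hh : ContDiff ℝ 2 h) {e : EE n} (he : ‖e‖ = 1) {r : ℝ}
    (hL : ∀ z, ‖z‖ < r → 0 < ⟪e, z⟫ → (Δ h) z ≤ 0)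
    (hb : ∀ z, ‖z‖ ≤ r → 0 ≤ ⟪e, z⟫ → ‖z‖ = r ∨ ⟪e, z⟫ = 0 → 0 ≤ h z)
    {z : EE n} (hz : ‖z‖ ≤ r) (hz' : 0 ≤ ⟪e, z⟫) : 0 ≤ h z := by
  have hn : (0 : ℝ) < n := by
    rcases Nat.eq_zero_or_pos n with rfl | hn
    · rw [Subsingleton.elim e 0] at he; simp at he
    · exact_mod_cast hn
  have hr : 0 ≤ r := (norm_nonneg _).trans hz
  have cin : Continuous fun y : EE n => ⟪e, y⟫ := by fun_prop
  set K : Set (EE n) := closedBall 0 r ∩ {y | 0 ≤ ⟪e, y⟫} with hK
  have hKc : IsCompact K := (isCompact_closedBall 0 r).inter_right (isClosed_le continuous_const cin)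
  have hzK : z ∈ K := ⟨by simpa using hz, hz'⟩
  have key : ∀ ε : ℝ, 0 < ε → 0 ≤ h z + ε * r ^ 2 := by
    intro ε hε
    have hq : ContDiff ℝ 2 fun y : EE n => ‖y - 0‖ ^ 2 :=
      (contDiff_id.sub contDiff_const).norm_sq ℝ
    have hq' : ContDiff ℝ 2 fun y : EE n => ε * (r ^ 2 - ‖y - 0‖ ^ 2) :=
      contDiff_const.mul (contDiff_const.sub hq)
    have hg : ContDiff ℝ 2 fun y => h y + ε * (r ^ 2 - ‖y - 0‖ ^ 2) := hh.add hq'
    obtain ⟨y, hyK, hy⟩ := hKc.exists_isMinOn ⟨z, hzK⟩ hg.continuous.continuousOn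
    have hy1 : ‖y‖ ≤ r := by simpa using hyK.1
    have hy2 : 0 ≤ ⟪e, y⟫ := hyK.2
    have h0 : 0 ≤ h y + ε * (r ^ 2 - ‖y - 0‖ ^ 2) := by
      by_cases hbd : ‖y‖ = r ∨ ⟪e, y⟫ = 0
      · have h1 := hb y hy1 hy2 hbd
        have h2 : ‖y‖ ^ 2 ≤ r ^ 2 := pow_le_pow_left₀ (norm_nonneg _) hy1 2
        rw [sub_zero]
        nlinarith
      · push Not at hbd
        have h1 : ‖y‖ < r := lt_of_le_of_ne hy1 hbd.1
        have h2 : 0 < ⟪e, y⟫ := lt_of_le_of_ne hy2 (Ne.symm hbd.2)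
        have hnh : K ∈ 𝓝 y := inter_mem (closedBall_mem_nhds_of_mem (by simpa using h1))
          (mem_of_superset ((isOpen_lt continuous_const cin).mem_nhds h2) fun w (hw : 0 < ⟪e, w⟫) =>
            show 0 ≤ ⟪e, w⟫ from hw.le)
        have h3 := lap_of_min hg.contDiffAt (hy.isLocalMin hnh)
        rw [lap_add' hh.contDiffAt hq'.contDiffAt, lap_const_mul (contDiff_const.sub hq).contDiffAt,
          lap_const_sub hq.contDiffAt, lap_normSq] at h3
        have h4 := hL y h1 h2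
        nlinarith
    have h5 : h y + ε * (r ^ 2 - ‖y - 0‖ ^ 2) ≤ h z + ε * (r ^ 2 - ‖z - 0‖ ^ 2) := hy hzK
    nlinarith [sq_nonneg ‖z - 0‖]
  by_contra hneg
  push Not at hneg
  have h1 := key (-h z / (r ^ 2 + 1)) (div_pos (by linarith) (by positivity))
  have h2 : -h z / (r ^ 2 + 1) * r ^ 2 < -h z := by
    rw [div_mul_eq_mul_div, div_lt_iff₀ (by positivity)]
    nlinarith
  linarith

theorem brandt_dir {u : EE n → ℝ} (hu : ContDiff ℝ 2 u) {r M F : ℝ} (hr : 0 < r)
    (hM : ∀ y, ‖y‖ ≤ r → |u y| ≤ M) (hF : ∀ y, ‖y‖ ≤ r → |(Δ u) y| ≤ F) {e : EE n}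
    (he : ‖e‖ = 1) : fderiv ℝ u 0 e ≤ n * M / r + F * r / 2 := by
  set R : EE n ≃ₗᵢ[ℝ] EE n := (ℝ ∙ e)ᗮ.reflection with hR
  have hRe : R e = -e := Submodule.reflection_orthogonalComplement_singleton_eq_neg e
  have hR0 : ∀ z, ⟪e, z⟫ = 0 → R z = z := fun z hz =>
    Submodule.reflection_mem_subspace_eq_self
      (Submodule.mem_orthogonal_singleton_iff_inner_right.2 hz)
  have hM0 : 0 ≤ M := (abs_nonneg _).trans (hM 0 (by simpa using hr.le))
  have hF0 : 0 ≤ F := (abs_nonneg _).trans (hF 0 (by simpa using hr.le))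
  have hl : ContDiff ℝ 2 fun y : EE n => ⟪e, y⟫ := (innerSL ℝ e).contDiff
  have hq : ContDiff ℝ 2 fun y : EE n => ‖y - 0‖ ^ 2 := (contDiff_id.sub contDiff_const).norm_sq ℝ
  have hp : ContDiff ℝ 2 fun y : EE n => r * ⟪e, y⟫ - ⟪e, y⟫ ^ 2 :=
    (contDiff_const.mul hl).sub (hl.pow 2)
  have hlp : ∀ z, (Δ fun y : EE n => r * ⟪e, y⟫ - ⟪e, y⟫ ^ 2) z = -2 := fun z => by
    rw [lap_sub' (contDiff_const.mul hl).contDiffAt (hl.pow 2).contDiffAt,
      lap_const_mul hl.contDiffAt, lap_sq hl.contDiffAt, lap_inner]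
    have : gsq (fun y : EE n => ⟪e, y⟫) z = 1 := by
      simp only [gsq, pdv_inner]
      have := EuclideanSpace.norm_sq_eq e
      simp only [he, Real.norm_eq_abs, sq_abs] at this
      linarith
    rw [this]; ring
  have huR : ContDiff ℝ 2 fun y => u (R y) := hu.comp R.contDiff
  set A := 2 * M / r ^ 2 with hA
  have hA0 : 0 ≤ A := by positivity
  have h1 : ContDiff ℝ 2 fun y : EE n => A * ‖y - 0‖ ^ 2 := contDiff_const.mul hq
  have h2 : ContDiff ℝ 2 fun y : EE n => (A * n + F) * (r * ⟪e, y⟫ - ⟪e, y⟫ ^ 2) :=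
    contDiff_const.mul hp
  have h3 : ContDiff ℝ 2 fun y => u y - u (R y) := hu.sub huR
  set h : EE n → ℝ := fun y => A * ‖y - 0‖ ^ 2 + (A * n + F) * (r * ⟪e, y⟫ - ⟪e, y⟫ ^ 2)
    - (u y - u (R y)) with hh
  have hc : ContDiff ℝ 2 h := (h1.add h2).sub h3
  have hpos : ∀ z, ‖z‖ ≤ r → 0 ≤ ⟪e, z⟫ → 0 ≤ h z := fun z hz hz' => by
    refine half_ball hc he (fun z hz _ => ?_) (fun z hz hz' hb => ?_) hz hz'
    · rw [hh, lap_sub' (h1.add h2).contDiffAt h3.contDiffAt, lap_add' h1.contDiffAt h2.contDiffAt,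
        lap_const_mul hq.contDiffAt, lap_const_mul hp.contDiffAt, lap_normSq, hlp,
        lap_sub' hu.contDiffAt huR.contDiffAt, lap_comp_iso hu]
      have a1 := abs_le.1 (hF z hz.le)
      have a2 := abs_le.1 (hF (R z) (by simpa using hz.le))
      nlinarith
    · have b1 : ⟪e, z⟫ ≤ r := (real_inner_le_norm e z).trans (by rw [he, one_mul]; exact hz)
      have b2 : 0 ≤ (A * n + F) * (r * ⟪e, z⟫ - ⟪e, z⟫ ^ 2) :=
        mul_nonneg (by positivity) (by nlinarith)
      simp only [hh, sub_zero]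
      rcases hb with hb | hb
      · have a1 := abs_le.1 (hM z hz)
        have a2 := abs_le.1 (hM (R z) (by simpa using hz))
        have : A * ‖z‖ ^ 2 = 2 * M := by rw [hb, hA]; field_simp
        linarith
      · rw [hR0 z hb]
        have : 0 ≤ A * ‖z‖ ^ 2 := by positivity
        linarith
  -- restrict to the line `s • e`
  have du := hu.differentiable (by norm_num)
  have l1 : HasDerivAt (fun s : ℝ => s • e) e 0 := by simpa using (hasDerivAt_id (0 : ℝ)).smul_const e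
  have l2 : HasDerivAt (fun s : ℝ => s • (-e)) (-e) 0 := by
    simpa using (hasDerivAt_id (0 : ℝ)).smul_const (-e)
  have d1 : HasDerivAt (fun s : ℝ => u (s • e)) (fderiv ℝ u 0 e) 0 :=
    HasFDerivAt.comp_hasDerivAt_of_eq 0 (du 0).hasFDerivAt l1 (by simp)
  have d2 : HasDerivAt (fun s : ℝ => u (s • (-e))) (fderiv ℝ u 0 (-e)) 0 :=
    HasFDerivAt.comp_hasDerivAt_of_eq 0 (du 0).hasFDerivAt l2 (by simp)
  have d3 : HasDerivAt (fun s : ℝ => A * s ^ 2 + (A * n + F) * (r * s - s ^ 2))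
      ((A * n + F) * r) 0 := by
    have := ((hasDerivAt_pow 2 (0 : ℝ)).const_mul A).fun_add
      ((((hasDerivAt_id' (0 : ℝ)).const_mul r).fun_sub (hasDerivAt_pow 2 (0 : ℝ))).const_mul
        (A * n + F))
    exact this.congr_deriv (by norm_num)
  have d4 := d3.fun_sub (d1.fun_sub d2)
  have hge : 0 ≤ (A * n + F) * r - (fderiv ℝ u 0 e - fderiv ℝ u 0 (-e)) := by
    have hs := d4.hasDerivWithinAt (s := Ioi 0)
    rw [hasDerivWithinAt_iff_tendsto_slope' (by simp)] at hs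
    refine ge_of_tendsto hs ?_
    filter_upwards [Ioo_mem_nhdsGT hr] with s hs
    have e1 : ⟪e, s • e⟫ = s := by rw [real_inner_smul_right, real_inner_self_eq_norm_sq, he]; ring
    have e2 : ‖s • e‖ = s := by rw [norm_smul, he, Real.norm_eq_abs, abs_of_pos hs.1, mul_one]
    have := hpos (s • e) (by rw [e2]; exact hs.2.le) (by rw [e1]; exact hs.1.le)
    simp only [hh, sub_zero, e1, e2, map_smul, hRe] at this
    rw [slope_def_field]
    refine div_nonneg ?_ (by simpa using hs.1.le)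
    simpa using this
  rw [map_neg] at hge
  have : A * n * r = 2 * (n * M / r) := by rw [hA]; field_simp
  nlinarith

/-- interior gradient estimate -/
theorem brandt {u : EE n → ℝ} (hu : ContDiff ℝ 2 u) {x : EE n} {r M F : ℝ} (hr : 0 < r)
    (hM : ∀ y ∈ closedBall x r, |u y| ≤ M) (hF : ∀ y ∈ closedBall x r, |(Δ u) y| ≤ F) :
    ‖fderiv ℝ u x‖ ≤ n * M / r + F * r / 2 := by
  have hM0 : 0 ≤ M := (abs_nonneg _).trans (hM x (mem_closedBall_self hr.le))
  have hF0 : 0 ≤ F := (abs_nonneg _).trans (hF x (mem_closedBall_self hr.le))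
  have hs : ContDiff ℝ 2 fun y => u (x + y) := hu.comp (contDiff_const.add contDiff_id)
  have e0 : fderiv ℝ (fun y => u (x + y)) 0 = fderiv ℝ u x := by
    rw [fderiv_comp_add_left]; simp
  have key : ∀ e : EE n, ‖e‖ = 1 → fderiv ℝ u x e ≤ n * M / r + F * r / 2 := fun e he => by
    rw [← e0]
    refine brandt_dir hs hr (fun y hy => hM _ (by simpa using hy)) (fun y hy => ?_) he
    rw [Ker.lap_shift]
    exact hF _ (by simpa using hy)
  refine ContinuousLinearMap.opNorm_le_of_unit_norm (by positivity) fun e he => ?_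
  have h1 := key e he
  have h2 := key (-e) (by simpa using he)
  rw [map_neg] at h2
  rw [Real.norm_eq_abs, abs_le]
  constructor <;> linarith

/-- interior gradient estimate with a drift term; no a priori bound on the gradient is needed -/
theorem grad_drift {u : EE n → ℝ} (hu : ContDiff ℝ 2 u) {x : EE n} {β M G : ℝ} (hβ : 0 ≤ β)
    (hM : ∀ y ∈ closedBall x 1, |u y| ≤ M)
    (hF : ∀ y ∈ closedBall x 1, |(Δ u) y| ≤ β * ‖fderiv ℝ u y‖ + G) (hG : 0 ≤ G) :
    ‖fderiv ℝ u x‖ ≤ 4 * n * (β + 1) * M + G := by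
  have hM0 : 0 ≤ M := (abs_nonneg _).trans (hM x (mem_closedBall_self one_pos.le))
  have cf : Continuous fun y => (1 - dist y x) * ‖fderiv ℝ u y‖ :=
    (continuous_const.sub (continuous_id.dist continuous_const)).mul
      (hu.continuous_fderiv (by norm_num)).norm
  obtain ⟨y, hy, hmax⟩ := (isCompact_closedBall x 1).exists_isMaxOn
    ⟨x, mem_closedBall_self one_pos.le⟩ cf.continuousOn
  set δ := 1 - dist y x with hδ
  set S := δ * ‖fderiv ℝ u y‖ with hS
  have hle : ∀ z ∈ closedBall x 1, (1 - dist z x) * ‖fderiv ℝ u z‖ ≤ S := fun z hz => hmax hz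
  have hx : ‖fderiv ℝ u x‖ ≤ S := by simpa using hle x (mem_closedBall_self one_pos.le)
  have hδ0 : 0 ≤ δ := by have := mem_closedBall.1 hy; linarith
  have hδ1 : δ ≤ 1 := by have := dist_nonneg (x := y) (y := x); linarith
  have hS0 : 0 ≤ S := (norm_nonneg _).trans hx
  refine hx.trans ?_
  rcases hδ0.eq_or_lt with h0 | h0
  · rw [hS, ← h0, zero_mul]; positivity
  set θ := 1 / (2 * (β + 1)) with hθ
  have hθ0 : 0 < θ := by positivity
  have hθ1 : θ ≤ 1 / 2 := by
    rw [hθ]; exact one_div_le_one_div_of_le (by norm_num) (by linarith)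
  have hθ2 : θ * (β + 1) = 1 / 2 := by rw [hθ]; field_simp
  have hsub : ∀ z ∈ closedBall y (θ * δ), δ / 2 ≤ 1 - dist z x := fun z hz => by
    have h1 := dist_triangle z y x
    have h2 := mem_closedBall.1 hz
    nlinarith
  have hsub' : ∀ z ∈ closedBall y (θ * δ), z ∈ closedBall x 1 := fun z hz => by
    have := hsub z hz
    rw [mem_closedBall]; linarith
  have hb := brandt hu (x := y) (r := θ * δ) (M := M) (F := β * (2 * S / δ) + G) (by positivity)
    (fun z hz => hM z (hsub' z hz)) fun z hz => (hF z (hsub' z hz)).trans (by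
      have h1 := hle z (hsub' z hz)
      have h2 : δ / 2 * ‖fderiv ℝ u z‖ ≤ S :=
        (mul_le_mul_of_nonneg_right (hsub z hz) (norm_nonneg _)).trans h1
      have h3 : ‖fderiv ℝ u z‖ ≤ 2 * S / δ := by
        rw [le_div_iff₀ h0]; linarith
      gcongr)
  have h4 : S ≤ δ * (n * M / (θ * δ) + (β * (2 * S / δ) + G) * (θ * δ) / 2) :=
    mul_le_mul_of_nonneg_left hb hδ0
  have h5 : δ * (n * M / (θ * δ) + (β * (2 * S / δ) + G) * (θ * δ) / 2)
      = 2 * n * (β + 1) * M + θ * β * δ * S + θ * δ * δ * G / 2 := by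
    rw [hθ]; field_simp; ring
  have h6 : θ * β * δ * S ≤ S / 2 := by
    have : θ * β * δ ≤ 1 / 2 := by nlinarith [mul_nonneg hθ0.le hβ]
    nlinarith
  have h7 : θ * δ * δ * G / 2 ≤ G / 2 := by
    have : θ * δ * δ ≤ 1 := by nlinarith [mul_nonneg hθ0.le hδ0]
    nlinarith
  linarith

end

end Crest.Agent.N067
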