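import Crest.Agent.N067.A.Ker4

/-!
# Row 67 basics (helper47): heat semigroup comparison

`heat_mono`: `Δ u ≤ μ u` gives `e^{-μ s} P_s u ≤ u`.  `hk_core`: a subsolution `w` dominated by
`φ + (2 - Δ) φ` is locally dominated by `φ`.  `harnack_far`: the sharp growth rate `e^{√μ D}`.
-/

set_option autoImplicit false

open MeasureTheory Laplacian InnerProductSpace Topology Filter Set Metric
open scoped RealInnerProductSpace ContDiff

namespace Crest.Agent.N067

open Crest.Agent.R077 Ker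

noncomputable section

variable {n : ℕ}

theorem int_hk_shift {s M : ℝ} (hs : 0 < s) {u : EE n → ℝ} (hu : Continuous u)
    (h : ∀ z, |u z| ≤ M) (x : EE n) : Integrable fun z => hk s z * u (x + z) :=
  integrable_hk_mul hs (by fun_prop : Continuous fun z => u (x + z)).aestronglyMeasurable
    (gr_of_bdd fun z => h (x + z))

theorem heat_deriv {s M : ℝ} (μ : ℝ) (hs : 0 < s) {u : EE n → ℝ} (hu : ContDiff ℝ 2 u)
    (h0 : ∀ z, |u z| ≤ M) (h2 : ∀ z, |(Δ u) z| ≤ M) (x : EE n) :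
    HasDerivAt (fun t => Real.exp (-μ * t) * cv (hk t) u x)
      (-(Real.exp (-μ * s) * cv (hk s) (fun z => μ * u z - (Δ u) z) x)) s := by
  have cu : ContDiff ℝ 2 fun z => u (x + z) := hu.comp (contDiff_const.add contDiff_id)
  have g0 : Gr 0 M fun z => u (x + z) := gr_of_bdd fun z => h0 (x + z)
  have g2 : Gr 0 M (Δ fun z => u (x + z)) := gr_of_bdd fun z => by rw [lap_shift]; exact h2 _
  have he : HasDerivAt (fun t : ℝ => Real.exp (-μ * t)) (Real.exp (-μ * s) * -μ) s := by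
    simpa using ((hasDerivAt_id s).const_mul (-μ)).exp
  refine (he.fun_mul (hasDerivAt_heat hs cu.continuous g0)).congr_deriv ?_
  rw [← heat_green hs cu g0 g2]
  simp only [lap_shift]
  have e : cv (hk s) (fun z => μ * u z - (Δ u) z) x
      = μ * (∫ z, hk s z * u (x + z)) - ∫ z, hk s z * (Δ u) (x + z) := by
    rw [← integral_const_mul, ← integral_sub ((int_hk_shift hs hu.continuous h0 x).const_mul μ)
      (int_hk_shift hs (continuous_lap hu) h2 x), cv]
    congr 1
    funext z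
    ring
  rw [e]
  ring

theorem cv_hk_nonneg {s : ℝ} (hs : 0 < s) {f : EE n → ℝ} (h : ∀ z, 0 ≤ f z) (x : EE n) :
    0 ≤ cv (hk s) f x := integral_nonneg fun z => mul_nonneg (hk_pos hs z).le (h _)

/-- supersolutions dominate their heat means -/
theorem heat_mono {s M : ℝ} (μ : ℝ) (hs : 0 < s) {u : EE n → ℝ} (hu : ContDiff ℝ 2 u)
    (h0 : ∀ z, |u z| ≤ M) (h2 : ∀ z, |(Δ u) z| ≤ M) (h : ∀ z, (Δ u) z ≤ μ * u z) (x : EE n) :
    Real.exp (-μ * s) * cv (hk s) u x ≤ u x := by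
  set F : ℝ → ℝ := fun t => Real.exp (-μ * t) * ∫ y, hk 1 y * u (x + √t • y) with hF
  have hFe : ∀ t, 0 < t → F t = Real.exp (-μ * t) * cv (hk t) u x := fun t ht => by
    rw [cv, integral_hk_scale ht]
  have hd : ∀ t, 0 < t → HasDerivAt F
      (-(Real.exp (-μ * t) * cv (hk t) (fun z => μ * u z - (Δ u) z) x)) t := fun t ht => by
    refine (heat_deriv μ ht hu h0 h2 x).congr_of_eventuallyEq ?_
    filter_upwards [Ioi_mem_nhds ht] with r hr
    exact hFe r hr
  have hc0 : ContinuousWithinAt F (Ici 0) 0 :=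
    ((by fun_prop : Continuous fun t : ℝ => Real.exp (-μ * t)).continuousWithinAt).mul
      (continuousWithinAt_heat (w := fun z => u (x + z)) le_rfl
        (hu.continuous.comp (continuous_const.add continuous_id)) (gr_of_bdd fun z => h0 (x + z)))
  have hA : AntitoneOn F (Ici 0) := by
    refine antitoneOn_of_deriv_nonpos (convex_Ici 0) (fun t ht => ?_) (fun t ht => ?_)
      fun t ht => ?_
    · rcases (mem_Ici.1 ht).eq_or_lt with h1 | h1
      · rw [← h1]; exact hc0
      · exact (hd t h1).continuousAt.continuousWithinAt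
    · rw [interior_Ici] at ht
      exact (hd t ht).differentiableAt.differentiableWithinAt
    · rw [interior_Ici] at ht
      rw [(hd t ht).deriv, neg_nonpos]
      exact mul_nonneg (Real.exp_pos _).le (cv_hk_nonneg ht (fun z => sub_nonneg.2 (h z)) x)
  have h1 := hA self_mem_Ici (mem_Ici.2 hs.le) hs.le
  rw [hFe s hs] at h1
  refine h1.trans (le_of_eq ?_)
  simp only [hF, Real.sqrt_zero, zero_smul, mul_zero, Real.exp_zero, one_mul, add_zero]
  rw [integral_mul_const, integral_hk one_pos, one_mul]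

/-- subsolutions are dominated by their heat means -/
theorem heat_sub {s M : ℝ} (C : ℝ) (hs : 0 < s) {w : EE n → ℝ} (hw : ContDiff ℝ 2 w)
    (h0 : ∀ z, |w z| ≤ M) (h2 : ∀ z, |(Δ w) z| ≤ M) (h : ∀ z, -(C * w z) ≤ (Δ w) z) (x : EE n) :
    w x ≤ Real.exp (C * s) * cv (hk s) w x := by
  have e : ∀ z, (Δ fun y => -w y) z = -(Δ w) z := fun z => by
    rw [show (fun y => -w y) = -w from rfl, laplacian_neg]; rfl
  have := heat_mono (-C) hs hw.neg (M := M) (fun z => by simpa using h0 z)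
    (fun z => by rw [e]; simpa using h2 z) (fun z => by rw [e]; linarith [h z]) x
  simp only [cv, mul_neg, integral_neg, neg_neg] at this ⊢
  linarith

theorem hk_shift_le' {s : ℝ} (hs : 0 < s) {x x₀ : EE n} (hx : dist x x₀ ≤ 1) (y : EE n) :
    hk s (y - x) ≤ Real.exp (1 / (4 * s)) * cD n * hk (2 * s) (y - x₀) := by
  have h := hk_mul_exp hs (θ := 1 / 2) (by norm_num) (y - x₀)
  rw [show s / (1 - 1 / 2) = 2 * s by ring] at h
  rw [mul_assoc, cD, ← h]
  unfold hk
  rw [mul_assoc ((4 * Real.pi * s) ^ _), ← Real.exp_add, mul_left_comm (Real.exp _),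
    ← Real.exp_add]
  have hp := Real.pi_pos
  refine mul_le_mul_of_nonneg_left (Real.exp_le_exp.2 ?_) (by positivity)
  have h1 : ‖y - x₀‖ ≤ ‖y - x‖ + 1 := by
    have := norm_add_le (y - x) (x - x₀)
    rw [sub_add_sub_cancel] at this
    rw [dist_eq_norm] at hx
    linarith
  have h2 : ‖y - x₀‖ ^ 2 ≤ 2 * ‖y - x‖ ^ 2 + 2 := by
    nlinarith [norm_nonneg (y - x₀), norm_nonneg (y - x), sq_nonneg (‖y - x‖ - 1)]
  rw [← add_div, ← add_div]
  exact div_le_div_of_nonneg_right (by linarith) (by linarith)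

theorem int_hk_sub {s M : ℝ} (hs : 0 < s) {u : EE n → ℝ} (hu : Continuous u)
    (h : ∀ z, |u z| ≤ M) (x : EE n) : Integrable fun y => hk s (y - x) * u y :=
  ((integrable_hk hs).comp_sub_right x).mul_bdd hu.aestronglyMeasurable
    (Eventually.of_forall h)

theorem cv_shift_le {s M : ℝ} (hs : 0 < s) {w : EE n → ℝ} (hw : Continuous w)
    (h0 : ∀ z, |w z| ≤ M) (hp : ∀ z, 0 ≤ w z) {x y : EE n} (hx : dist y x ≤ 1) :
    cv (hk s) w y ≤ Real.exp (1 / (4 * s)) * cD n * cv (hk (2 * s)) w x := by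
  rw [cv_eq, cv_eq, ← integral_const_mul]
  refine integral_mono (int_hk_sub hs hw h0 y)
    ((int_hk_sub (by linarith) hw h0 x).const_mul _) fun z => ?_
  simp only [← mul_assoc]
  exact mul_le_mul_of_nonneg_right (hk_shift_le' hs hx z) (hp z)

/-- HK core -/
theorem hk_core (n : ℕ) {C : ℝ} (hC : 0 ≤ C) : ∃ K : ℝ, 0 ≤ K ∧ ∀ (w φ : EE n → ℝ) (M : ℝ),
    ContDiff ℝ 2 w → ContDiff ℝ 2 φ → (∀ z, |w z| ≤ M) → (∀ z, |(Δ w) z| ≤ M) →
    (∀ z, |φ z| ≤ M) → (∀ z, |(Δ φ) z| ≤ M) → (∀ z, 0 ≤ w z) → (∀ z, 0 ≤ φ z) →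
    (∀ z, -(C * w z) ≤ (Δ w) z) → (∀ z, (Δ φ) z ≤ 2 * φ z) →
    (∀ z, w z ≤ φ z + (2 * φ z - (Δ φ) z)) → ∀ x y, dist y x ≤ 1 → w y ≤ K * φ x := by
  have hc := cD_pos (n := n)
  refine ⟨Real.exp (C * 2) * (Real.exp 1 * cD n * (2 * Real.exp 8)), by positivity,
    fun w φ M hw hφ w0 w2 p0 p2 wp pp hsub hsup hle x y hxy => ?_⟩
  obtain ⟨σ, hσ, h1⟩ := exists_hasDerivAt_eq_slope
    (fun t => Real.exp (-2 * t) * cv (hk t) φ x)
    (fun t => -(Real.exp (-2 * t) * cv (hk t) (fun z => 2 * φ z - (Δ φ) z) x))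
    (show (2 : ℝ) < 4 by norm_num)
    (fun t ht => (heat_deriv 2 (by linarith [ht.1]) hφ p0 p2 x).continuousAt.continuousWithinAt)
    fun t ht => heat_deriv 2 (by linarith [ht.1]) hφ p0 p2 x
  have hσ0 : 0 < σ := by linarith [hσ.1]
  have h2 := heat_mono 2 (s := 2) two_pos hφ p0 p2 hsup x
  have h3 := heat_mono 2 hσ0 hφ p0 p2 hsup x
  have h4 : 0 ≤ Real.exp (-2 * 4) * cv (hk 4) φ x :=
    mul_nonneg (Real.exp_pos _).le (cv_hk_nonneg (by norm_num) pp x)
  have cf : Continuous fun z => 2 * φ z - (Δ φ) z :=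
    (continuous_const.mul hφ.continuous).sub (continuous_lap hφ)
  have f0 : ∀ z, |2 * φ z - (Δ φ) z| ≤ 3 * M := fun z => by
    have := abs_sub (2 * φ z) ((Δ φ) z)
    rw [abs_mul, abs_two] at this
    linarith [p0 z, p2 z]
  have h5 : cv (hk σ) w x ≤ cv (hk σ) φ x + cv (hk σ) (fun z => 2 * φ z - (Δ φ) z) x := by
    unfold cv
    rw [← integral_add (int_hk_shift hσ0 hφ.continuous p0 x) (int_hk_shift hσ0 cf f0 x)]
    refine integral_mono (int_hk_shift hσ0 hw.continuous w0 x)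
      ((int_hk_shift hσ0 hφ.continuous p0 x).add (int_hk_shift hσ0 cf f0 x)) fun z => ?_
    simp only [← mul_add]
    exact mul_le_mul_of_nonneg_left (hle _) (hk_pos hσ0 z).le
  have h6 : Real.exp (-2 * σ) * cv (hk σ) w x ≤ 2 * φ x := by
    have := mul_le_mul_of_nonneg_left h5 (Real.exp_pos (-2 * σ)).le
    rw [mul_add] at this
    rw [show (4 : ℝ) - 2 = 2 by norm_num, eq_div_iff two_ne_zero] at h1
    linarith [pp x]
  have h7 : cv (hk σ) w x ≤ 2 * Real.exp 8 * φ x := by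
    have e1 : Real.exp (2 * σ) * Real.exp (-2 * σ) = 1 := by rw [← Real.exp_add]; simp
    have e2 : Real.exp (2 * σ) ≤ Real.exp 8 := Real.exp_le_exp.2 (by linarith [hσ.2])
    calc cv (hk σ) w x = Real.exp (2 * σ) * (Real.exp (-2 * σ) * cv (hk σ) w x) := by
          rw [← mul_assoc, e1, one_mul]
      _ ≤ Real.exp (2 * σ) * (2 * φ x) := mul_le_mul_of_nonneg_left h6 (Real.exp_pos _).le
      _ ≤ Real.exp 8 * (2 * φ x) := mul_le_mul_of_nonneg_right e2 (by linarith [pp x])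
      _ = _ := by ring
  have hs : 0 < σ / 2 := by linarith
  have h8 := heat_sub C hs hw w0 w2 hsub y
  have h9 := cv_shift_le hs hw.continuous w0 wp hxy
  rw [show 2 * (σ / 2) = σ by ring] at h9
  have h10 : Real.exp (C * (σ / 2)) ≤ Real.exp (C * 2) :=
    Real.exp_le_exp.2 (mul_le_mul_of_nonneg_left (by linarith [hσ.2]) hC)
  have h11 : Real.exp (1 / (4 * (σ / 2))) ≤ Real.exp 1 :=
    Real.exp_le_exp.2 (by rw [div_le_one (by linarith)]; linarith [hσ.1])
  have h12 := cv_hk_nonneg hσ0 wp x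
  have h13 := cv_hk_nonneg hs wp y
  calc w y ≤ Real.exp (C * 2) * cv (hk (σ / 2)) w y :=
        h8.trans (mul_le_mul_of_nonneg_right h10 h13)
    _ ≤ Real.exp (C * 2) * (Real.exp 1 * cD n * (2 * Real.exp 8 * φ x)) := by
        refine mul_le_mul_of_nonneg_left (h9.trans ?_) (Real.exp_pos _).le
        gcongr
    _ = _ := by ring

/-- from the local Harnack inequality to the sharp rate -/
theorem harnack_far (n : ℕ) {μ A : ℝ} (hμ : 0 < μ) (hA : 0 ≤ A) : ∃ K : ℝ, 0 ≤ K ∧
    ∀ (φ : EE n → ℝ) (M : ℝ), ContDiff ℝ 2 φ → (∀ z, |φ z| ≤ M) → (∀ z, |(Δ φ) z| ≤ M) →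
    (∀ z, 0 ≤ φ z) → (∀ z, (Δ φ) z ≤ μ * φ z) → (∀ x y, dist y x ≤ 1 → φ y ≤ A * φ x) →
    ∀ x y, φ x ≤ K * (1 + dist x y) ^ (n / 2 : ℝ) * Real.exp (√μ * dist x y) * φ y := by
  have hp := Real.pi_pos
  have hq : 0 < √μ := Real.sqrt_pos.2 hμ
  have hq2 : √μ * √μ = μ := Real.mul_self_sqrt hμ.le
  set V := (volume (ball (0 : EE n) 1)).toReal with hV
  have hV0 : 0 < V := ENNReal.toReal_pos (measure_ball_pos _ _ one_pos).ne' measure_ball_lt_top.ne
  refine ⟨A / V * (2 * Real.pi / √μ) ^ (n / 2 : ℝ) * Real.exp √μ, by positivity,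
    fun φ M hφ p0 p2 pp hsup hH x y => ?_⟩
  set D := dist x y with hD
  have hD0 : 0 ≤ D := dist_nonneg
  set s := (1 + D) / (2 * √μ) with hs
  have hs0 : 0 < s := by positivity
  have h1 := heat_mono μ hs0 hφ p0 p2 hsup y
  set c := (4 * Real.pi * s) ^ (-(n / 2 : ℝ)) * Real.exp (-(1 + D) ^ 2 / (4 * s)) with hc
  have hc0 : 0 < c := by positivity
  have h2 : c * φ x * V ≤ A * cv (hk s) φ y := by
    rw [cv_eq, ← integral_const_mul]
    have i1 := (int_hk_sub hs0 hφ.continuous p0 y).const_mul A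
    calc c * φ x * V = ∫ _z in ball x 1, c * φ x := by
          rw [setIntegral_const, smul_eq_mul, mul_comm, Measure.real, Measure.addHaar_ball_center]
      _ ≤ ∫ z in ball x 1, A * (hk s (z - y) * φ z) := by
          refine setIntegral_mono_on (integrableOn_const measure_ball_lt_top.ne) i1.integrableOn
            measurableSet_ball fun z hz => ?_
          have h3 : φ x ≤ A * φ z := hH z x (by rw [dist_comm]; exact (mem_ball.1 hz).le)
          have h4 : c ≤ hk s (z - y) := by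
            refine mul_le_mul_of_nonneg_left (Real.exp_le_exp.2 ?_) (by positivity)
            have h5 : ‖z - y‖ ≤ 1 + D := by
              rw [← dist_eq_norm]
              linarith [dist_triangle z x y, mem_ball.1 hz]
            exact div_le_div_of_nonneg_right
              (neg_le_neg (pow_le_pow_left₀ (norm_nonneg _) h5 2)) (by positivity)
          calc c * φ x ≤ hk s (z - y) * (A * φ z) :=
                mul_le_mul h4 h3 (pp x) (hk_pos hs0 _).le
            _ = _ := by ring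
      _ ≤ _ := setIntegral_le_integral i1 (Eventually.of_forall fun z =>
          mul_nonneg hA (mul_nonneg (hk_pos hs0 _).le (pp z)))
  have h3 : Real.exp (-μ * s) * c * φ x * V ≤ A * φ y := by
    have := mul_le_mul_of_nonneg_left h2 (Real.exp_pos (-μ * s)).le
    have h4 := mul_le_mul_of_nonneg_left h1 hA
    nlinarith
  have e : (2 * Real.pi / √μ) ^ (n / 2 : ℝ) * Real.exp √μ * (1 + D) ^ (n / 2 : ℝ) *
      Real.exp (√μ * D) * (Real.exp (-μ * s) * c) = 1 := by
    have e1 : 4 * Real.pi * s = 2 * Real.pi / √μ * (1 + D) := by rw [hs]; field_simp; ring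
    have e2 : √μ + √μ * D + -μ * s + -(1 + D) ^ 2 / (4 * s) = 0 := by
      rw [hs]; field_simp; rw [sq √μ, hq2]; ring
    have e3 : Real.exp √μ * Real.exp (√μ * D) * Real.exp (-μ * s) *
        Real.exp (-(1 + D) ^ 2 / (4 * s)) = 1 := by
      rw [← Real.exp_add, ← Real.exp_add, ← Real.exp_add, e2, Real.exp_zero]
    have e4 : (2 * Real.pi / √μ) ^ (n / 2 : ℝ) * (1 + D) ^ (n / 2 : ℝ) *
        (4 * Real.pi * s) ^ (-(n / 2 : ℝ)) = 1 := by
      rw [← Real.mul_rpow (by positivity) (by positivity), ← e1, ← Real.rpow_add (by positivity)]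
      simp
    rw [hc]
    linear_combination (Real.exp √μ * Real.exp (√μ * D) * Real.exp (-μ * s) *
        Real.exp (-(1 + D) ^ 2 / (4 * s))) * e4 + e3
  set E := (2 * Real.pi / √μ) ^ (n / 2 : ℝ) * Real.exp √μ * (1 + D) ^ (n / 2 : ℝ) *
      Real.exp (√μ * D) with hE
  have hE0 : 0 ≤ E := by positivity
  calc φ x = E * (Real.exp (-μ * s) * c * φ x * V) / V := by
        rw [eq_div_iff hV0.ne']; linear_combination (-(φ x * V)) * e
    _ ≤ E * (A * φ y) / V := by gcongr
    _ = _ := by rw [hE]; ring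

/-- a polynomial factor is absorbed by any exponential -/
theorem poly_le_exp (p : ℝ) (hp : 0 ≤ p) {ε : ℝ} (hε : 0 < ε) :
    ∃ K : ℝ, 0 ≤ K ∧ ∀ D : ℝ, 0 ≤ D → (1 + D) ^ p ≤ K * Real.exp (ε * D) := by
  set δ := ε / (p + 1) with hδ
  have hδ0 : 0 < δ := by positivity
  refine ⟨(1 + 1 / δ) ^ p, by positivity, fun D hD => ?_⟩
  have h1 : 1 + D ≤ (1 + 1 / δ) * Real.exp (δ * D) := by
    have h2 := Real.add_one_le_exp (δ * D)
    have h3 : 1 + D ≤ (1 + 1 / δ) * (δ * D + 1) := by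
      have : (1 + 1 / δ) * (δ * D + 1) = 1 + D + (δ * D + 1 / δ) := by field_simp; ring
      rw [this]
      have : 0 ≤ δ * D + 1 / δ := by positivity
      linarith
    exact h3.trans (mul_le_mul_of_nonneg_left h2 (by positivity))
  refine (Real.rpow_le_rpow (by positivity) h1 hp).trans ?_
  rw [Real.mul_rpow (by positivity) (by positivity), ← Real.exp_mul]
  refine mul_le_mul_of_nonneg_left (Real.exp_le_exp.2 ?_) (by positivity)
  have : δ * p ≤ ε := by
    rw [hδ, div_mul_eq_mul_div, div_le_iff₀ (by positivity)]; nlinarith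
  nlinarith

end

end Crest.Agent.N067
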