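import Crest.Agent.N067.A.DReg
import Crest.Agent.N067.A.HeatC

/-!
# Row 67 basics (helper47): the Harnack package HK (idea: helper54, note h54-1)

`t` is locally comparable, `|B|² ≤ C t`, `|DᵏB| ≤ C √t`, `|Dᵏt| ≤ C t` with universal constants;
`q = ψ t` grows at most at the rate `√2`, `t` at most at the rate `2√2`.
-/

set_option autoImplicit false

open MeasureTheory Laplacian InnerProductSpace Topology Filter Set Metric
open scoped RealInnerProductSpace ContDiff Gradient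

namespace Crest.Agent.N067

open Crest.Agent.R077

noncomputable section

variable {n : ℕ} {v : EE n → ℝ}

/-- `Δ (ψ f) = ψ Δ_μ f + f Δ ψ` -/
theorem Sol.lap_psi_mul (h : Sol v) {f : EE n → ℝ} {x : EE n} (hf : ContDiffAt ℝ 2 f x) :
    (Δ fun y => psi v y * f y) x = psi v x * Lm v f x + f x * (Δ (psi v)) x := by
  rw [lap_mul' (contDiff_infty.1 h.psi_sm 2).contDiffAt hf, Lm_eq]
  have : gin (psi v) f x = -Real.sqrt 2 * v x * psi v x * gin (dd v) f x := by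
    simp only [gin, h.pdv_psi, Finset.mul_sum, mul_assoc]
  rw [this]
  ring

theorem Lm_sq (v : EE n → ℝ) {f : EE n → ℝ} {x : EE n} (hf : ContDiffAt ℝ 2 f x) :
    Lm v (fun y => f y ^ 2) x = 2 * f x * Lm v f x + 2 * gsq f x := by
  have : gin (dd v) (fun y => f y ^ 2) x = 2 * f x * gin (dd v) f x := by
    simp only [gin, pdv_sq (hf.differentiableAt (by norm_num)), Finset.mul_sum]
    exact Finset.sum_congr rfl fun i _ => by ring
  rw [Lm_eq, Lm_eq, lap_sq hf, this]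
  ring

/-- `(2 - Δ) q = ψ² t (1 + t) + 2 ψ |B|²` -/
theorem Sol.lap_qq (h : Sol v) (x : EE n) : (Δ (qq v)) x
    = 2 * qq v x - (psi v x ^ 2 * tt v x * (1 + tt v x) + 2 * psi v x * hsq (dd v) x) := by
  have h1 := h.lap_psi_mul (h.tt_cd 2).contDiffAt (x := x)
  have h2 := h.Lm_tt x
  change (Δ (qq v)) x = _ at h1
  rw [h1, h.lap_psi2, show Lm v (tt v) x = 2 * (qq v x * (1 - tt v x) - hsq (dd v) x) by linarith]
  unfold qq
  ring

theorem Sol.lap_qq_le (h : Sol v) (x : EE n) : (Δ (qq v)) x ≤ 2 * qq v x := by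
  have := h.psi_pos x
  have := h.tt_nonneg x
  have := hsq_nonneg (dd v) x
  rw [h.lap_qq, sub_le_self_iff]
  positivity

theorem Sol.psi_eq_cosh (h : Sol v) (x : EE n) :
    psi v x = 1 / Real.cosh (dd v x / Real.sqrt 2) ^ 2 := by
  have := Real.cosh_pos (dd v x / Real.sqrt 2)
  rw [psi, h.eq_tanh x, Real.tanh_eq_sinh_div_cosh]
  field_simp
  linarith [Real.cosh_sq_sub_sinh_sq (dd v x / Real.sqrt 2)]

theorem cosh_le_exp_mul (a b : ℝ) : Real.cosh b ≤ Real.exp |a - b| * Real.cosh a := by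
  rw [Real.cosh_eq, Real.cosh_eq]
  have h1 : Real.exp b ≤ Real.exp |a - b| * Real.exp a := by
    rw [← Real.exp_add]; exact Real.exp_le_exp.2 (by linarith [neg_abs_le (a - b)])
  have h2 : Real.exp (-b) ≤ Real.exp |a - b| * Real.exp (-a) := by
    rw [← Real.exp_add]; exact Real.exp_le_exp.2 (by linarith [le_abs_self (a - b)])
  linarith

/-- `ψ` depends on `d` at the rate `√2` -/
theorem Sol.psi_le_dd (h : Sol v) (x y : EE n) :
    psi v x ≤ Real.exp (Real.sqrt 2 * |dd v x - dd v y|) * psi v y := by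
  have h1 := cosh_le_exp_mul (dd v x / Real.sqrt 2) (dd v y / Real.sqrt 2)
  have hx := Real.cosh_pos (dd v x / Real.sqrt 2)
  have hy := Real.cosh_pos (dd v y / Real.sqrt 2)
  have e : Real.exp (Real.sqrt 2 * |dd v x - dd v y|)
      = Real.exp |dd v x / Real.sqrt 2 - dd v y / Real.sqrt 2| ^ 2 := by
    rw [← Real.exp_nat_mul, ← sub_div, abs_div, abs_of_pos sqrt2_pos]
    congr 1
    have := sqrt2_pos
    field_simp
    rw [sqrt2_sq]
    push_cast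
    ring
  rw [h.psi_eq_cosh, h.psi_eq_cosh, e, mul_one_div, div_le_div_iff₀ (by positivity) (by positivity),
    one_mul, ← mul_pow]
  exact pow_le_pow_left₀ hy.le h1 2

/-- `log ψ` is `√2`-Lipschitz -/
theorem Sol.psi_le (h : Sol v) (x y : EE n) :
    psi v x ≤ Real.exp (Real.sqrt 2 * dist x y) * psi v y := by
  refine (h.psi_le_dd x y).trans (mul_le_mul_of_nonneg_right (Real.exp_le_exp.2
    (mul_le_mul_of_nonneg_left ?_ sqrt2_pos.le)) (h.psi_pos y).le)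
  rw [dist_eq_norm]
  exact h.abs_dd_sub_le x y

theorem abs_hs_le (f : EE n → ℝ) (i j : Fin n) (x : EE n) : |hs f i j x| ≤ √(hsq f x) :=
  Real.abs_le_sqrt ((Finset.single_le_sum (f := fun j => hs f i j x ^ 2) (fun _ _ => sq_nonneg _)
    (Finset.mem_univ j)).trans (Finset.single_le_sum (f := fun i => ∑ j, hs f i j x ^ 2)
      (fun _ _ => Finset.sum_nonneg fun _ _ => sq_nonneg _) (Finset.mem_univ i)))

theorem Sol.tt_le_sqrt (h : Sol v) (x : EE n) : tt v x ≤ √(tt v x) :=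
  Real.le_sqrt_of_sq_le (by nlinarith [h.tt_nonneg x, tt_le_one v x])

/-- `ψ (|B|² + t)` is a subsolution -/
theorem exists_sub (n : ℕ) : ∃ C : ℝ, 0 ≤ C ∧ ∀ v : EE n → ℝ, Sol v → ∀ x,
    -(C * (psi v x * (hsq (dd v) x + tt v x)))
      ≤ (Δ fun y => psi v y * (hsq (dd v) y + tt v y)) x := by
  have ht : UB (fun (a : SS n) x => √(hsq (dd a.1) x + tt a.1 x)) 0 fun a => tt a.1 :=
    ⟨fun a => a.2.tt_sm, 1, zero_le_one, fun a x => by
      rw [one_mul, abs_of_nonneg (a.2.tt_nonneg x)]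
      exact (a.2.tt_le_sqrt x).trans (Real.sqrt_le_sqrt (by linarith [hsq_nonneg (dd a.1) x]))⟩
  have hB : ∀ i j, UB (fun (a : SS n) x => √(hsq (dd a.1) x + tt a.1 x)) 0
      fun a => hs (dd a.1) i j := fun i j =>
    ⟨fun a => a.2.hs_sm i j, 1, zero_le_one, fun a x => by
      rw [one_mul]
      exact (abs_hs_le _ i j x).trans (Real.sqrt_le_sqrt (by linarith [a.2.tt_nonneg x]))⟩
  obtain ⟨C, hC, h1⟩ := (UB.sum Finset.univ fun i _ => UB.sum Finset.univ fun j _ =>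
    (hB i j).mul (ub_LmB ht hB i j)).bd
  refine ⟨2 * C + 3, by positivity, fun v h x => ?_⟩
  have h2 := (abs_le.1 (h1 ⟨v, h⟩ x)).1
  have hp := h.psi_pos x
  have h3 := h.tt_nonneg x
  have h4 := hsq_nonneg (dd v) x
  simp only at h2
  rw [Real.mul_self_sqrt (by linarith)] at h2
  have c2 : ∀ i j, ContDiffAt ℝ 2 (hs (dd v) i j) x := fun i j =>
    (contDiff_infty.1 (h.hs_sm i j) 2).contDiffAt
  have cp : ContDiffAt ℝ 2 (psi v) x := (contDiff_infty.1 h.psi_sm 2).contDiffAt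
  have e : (fun y => psi v y * (hsq (dd v) y + tt v y))
      = fun y => (∑ i, ∑ j, psi v y * hs (dd v) i j y ^ 2) + qq v y := funext fun y => by
    simp only [hsq, qq, mul_add, Finset.mul_sum]
  have h5 : -psi v x ≤ (Δ (psi v)) x := by
    rw [h.lap_psi]
    nlinarith [mul_nonneg (h.qq_nonneg x) hp.le, mul_nonneg (sq_nonneg (v x)) hp.le]
  have h6 : ∀ i j, psi v x * (2 * (hs (dd v) i j x * Lm v (hs (dd v) i j) x))
      - psi v x * hs (dd v) i j x ^ 2 ≤ (Δ fun y => psi v y * hs (dd v) i j y ^ 2) x := fun i j => by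
    rw [h.lap_psi_mul ((c2 i j).pow 2), Lm_sq v (c2 i j)]
    nlinarith [mul_nonneg hp.le (gsq_nonneg (hs (dd v) i j) x),
      mul_le_mul_of_nonneg_left h5 (sq_nonneg (hs (dd v) i j x))]
  have h7 := Finset.sum_le_sum fun i (_ : i ∈ Finset.univ) =>
    Finset.sum_le_sum fun j (_ : j ∈ Finset.univ) => h6 i j
  simp only [Finset.sum_sub_distrib, ← Finset.mul_sum] at h7
  change _ - psi v x * hsq (dd v) x ≤ _ at h7
  rw [e, lap_add' (ContDiffAt.sum fun i _ => ContDiffAt.sum fun j _ => cp.mul ((c2 i j).pow 2))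
    (contDiff_infty.1 h.qq_sm 2).contDiffAt,
    lap_sum _ fun i _ => ContDiffAt.sum fun j _ => cp.mul ((c2 i j).pow 2)]
  simp only [fun i => lap_sum (x := x) Finset.univ fun j _ => cp.mul ((c2 i j).pow 2)]
  rw [h.lap_qq]
  have h8 : psi v x ^ 2 * tt v x * (1 + tt v x) ≤ 2 * qq v x := by
    have := psi_le_one v x
    have := tt_le_one v x
    have : psi v x * (1 + tt v x) ≤ 2 := by nlinarith
    have := mul_le_mul_of_nonneg_left this (h.qq_nonneg x)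
    unfold qq at this ⊢
    nlinarith
  nlinarith [mul_le_mul_of_nonneg_left h2 hp.le, mul_nonneg hp.le h3, mul_nonneg hp.le h4]

/-- HK in `ψ`-weighted form -/
theorem hk_q (n : ℕ) : ∃ K : ℝ, 0 ≤ K ∧ ∀ v : EE n → ℝ, Sol v → ∀ x y, dist y x ≤ 1 →
    psi v y * (hsq (dd v) y + tt v y) ≤ K * qq v x := by
  obtain ⟨C, hC, h1⟩ := exists_sub n
  obtain ⟨K, hK, h2⟩ := hk_core n hC
  have hw := (ub_psi (n := n) 2).bmul ((ub_hsq 2).add (ub_t 2))
  obtain ⟨M1, p1, b1⟩ := hw.bd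
  obtain ⟨M2, p2, b2⟩ := hw.lap.bd
  obtain ⟨M3, p3, b3⟩ := (ub_q (n := n) 2).bd
  obtain ⟨M4, p4, b4⟩ := (ub_q (n := n) 2).lap.bd
  refine ⟨K, hK, fun v h => h2 _ _ (M1 + M2 + M3 + M4) (contDiff_infty.1 (hw.sm ⟨v, h⟩) 2)
    (contDiff_infty.1 h.qq_sm 2) (fun z => (b1 ⟨v, h⟩ z).trans (by linarith))
    (fun z => (b2 ⟨v, h⟩ z).trans (by linarith)) (fun z => (b3 ⟨v, h⟩ z).trans (by linarith))
    (fun z => (b4 ⟨v, h⟩ z).trans (by linarith))
    (fun z => mul_nonneg (h.psi_pos z).le (add_nonneg (hsq_nonneg _ z) (h.tt_nonneg z)))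
    h.qq_nonneg (h1 v h) h.lap_qq_le fun z => ?_⟩
  have := h.psi_pos z
  have := h.tt_nonneg z
  have := hsq_nonneg (dd v) z
  have h3 : 0 ≤ psi v z ^ 2 * tt v z * (1 + tt v z) := by positivity
  have h4 : 0 ≤ psi v z * hsq (dd v) z := by positivity
  rw [h.lap_qq]
  unfold qq
  nlinarith

/-- HK: `|B(y)|² + t(y) ≤ K t(x)` for `|x - y| ≤ 1` -/
theorem hk_loc (n : ℕ) : ∃ K : ℝ, 0 ≤ K ∧ ∀ v : EE n → ℝ, Sol v → ∀ x y, dist y x ≤ 1 →
    hsq (dd v) y + tt v y ≤ K * tt v x := by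
  obtain ⟨K, hK, h1⟩ := hk_q n
  refine ⟨K * Real.exp (Real.sqrt 2), by positivity, fun v h x y hxy => ?_⟩
  have h2 := h1 v h x y hxy
  have h3 : psi v x ≤ Real.exp (Real.sqrt 2) * psi v y :=
    (h.psi_le x y).trans (mul_le_mul_of_nonneg_right (Real.exp_le_exp.2 (mul_le_of_le_one_right
      sqrt2_pos.le (by rwa [dist_comm]))) (h.psi_pos y).le)
  refine le_of_mul_le_mul_left (h2.trans ?_) (h.psi_pos y)
  have := mul_le_mul_of_nonneg_left h3 (mul_nonneg hK (h.tt_nonneg x))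
  unfold qq
  nlinarith

/-- `|B|² ≤ K t` -/
theorem hk_hsq (n : ℕ) : ∃ K : ℝ, 0 ≤ K ∧ ∀ v : EE n → ℝ, Sol v → ∀ x,
    hsq (dd v) x ≤ K * tt v x := by
  obtain ⟨K, hK, h1⟩ := hk_loc n
  exact ⟨K, hK, fun v h x => by linarith [h1 v h x x (by simp), h.tt_nonneg x]⟩

theorem wc_t : WC fun (a : SS n) => tt a.1 := by
  obtain ⟨K, hK, h1⟩ := hk_loc n
  exact ⟨fun a => a.2.tt_nonneg, K, hK, fun a x y hy => by
    linarith [h1 a.1 a.2 x y hy, hsq_nonneg (dd a.1) y]⟩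

/-- `|DᵏB| ≤ C √t` -/
theorem ub_B_t (k : ℕ) (i j : Fin n) :
    UB (fun (a : SS n) x => √(tt a.1 x)) k fun a => hs (dd a.1) i j := by
  obtain ⟨K, hK, h1⟩ := hk_hsq n
  refine ub_B_w wc_t.sqrt ⟨fun a => a.2.tt_sm, 1, zero_le_one, fun a x => ?_⟩
    (fun i j => ⟨fun a => a.2.hs_sm i j, √K, Real.sqrt_nonneg _, fun a x => ?_⟩) k i j
  · rw [one_mul, abs_of_nonneg (a.2.tt_nonneg x)]
    exact a.2.tt_le_sqrt x
  · rw [← Real.sqrt_mul hK]
    exact (abs_hs_le _ i j x).trans (Real.sqrt_le_sqrt (h1 a.1 a.2 x))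

/-- products of two factors of weight `√t` have weight `t` -/
theorem UB.mul_t {k : ℕ} {f g : SS n → EE n → ℝ} (hf : UB (fun a x => √(tt a.1 x)) k f)
    (hg : UB (fun a x => √(tt a.1 x)) k g) : UB (fun a => tt a.1) k fun a x => f a x * g a x :=
  (hf.mul hg).mono' fun a x => (Real.mul_self_sqrt (a.2.tt_nonneg x)).le

/-- weight `t` is smaller than weight `√t` -/
theorem UB.of_t {k : ℕ} {f : SS n → EE n → ℝ} (hf : UB (fun a => tt a.1) k f) :
    UB (fun a x => √(tt a.1 x)) k f := hf.mono' fun a x => a.2.tt_le_sqrt x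

theorem ub_hsq_t (k : ℕ) : UB (fun a : SS n => tt a.1) k fun a => hsq (dd a.1) :=
  (UB.sum Finset.univ fun i _ => UB.sum Finset.univ fun j _ =>
    (ub_B_t k i j).mul_t (ub_B_t k i j)).congr fun a x => by simp only [hsq, sq]

/-- `|Dᵏt| ≤ C t` -/
theorem ub_t_t (k : ℕ) : UB (fun a : SS n => tt a.1) k fun a => tt a.1 := by
  have h0 : UB (fun a : SS n => tt a.1) 0 fun a => tt a.1 :=
    ⟨fun a => a.2.tt_sm, 1, zero_le_one, fun a x => by
      rw [one_mul, abs_of_nonneg (a.2.tt_nonneg x)]⟩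
  induction k with
  | zero => exact h0
  | succ k ih =>
    refine UB.gain wc_t (b := fun l a => bb a.1 l) (ub_b k)
      (((((ub_psi k).bmul ih).mulb ((ub_const 1).sub (ub_t k))).sub (ub_hsq_t k)).const_mul 2) h0
      fun a x => ?_
    have := a.2.Lm_tt x
    rw [lap_eq_Lm a.1]
    unfold qq at this
    linarith

/-- `‖D^{k+2} d‖ ≤ C √t` -/
theorem hk_B (n k : ℕ) : ∃ C : ℝ, 0 ≤ C ∧ ∀ v : EE n → ℝ, Sol v → ∀ x,
    ‖iteratedFDeriv ℝ (k + 2) (dd v) x‖ ≤ C * √(tt v x) := by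
  choose C hC h1 using fun j : Fin n =>
    ub_iter_succ (fun a : SS n => a.2.pdv_dd_sm j) fun i => ub_B_t k i j
  refine ⟨∑ j, C j, Finset.sum_nonneg fun j _ => hC j, fun v h x =>
    (norm_iter_succ_le h.dd_sm (k + 1) x).trans ?_⟩
  rw [Finset.sum_mul]
  exact Finset.sum_le_sum fun j _ => h1 j ⟨v, h⟩ x

/-- `‖Dᵏ t‖ ≤ C t` -/
theorem hk_t (n k : ℕ) : ∃ C : ℝ, 0 ≤ C ∧ ∀ v : EE n → ℝ, Sol v → ∀ x,
    ‖iteratedFDeriv ℝ k (tt v) x‖ ≤ C * tt v x := by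
  obtain ⟨C, hC, h1⟩ := (ub_t_t (n := n) k).iter
  exact ⟨C, hC, fun v h x => h1 ⟨v, h⟩ x⟩

/-- `‖∇ t‖ ≤ C t` -/
theorem hk_grad_t (n : ℕ) : ∃ C : ℝ, 0 ≤ C ∧ ∀ v : EE n → ℝ, Sol v → ∀ x,
    ‖∇ (tt v) x‖ ≤ C * tt v x := by
  obtain ⟨C, hC, h1⟩ := hk_t n 1
  exact ⟨C, hC, fun v h x => by simpa [norm_grad] using h1 v h x⟩

/-- sharp growth of `q = ψ t` -/
theorem hk_q_far (n : ℕ) : ∃ K : ℝ, 0 ≤ K ∧ ∀ v : EE n → ℝ, Sol v → ∀ x y,
    qq v x ≤ K * (1 + dist x y) ^ (n / 2 : ℝ) * Real.exp (Real.sqrt 2 * dist x y) * qq v y := by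
  obtain ⟨A, hA, h1⟩ := hk_q n
  obtain ⟨K, hK, h2⟩ := harnack_far n (μ := 2) two_pos hA
  obtain ⟨M3, p3, b3⟩ := (ub_q (n := n) 2).bd
  obtain ⟨M4, p4, b4⟩ := (ub_q (n := n) 2).lap.bd
  refine ⟨K, hK, fun v h => h2 _ (M3 + M4) (contDiff_infty.1 h.qq_sm 2)
    (fun z => (b3 ⟨v, h⟩ z).trans (by linarith)) (fun z => (b4 ⟨v, h⟩ z).trans (by linarith))
    h.qq_nonneg h.lap_qq_le fun x y hy => le_trans ?_ (h1 v h x y hy)⟩
  have := mul_nonneg (h.psi_pos y).le (hsq_nonneg (dd v) y)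
  unfold qq
  nlinarith

/-- growth of `q` at any rate above `√2` -/
theorem hk_q_rate (n : ℕ) {a : ℝ} (ha : Real.sqrt 2 < a) : ∃ K : ℝ, 0 ≤ K ∧
    ∀ v : EE n → ℝ, Sol v → ∀ x y, qq v x ≤ K * Real.exp (a * dist x y) * qq v y := by
  obtain ⟨K, hK, h1⟩ := hk_q_far n
  obtain ⟨L, hL, h2⟩ := poly_le_exp (n / 2 : ℝ) (by positivity) (sub_pos.2 ha)
  refine ⟨K * L, mul_nonneg hK hL, fun v h x y => (h1 v h x y).trans
    (mul_le_mul_of_nonneg_right ?_ (h.qq_nonneg y))⟩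
  rw [show a * dist x y = (a - Real.sqrt 2) * dist x y + Real.sqrt 2 * dist x y by ring,
    Real.exp_add, ← mul_assoc, mul_assoc K L]
  have := h2 _ (dist_nonneg (x := x) (y := y))
  gcongr

/-- growth of `t`, with the change of `d` separated -/
theorem hk_t_rate' (n : ℕ) {a : ℝ} (ha : Real.sqrt 2 < a) : ∃ K : ℝ, 0 ≤ K ∧
    ∀ v : EE n → ℝ, Sol v → ∀ x y,
      tt v x ≤ K * Real.exp (a * dist x y + Real.sqrt 2 * |dd v y - dd v x|) * tt v y := by
  obtain ⟨K, hK, h1⟩ := hk_q_rate n ha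
  refine ⟨K, hK, fun v h x y => le_of_mul_le_mul_left ((h1 v h x y).trans ?_) (h.psi_pos x)⟩
  have := mul_le_mul_of_nonneg_left (h.psi_le_dd y x)
    (mul_nonneg (mul_nonneg hK (Real.exp_pos (a * dist x y)).le) (h.tt_nonneg y))
  rw [Real.exp_add]
  unfold qq
  nlinarith

/-- growth of `t` at any rate above `2√2` -/
theorem hk_t_rate (n : ℕ) {a : ℝ} (ha : 2 * Real.sqrt 2 < a) : ∃ K : ℝ, 0 ≤ K ∧
    ∀ v : EE n → ℝ, Sol v → ∀ x y, tt v x ≤ K * Real.exp (a * dist x y) * tt v y := by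
  obtain ⟨K, hK, h1⟩ := hk_t_rate' n (a := a - Real.sqrt 2) (by linarith)
  refine ⟨K, hK, fun v h x y => (h1 v h x y).trans (mul_le_mul_of_nonneg_right
    (mul_le_mul_of_nonneg_left (Real.exp_le_exp.2 ?_) hK) (h.tt_nonneg y))⟩
  have h2 := h.abs_dd_sub_le y x
  rw [← dist_eq_norm, dist_comm] at h2
  nlinarith [sqrt2_pos]

end

end Crest.Agent.N067
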