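import Crest.Agent.N067.A.HK
import Crest.Agent.N067.A.Harn
import Crest.Agent.N067.Y.Ord

/-! Row 67 basics (helper47): `hkS n : HKStmt n`, and the dictionary `UB ↔ Ok`. -/

set_option autoImplicit false

open MeasureTheory Laplacian InnerProductSpace Topology Filter Set Metric
open scoped RealInnerProductSpace ContDiff Gradient

namespace Crest.Agent.N067

open Crest.Agent.R077

noncomputable section

variable {n : ℕ}

theorem ok_iff_ub {a k : ℕ} {f : Fam n} :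
    Ok a k f ↔ UB (fun (s : SS n) x => √(tt s.1 x) ^ a) k fun s => f s.1 := by
  have h0 : ∀ {f : Fam n}, Ok0 a f ↔ UB0 (fun (s : SS n) x => √(tt s.1 x) ^ a) fun s => f s.1 :=
    ⟨fun ⟨C, hC, h⟩ => ⟨fun s => (h s.1 s.2).1, C, hC, fun s => (h s.1 s.2).2⟩,
      fun ⟨h1, C, hC, h2⟩ => ⟨C, hC, fun v hv => ⟨h1 ⟨v, hv⟩, h2 ⟨v, hv⟩⟩⟩⟩
  induction k generalizing f with
  | zero => exact h0
  | succ k ih => exact and_congr h0 (forall_congr' fun i => ih)

/-- `log t` is Lipschitz -/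
theorem hk_har (n : ℕ) : ∃ C : ℝ, 0 ≤ C ∧ ∀ v : EE n → ℝ, Sol v → ∀ x y,
    tt v y ≤ Real.exp (C * ‖x - y‖) * tt v x := by
  obtain ⟨C, hC, h1⟩ := hk_grad_t n
  refine ⟨C, hC, fun v h x y => ?_⟩
  rw [norm_sub_rev]
  exact le_exp_mul_of_log_grad (fun z _ => h.tt_diff z) fun z _ => by
    rw [← norm_grad]; exact h1 v h z

theorem hkS (n : ℕ) : HKStmt n where
  v0 k := ok_iff_ub.2 ((ub_v k).mono' fun _ _ => by simp)
  n0 i k := ok_iff_ub.2 ((ub_d k i).mono' fun _ _ => by simp)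
  b1 i j k := ok_iff_ub.2 ((ub_B_t k i j).mono' fun _ _ => by simp)
  t2 k := ok_iff_ub.2 ((ub_t_t k).mono' fun a x => by rw [Real.sq_sqrt (a.2.tt_nonneg x)])
  har := hk_har n
  sharp e he := by
    obtain ⟨K, hK, h1⟩ := hk_q_rate n (a := Real.sqrt 2 * (1 + e)) (by nlinarith [sqrt2_pos])
    refine ⟨K, hK, fun v h x y => ?_⟩
    rw [← dist_eq_norm, dist_comm]
    exact h1 v h y x

/-- the bootstrap in the class `Ok`: `u = O(t^{a/2})` and `Δ_μ u ∈ Ok a k` give `u ∈ Ok a (k+1)` -/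
theorem Ok.gain {a k : ℕ} {u : Fam n} (h0 : Ok a 0 u) (h : Ok a k fun v => Lm v (u v)) :
    Ok a (k + 1) u := by
  have hw : WC fun (s : SS n) x => √(tt s.1 x) ^ a := by
    obtain ⟨h1, A, hA, h2⟩ := (wc_t (n := n)).sqrt
    refine ⟨fun s x => pow_nonneg (h1 s x) a, A ^ a, pow_nonneg hA a, fun s x y hy => ?_⟩
    rw [← mul_pow]
    exact pow_le_pow_left₀ (h1 s y) (h2 s x y hy) a
  exact ok_iff_ub.2 (UB.gain hw (b := fun l s => bb s.1 l) (ub_b k) (ok_iff_ub.1 h)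
    (ok_iff_ub.1 h0) fun s x => lap_eq_Lm s.1 _ x)

end

end Crest.Agent.N067
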