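import Crest.Agent.R077.Green

/-!
Row 67, basics (helper2): the heat kernel `hk s z = (4πs)^{-n/2} exp(-|z|²/4s)` on `ℝⁿ`.
-/

set_option autoImplicit false

open MeasureTheory Laplacian InnerProductSpace Topology Filter Set
open scoped RealInnerProductSpace ContDiff

namespace Crest.Agent.N067.Ker

open Crest.Agent.R077

noncomputable section

variable {n : ℕ}

/-- the heat kernel -/
def hk (s : ℝ) (z : EE n) : ℝ :=
  (4 * Real.pi * s) ^ (-(n / 2 : ℝ)) * Real.exp (-‖z‖ ^ 2 / (4 * s))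

/-- `∂_s hk = Δ hk = lf · hk` -/
def lf (s : ℝ) (z : EE n) : ℝ := ‖z‖ ^ 2 / (4 * s ^ 2) - n / (2 * s)

theorem hk_pos {s : ℝ} (hs : 0 < s) (z : EE n) : 0 < hk s z := by
  unfold hk
  have := Real.pi_pos
  positivity

theorem hk_neg (s : ℝ) (z : EE n) : hk s (-z) = hk s z := by simp [hk]

theorem contDiff_hk (s : ℝ) {m : ℕ∞} : ContDiff ℝ m (hk s : EE n → ℝ) := by
  unfold hk
  exact contDiff_const.mul (Real.contDiff_exp.comp (((contDiff_norm_sq ℝ).neg).div_const _))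

theorem continuous_hk (s : ℝ) : Continuous (hk s : EE n → ℝ) :=
  (contDiff_hk s (m := 0)).continuous

theorem measurable_hk : Measurable (fun p : ℝ × EE n => hk p.1 p.2) := by
  unfold hk
  fun_prop

theorem measurable_lf : Measurable (fun p : ℝ × EE n => lf p.1 p.2) := by
  unfold lf
  fun_prop

theorem hasFDerivAt_hk {s : ℝ} (z : EE n) :
    HasFDerivAt (hk s) ((-(hk s z) / (2 * s)) • innerSL ℝ z) z := by
  have h1 : HasFDerivAt (fun y : EE n => ‖y‖ ^ 2) (2 • innerSL ℝ z) z := by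
    simpa using (hasStrictFDerivAt_norm_sq z).hasFDerivAt
  have h2 := (((h1.neg.mul_const (4 * s)⁻¹)).exp).const_mul ((4 * Real.pi * s) ^ (-(n / 2 : ℝ)))
  have e : (hk s : EE n → ℝ) = fun y => (4 * Real.pi * s) ^ (-(n / 2 : ℝ)) *
      Real.exp ((-fun y : EE n => ‖y‖ ^ 2) y * (4 * s)⁻¹) := by
    funext y
    simp [hk, div_eq_mul_inv]
  refine (e ▸ h2).congr_fderiv ?_
  ext v
  simp only [hk, smul_apply, innerSL_apply_apply, smul_eq_mul, neg_apply, Pi.neg_apply,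
    div_eq_mul_inv, two_smul, add_apply, mul_inv]
  ring

theorem pdv_hk (s : ℝ) (i : Fin n) (z : EE n) : pdv i (hk s) z = -(z i / (2 * s)) * hk s z := by
  unfold pdv
  rw [(hasFDerivAt_hk z).fderiv]
  simp [EuclideanSpace.inner_single_right]
  ring

theorem pdv_coord (i j : Fin n) (z : EE n) :
    pdv i (fun y : EE n => y j) z = if j = i then 1 else 0 := by
  unfold pdv
  have : (fun y : EE n => y j) = (EuclideanSpace.proj j : EE n →L[ℝ] ℝ) := rfl
  rw [this, ContinuousLinearMap.fderiv]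
  simp

theorem differentiable_coord (j : Fin n) : Differentiable ℝ (fun y : EE n => y j) :=
  (EuclideanSpace.proj j : EE n →L[ℝ] ℝ).differentiable

theorem lap_hk (s : ℝ) (z : EE n) : (Δ (hk s)) z = lf s z * hk s z := by
  rw [lap_eq (contDiff_hk s (m := 2)).contDiffAt]
  have hd : Differentiable ℝ (hk s : EE n → ℝ) :=
    (contDiff_hk s (m := 1)).differentiable (by norm_num)
  have h : ∀ i, pdv i (pdv i (hk s)) z
      = (z i ^ 2 / (4 * s ^ 2) - 1 / (2 * s)) * hk s z := by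
    intro i
    have h1 : pdv i (hk s : EE n → ℝ) = fun y => (-(2 * s)⁻¹ * y i) * hk s y := by
      funext y
      rw [pdv_hk]
      ring
    rw [h1, pdv_mul (f := fun y : EE n => -(2 * s)⁻¹ * y i)
      (((differentiable_coord i) z).const_mul _) (hd z), pdv_const_mul (differentiable_coord i z),
      pdv_coord, pdv_hk]
    simp only [if_true]
    ring
  simp_rw [h]
  rw [← Finset.sum_mul, Finset.sum_sub_distrib, ← Finset.sum_div, lf,
    EuclideanSpace.real_norm_sq_eq]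
  simp only [Finset.sum_const, Finset.card_univ, Fintype.card_fin, nsmul_eq_mul]
  ring

theorem hasDerivAt_hk {s : ℝ} (hs : 0 < s) (z : EE n) :
    HasDerivAt (fun t => hk t z) (lf s z * hk s z) s := by
  have hp : 0 < 4 * Real.pi * s := by have := Real.pi_pos; positivity
  have h1 : HasDerivAt (fun t : ℝ => (4 * Real.pi * t) ^ (-(n / 2 : ℝ)))
      (4 * Real.pi * (-(n / 2 : ℝ)) * (4 * Real.pi * s) ^ (-(n / 2 : ℝ) - 1)) s := by
    have := ((hasDerivAt_id s).const_mul (4 * Real.pi)).rpow_const (p := -(n / 2 : ℝ))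
      (Or.inl hp.ne')
    simpa using this
  have h2 : HasDerivAt (fun t : ℝ => -‖z‖ ^ 2 / (4 * t)) (‖z‖ ^ 2 / (4 * s ^ 2)) s := by
    have h4 : (4 * s) ≠ 0 := by positivity
    have := (hasDerivAt_const s (-‖z‖ ^ 2)).div ((hasDerivAt_id s).const_mul 4) h4
    refine this.congr_deriv ?_
    simp only [id]
    field_simp
    ring
  have h3 := h1.mul h2.exp
  refine h3.congr_deriv ?_
  rw [Real.rpow_sub_one hp.ne']
  unfold lf hk
  have := Real.pi_pos
  field_simp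
  ring

theorem integral_hk {s : ℝ} (hs : 0 < s) : ∫ z : EE n, hk s z = 1 := by
  have hp : 0 < 4 * Real.pi * s := by have := Real.pi_pos; positivity
  have h := GaussianFourier.integral_rexp_neg_mul_sq_norm (V := EE n) (b := (4 * s)⁻¹)
    (by positivity)
  unfold hk
  rw [integral_const_mul]
  have e : ∀ z : EE n, -‖z‖ ^ 2 / (4 * s) = -(4 * s)⁻¹ * ‖z‖ ^ 2 := fun z => by ring
  simp_rw [e]
  rw [h, finrank_euclideanSpace, Fintype.card_fin,
    show Real.pi / (4 * s)⁻¹ = 4 * Real.pi * s by field_simp, ← Real.rpow_add hp]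
  simp

theorem integrable_hk {s : ℝ} (hs : 0 < s) : Integrable (hk s : EE n → ℝ) :=
  Integrable.of_integral_ne_zero (by rw [integral_hk hs]; norm_num)

/-- change of the time parameter: a Gaussian weight is absorbed. -/
theorem hk_mul_exp {s θ : ℝ} (hs : 0 < s) (hθ : θ < 1) (z : EE n) :
    hk s z * Real.exp (θ * ‖z‖ ^ 2 / (4 * s)) = (1 - θ) ^ (-(n / 2 : ℝ)) * hk (s / (1 - θ)) z := by
  have h1 : 0 < 1 - θ := by linarith
  have hp : 0 < 4 * Real.pi * s := by have := Real.pi_pos; positivity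
  unfold hk
  rw [show 4 * Real.pi * (s / (1 - θ)) = (4 * Real.pi * s) / (1 - θ) by ring,
    Real.div_rpow hp.le h1.le, mul_assoc, ← Real.exp_add]
  have h2 : (1 - θ) ^ (-(n / 2 : ℝ)) ≠ 0 := (Real.rpow_pos_of_pos h1 _).ne'
  rw [show -‖z‖ ^ 2 / (4 * s) + θ * ‖z‖ ^ 2 / (4 * s) = -‖z‖ ^ 2 / (4 * (s / (1 - θ))) by
    field_simp; ring]
  field_simp

/-- exponential weight: `hk s z e^{a|z|} ≤ C e^{a² s/θ} hk (s/(1-θ)) z`. -/
theorem hk_mul_exp_le {s θ : ℝ} (hs : 0 < s) (hθ0 : 0 < θ) (hθ : θ < 1) (a : ℝ) (z : EE n) :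
    hk s z * Real.exp (a * ‖z‖) ≤
      (1 - θ) ^ (-(n / 2 : ℝ)) * Real.exp (a ^ 2 * s / θ) * hk (s / (1 - θ)) z := by
  have h : a * ‖z‖ ≤ θ * ‖z‖ ^ 2 / (4 * s) + a ^ 2 * s / θ := by
    have : θ * ‖z‖ ^ 2 / (4 * s) + a ^ 2 * s / θ - a * ‖z‖
        = (θ * ‖z‖ - 2 * a * s) ^ 2 / (4 * s * θ) := by
      field_simp
      ring
    have h2 : 0 ≤ (θ * ‖z‖ - 2 * a * s) ^ 2 / (4 * s * θ) := by positivity
    linarith
  calc hk s z * Real.exp (a * ‖z‖)
      ≤ hk s z * Real.exp (θ * ‖z‖ ^ 2 / (4 * s) + a ^ 2 * s / θ) :=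
        mul_le_mul_of_nonneg_left (Real.exp_le_exp.2 h) (hk_pos hs z).le
    _ = _ := by rw [Real.exp_add, ← mul_assoc, hk_mul_exp hs hθ]; ring

/-- quadratic weight -/
theorem sq_mul_hk_le {s θ : ℝ} (hs : 0 < s) (hθ0 : 0 < θ) (hθ : θ < 1) (z : EE n) :
    ‖z‖ ^ 2 * hk s z ≤ 4 * s / θ * (1 - θ) ^ (-(n / 2 : ℝ)) * hk (s / (1 - θ)) z := by
  have h : θ * ‖z‖ ^ 2 / (4 * s) ≤ Real.exp (θ * ‖z‖ ^ 2 / (4 * s)) := by
    linarith [Real.add_one_le_exp (θ * ‖z‖ ^ 2 / (4 * s))]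
  have h2 := mul_le_mul_of_nonneg_left h (hk_pos hs z).le
  rw [hk_mul_exp hs hθ] at h2
  have : ‖z‖ ^ 2 * hk s z = 4 * s / θ * (hk s z * (θ * ‖z‖ ^ 2 / (4 * s))) := by
    field_simp
  rw [this, mul_assoc]
  exact mul_le_mul_of_nonneg_left h2 (by positivity)

/-- linear weight -/
theorem norm_mul_hk_le {s θ : ℝ} (hs : 0 < s) (hθ0 : 0 < θ) (hθ : θ < 1) (z : EE n) :
    ‖z‖ * hk s z ≤ √(s / θ) * (1 - θ) ^ (-(n / 2 : ℝ)) * hk (s / (1 - θ)) z := by
  have hq : 0 < √(s / θ) := Real.sqrt_pos.2 (by positivity)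
  have hq2 : √(s / θ) ^ 2 = s / θ := Real.sq_sqrt (by positivity)
  have h : ‖z‖ ≤ √(s / θ) * Real.exp (θ * ‖z‖ ^ 2 / (4 * s)) := by
    have h1 := Real.add_one_le_exp (θ * ‖z‖ ^ 2 / (4 * s))
    have h3 : θ * ‖z‖ ^ 2 / (4 * s) = (‖z‖ / √(s / θ)) ^ 2 / 4 := by
      rw [div_pow, hq2]
      field_simp
    have h4 : ‖z‖ / √(s / θ) ≤ Real.exp (θ * ‖z‖ ^ 2 / (4 * s)) := by
      nlinarith [sq_nonneg (‖z‖ / √(s / θ) - 2)]
    rwa [div_le_iff₀ hq, mul_comm] at h4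
  have h2 := mul_le_mul_of_nonneg_right h (hk_pos hs z).le
  rw [mul_assoc, mul_comm (Real.exp _), hk_mul_exp hs hθ] at h2
  rw [mul_assoc]
  exact h2

/-- scaling of the heat semigroup -/
theorem integral_hk_scale {s : ℝ} (hs : 0 < s) (f : EE n → ℝ) :
    ∫ z, hk s z * f z = ∫ y, hk 1 y * f (√s • y) := by
  have hq : 0 < √s := Real.sqrt_pos.2 hs
  have h := Measure.integral_comp_smul (volume : Measure (EE n)) (fun z => hk s z * f z) (√s)
  have e : ∀ y : EE n, hk 1 y = (√s) ^ n * hk s (√s • y) := by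
    intro y
    unfold hk
    have hp : (0 : ℝ) ≤ 4 * Real.pi := by have := Real.pi_pos; positivity
    rw [norm_smul, Real.norm_eq_abs, abs_of_pos hq, mul_pow, Real.sq_sqrt hs.le,
      Real.mul_rpow hp hs.le, mul_one,
      show -(s * ‖y‖ ^ 2) / (4 * s) = -‖y‖ ^ 2 / (4 * 1) by field_simp]
    have h2 : (√s) ^ n * s ^ (-(n / 2 : ℝ)) = 1 := by
      rw [Real.sqrt_eq_rpow, ← Real.rpow_natCast, ← Real.rpow_mul hs.le, ← Real.rpow_add hs]
      rw [show (1 / 2 : ℝ) * n + -(n / 2 : ℝ) = 0 by ring, Real.rpow_zero]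
    calc _ = (√s) ^ n * s ^ (-(n / 2 : ℝ)) * ((4 * Real.pi) ^ (-(n / 2 : ℝ)) *
          Real.exp (-‖y‖ ^ 2 / (4 * 1))) := by rw [h2, one_mul]
      _ = _ := by ring
  simp_rw [e, mul_assoc]
  rw [integral_const_mul, h, finrank_euclideanSpace, Fintype.card_fin, smul_eq_mul,
    abs_of_pos (by positivity)]
  field_simp

end

end Crest.Agent.N067.Ker
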