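import Crest.Agent.N067.A.Ker1

/-!
Row 67, basics (helper2): Green's identity without compact support and the heat semigroup on
functions of exponential growth.
-/

set_option autoImplicit false

open MeasureTheory Laplacian InnerProductSpace Topology Filter Set
open scoped RealInnerProductSpace ContDiff

namespace Crest.Agent.N067.Ker

open Crest.Agent.R077

noncomputable section

variable {n : ℕ}

/-- Green's identity when the four products are integrable (no gradient bound on `w`). -/
theorem green_int {a w : EE n → ℝ} (ha : ContDiff ℝ 2 a) (hw : ContDiff ℝ 2 w)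
    (h0 : Integrable fun x => a x * w x) (h1 : ∀ i, Integrable fun x => pdv i a x * w x)
    (h2 : Integrable fun x => (Δ a) x * w x) (h3 : Integrable fun x => a x * (Δ w) x) :
    ∫ x, a x * (Δ w) x = ∫ x, (Δ a) x * w x := by
  obtain ⟨C, hC0, hC⟩ := exists_chi1_bound (n := n)
  set η : ℕ → EE n → ℝ := fun k x => 1 - chi ((k : ℝ) + 1) x with hη
  have hk1 : ∀ k : ℕ, (1 : ℝ) ≤ (k : ℝ) + 1 := fun k => by
    have : (0 : ℝ) ≤ k := Nat.cast_nonneg k
    linarith
  have hk0 : ∀ k : ℕ, (0 : ℝ) < (k : ℝ) + 1 := fun k => lt_of_lt_of_le one_pos (hk1 k)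
  have hinv : ∀ k : ℕ, |((k : ℝ) + 1)⁻¹| ≤ 1 := fun k => by
    rw [abs_of_pos (inv_pos.2 (hk0 k))]
    exact inv_le_one_of_one_le₀ (hk1 k)
  have ηc : ∀ k, ContDiff ℝ 2 (η k) := fun k => contDiff_const.sub (contDiff_chi (m := 2) _)
  have ηb : ∀ k x, |η k x| ≤ 1 := fun k x => by
    have := chi_nonneg ((k : ℝ) + 1) x
    have := chi_le_one ((k : ℝ) + 1) x
    simp only [hη]
    rw [abs_le]
    constructor <;> linarith
  have ηp : ∀ k i, pdv i (η k) = fun x => -pdv i (chi ((k : ℝ) + 1)) x := fun k i => by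
    funext x
    simp only [hη, pdv]
    rw [fderiv_const_sub]
    rfl
  have ηp1 : ∀ k i x, |pdv i (η k) x| ≤ C := fun k i x => by
    rw [ηp, abs_neg, pdv_chi, abs_mul]
    calc _ ≤ 1 * C := mul_le_mul (hinv k) (hC i _).1 (abs_nonneg _) zero_le_one
      _ = C := one_mul C
  have ηp2 : ∀ k x, |(Δ (η k)) x| ≤ n * C := fun k x => by
    rw [lap_eq (ηc k).contDiffAt]
    refine (Finset.abs_sum_le_sum_abs _ _).trans ?_
    have : ∀ i : Fin n, |pdv i (pdv i (η k)) x| ≤ C := fun i => by
      have e : pdv i (pdv i (η k)) x = -pdv i (pdv i (chi ((k : ℝ) + 1))) x := by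
        rw [ηp]
        simp only [pdv]
        rw [fderiv_fun_neg]
        rfl
      rw [e, abs_neg, pdv2_chi, abs_mul, abs_mul]
      calc _ ≤ 1 * (1 * C) := mul_le_mul (hinv k)
            (mul_le_mul (hinv k) (hC i _).2 (abs_nonneg _) zero_le_one) (by positivity) zero_le_one
        _ = C := by ring
    calc _ ≤ ∑ _i : Fin n, C := Finset.sum_le_sum fun i _ => this i
      _ = n * C := by simp
  have ηs : ∀ k, HasCompactSupport (η k) := fun k => by
    refine HasCompactSupport.intro (isCompact_closedBall (0 : EE n) (2 * ((k : ℝ) + 1))) ?_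
    intro x hx
    simp only [hη]
    rw [chi_one (hk0 k) (le_of_lt (by simpa using hx)), sub_self]
  have ηe : ∀ x : EE n, ∀ᶠ k : ℕ in atTop, (η k) =ᶠ[𝓝 x] fun _ => 1 := fun x => by
    obtain ⟨N, hN⟩ := exists_nat_gt ‖x‖
    filter_upwards [eventually_ge_atTop N] with k hk
    have hlt : ‖x‖ < (k : ℝ) + 1 := by
      have : (N : ℝ) ≤ k := by exact_mod_cast hk
      linarith
    have : {y : EE n | ‖y‖ < (k : ℝ) + 1} ∈ 𝓝 x :=
      (isOpen_lt continuous_norm continuous_const).mem_nhds hlt
    filter_upwards [this] with y hy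
    simp only [hη]
    rw [chi_zero (hk0 k) (le_of_lt hy), sub_zero]
  have hb : ∀ k, ContDiff ℝ 2 fun x => a x * η k x := fun k => ha.mul (ηc k)
  have key : ∀ k, ∫ x, w x * (Δ fun y => a y * η k y) x = ∫ x, (Δ w) x * (a x * η k x) :=
    fun k => green_smooth hw (hb k) (ηs k).mul_left
  have L1 : Tendsto (fun k => ∫ x, (Δ w) x * (a x * η k x)) atTop (𝓝 (∫ x, a x * (Δ w) x)) := by
    refine tendsto_integral_of_dominated_convergence (fun x => ‖a x * (Δ w) x‖)
      (fun k => ((continuous_lap hw).mul (hb k).continuous).aestronglyMeasurable) h3.norm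
      (fun k => Eventually.of_forall fun x => ?_) (Eventually.of_forall fun x => ?_)
    · have e : (Δ w) x * (a x * η k x) = (a x * (Δ w) x) * η k x := by ring
      rw [e, norm_mul]
      exact mul_le_of_le_one_right (norm_nonneg _) (ηb k x)
    · refine tendsto_const_nhds.congr' ?_
      filter_upwards [ηe x] with k hk
      rw [hk.eq_of_nhds]
      ring
  have L2 : Tendsto (fun k => ∫ x, w x * (Δ fun y => a y * η k y) x) atTop
      (𝓝 (∫ x, (Δ a) x * w x)) := by
    refine tendsto_integral_of_dominated_convergence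
      (fun x => ‖(Δ a) x * w x‖ + 2 * ∑ i, C * ‖pdv i a x * w x‖ + n * C * ‖a x * w x‖)
      (fun k => (hw.continuous.mul (continuous_lap (hb k))).aestronglyMeasurable)
      ((h2.norm.add ((integrable_finsetSum _ fun i _ => (h1 i).norm.const_mul C).const_mul 2)).add
        (h0.norm.const_mul _))
      (fun k => Eventually.of_forall fun x => ?_) (Eventually.of_forall fun x => ?_)
    · rw [lap_mul ha (ηc k)]
      have e : w x * ((Δ a) x * η k x + 2 * ∑ i, pdv i a x * pdv i (η k) x + a x * (Δ (η k)) x)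
          = ((Δ a) x * w x) * η k x + 2 * ∑ i, (pdv i a x * w x) * pdv i (η k) x
            + (a x * w x) * (Δ (η k)) x := by
        have : ∑ i, (pdv i a x * w x) * pdv i (η k) x = w x * ∑ i, pdv i a x * pdv i (η k) x := by
          rw [Finset.mul_sum]
          exact Finset.sum_congr rfl fun i _ => by ring
        rw [this]
        ring
      rw [e]
      refine (norm_add_le _ _).trans (add_le_add ((norm_add_le _ _).trans (add_le_add ?_ ?_)) ?_)
      · rw [norm_mul]
        exact mul_le_of_le_one_right (norm_nonneg _) (ηb k x)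
      · rw [norm_mul, Real.norm_ofNat]
        refine mul_le_mul_of_nonneg_left ((norm_sum_le _ _).trans (Finset.sum_le_sum fun i _ => ?_))
          (by norm_num)
        rw [norm_mul, mul_comm]
        exact mul_le_mul_of_nonneg_right (ηp1 k i x) (norm_nonneg _)
      · rw [norm_mul, mul_comm]
        exact mul_le_mul_of_nonneg_right (ηp2 k x) (norm_nonneg _)
    · refine tendsto_const_nhds.congr' ?_
      filter_upwards [ηe x] with k hk
      have : (fun y => a y * η k y) =ᶠ[𝓝 x] a := by
        filter_upwards [hk] with y hy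
        rw [hy, mul_one]
      rw [lap_congr_at this]
      ring
  simp_rw [key] at L2
  exact tendsto_nhds_unique L1 L2

/-- exponential growth -/
def Gr (a M : ℝ) (f : EE n → ℝ) : Prop := ∀ z, |f z| ≤ M * Real.exp (a * ‖z‖)

theorem Gr.nonneg {a M : ℝ} {f : EE n → ℝ} (h : Gr a M f) : 0 ≤ M := by
  have := (abs_nonneg _).trans (h 0)
  simpa using this

theorem gr_of_bdd {M : ℝ} {f : EE n → ℝ} (h : ∀ z, |f z| ≤ M) : Gr 0 M f := fun z => by
  simpa using h z

theorem Gr.mono {a b M : ℝ} {f : EE n → ℝ} (h : Gr a M f) (hab : a ≤ b) : Gr b M f := fun z =>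
  (h z).trans (mul_le_mul_of_nonneg_left
    (Real.exp_le_exp.2 (mul_le_mul_of_nonneg_right hab (norm_nonneg _))) h.nonneg)

theorem Gr.mul {a b M N : ℝ} {f g : EE n → ℝ} (h : Gr a M f) (h' : Gr b N g) :
    Gr (a + b) (M * N) fun z => f z * g z := fun z => by
  rw [abs_mul, add_mul, Real.exp_add]
  calc _ ≤ (M * Real.exp (a * ‖z‖)) * (N * Real.exp (b * ‖z‖)) :=
        mul_le_mul (h z) (h' z) (abs_nonneg _) ((abs_nonneg _).trans (h z))
    _ = _ := by ring

theorem Gr.add {a M N : ℝ} {f g : EE n → ℝ} (h : Gr a M f) (h' : Gr a N g) :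
    Gr a (M + N) fun z => f z + g z := fun z => by
  rw [add_mul]
  exact (abs_add_le _ _).trans (add_le_add (h z) (h' z))

theorem Gr.const_mul {a M : ℝ} {f : EE n → ℝ} (h : Gr a M f) (c : ℝ) :
    Gr a (|c| * M) fun z => c * f z := fun z => by
  rw [abs_mul, mul_assoc]
  exact mul_le_mul_of_nonneg_left (h z) (abs_nonneg _)

theorem Gr.shift {a M : ℝ} {f : EE n → ℝ} (h : Gr a M f) (ha : 0 ≤ a) (x : EE n) :
    Gr a (M * Real.exp (a * ‖x‖)) fun z => f (x + z) := fun z => by
  refine (h _).trans ?_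
  rw [mul_assoc, ← Real.exp_add, ← mul_add]
  exact mul_le_mul_of_nonneg_left
    (Real.exp_le_exp.2 (mul_le_mul_of_nonneg_left (norm_add_le _ _) ha)) h.nonneg

theorem gr_coord (i : Fin n) : Gr 1 1 fun z : EE n => z i := fun z => by
  have h1 : |z i| ≤ ‖z‖ := by simpa using PiLp.norm_apply_le z i
  have := Real.add_one_le_exp ‖z‖
  simp only [one_mul]
  linarith

theorem gr_lf (s : ℝ) : Gr 1 (2 * |1 / (4 * s ^ 2)| + |n / (2 * s)|) (lf s : EE n → ℝ) := fun z => by
  have h1 := Real.quadratic_le_exp_of_nonneg (norm_nonneg z)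
  have h0 := norm_nonneg z
  have h2 : ‖z‖ ^ 2 ≤ 2 * Real.exp ‖z‖ := by linarith
  have h3 : 1 ≤ Real.exp ‖z‖ := Real.one_le_exp h0
  unfold lf
  refine (abs_sub _ _).trans ?_
  rw [one_mul, add_mul, div_eq_mul_one_div (‖z‖ ^ 2), abs_mul, abs_of_nonneg (sq_nonneg _)]
  have := abs_nonneg (1 / (4 * s ^ 2))
  have := abs_nonneg ((n : ℝ) / (2 * s))
  nlinarith

theorem abs_hk_mul_le {s θ a M : ℝ} (hs : 0 < s) (hθ0 : 0 < θ) (hθ : θ < 1) {f : EE n → ℝ}
    (h : Gr a M f) (z : EE n) : |hk s z * f z| ≤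
      M * ((1 - θ) ^ (-(n / 2 : ℝ)) * Real.exp (a ^ 2 * s / θ)) * hk (s / (1 - θ)) z := by
  rw [abs_mul, abs_of_pos (hk_pos hs z)]
  calc _ ≤ hk s z * (M * Real.exp (a * ‖z‖)) := mul_le_mul_of_nonneg_left (h z) (hk_pos hs z).le
    _ = M * (hk s z * Real.exp (a * ‖z‖)) := by ring
    _ ≤ _ := by
      rw [mul_assoc M]
      exact mul_le_mul_of_nonneg_left (hk_mul_exp_le hs hθ0 hθ a z) h.nonneg

theorem integrable_hk_mul {s a M : ℝ} (hs : 0 < s) {f : EE n → ℝ}
    (hf : AEStronglyMeasurable f volume) (h : Gr a M f) : Integrable fun z => hk s z * f z := by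
  exact Integrable.mono' ((integrable_hk (s := s / (1 - 1 / 2)) (by positivity)).const_mul _)
    ((continuous_hk s).aestronglyMeasurable.mul hf) (Eventually.of_forall fun z =>
      abs_hk_mul_le hs (θ := 1 / 2) (by norm_num) (by norm_num) h z)

theorem integral_abs_hk_mul_le {s θ a M : ℝ} (hs : 0 < s) (hθ0 : 0 < θ) (hθ : θ < 1)
    {f : EE n → ℝ} (h : Gr a M f) :
    ∫ z, |hk s z * f z| ≤ M * ((1 - θ) ^ (-(n / 2 : ℝ)) * Real.exp (a ^ 2 * s / θ)) := by
  have h1 : 0 < s / (1 - θ) := div_pos hs (by linarith)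
  calc _ ≤ ∫ z : EE n, M * ((1 - θ) ^ (-(n / 2 : ℝ)) * Real.exp (a ^ 2 * s / θ)) *
        hk (s / (1 - θ)) z :=
        integral_mono_of_nonneg (Eventually.of_forall fun z => abs_nonneg _)
          ((integrable_hk h1).const_mul _) (Eventually.of_forall (abs_hk_mul_le hs hθ0 hθ h))
    _ = _ := by rw [integral_const_mul, integral_hk h1, mul_one]

/-- the heat semigroup commutes with the Laplacian -/
theorem heat_green {s a M : ℝ} (hs : 0 < s) {w : EE n → ℝ} (hw : ContDiff ℝ 2 w)
    (h0 : Gr a M w) (h2 : Gr a M (Δ w)) :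
    ∫ z, hk s z * (Δ w) z = ∫ z, hk s z * (lf s z * w z) := by
  have mw := hw.continuous.aestronglyMeasurable (μ := volume)
  have clf : Continuous (lf s : EE n → ℝ) := by unfold lf; fun_prop
  have I2 : Integrable fun z => hk s z * (lf s z * w z) :=
    integrable_hk_mul hs (clf.aestronglyMeasurable.mul mw) ((gr_lf s).mul h0)
  rw [green_int (contDiff_hk s (m := 2)) hw (integrable_hk_mul hs mw h0) ?_ ?_
    (integrable_hk_mul hs (continuous_lap hw).aestronglyMeasurable h2)]
  · congr 1
    funext z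
    rw [lap_hk]
    ring
  · intro i
    have := integrable_hk_mul hs
      ((((differentiable_coord i).continuous.mul hw.continuous).aestronglyMeasurable).const_mul
        (-(2 * s)⁻¹)) (((gr_coord i).mul h0).const_mul (-(2 * s)⁻¹))
    refine this.congr (Eventually.of_forall fun z => ?_)
    simp only [pdv_hk, Pi.mul_apply]
    ring
  · refine I2.congr (Eventually.of_forall fun z => ?_)
    simp only [lap_hk]
    ring

theorem hk_le_hk {s₁ t s₂ : ℝ} (h1 : 0 < s₁) (h2 : s₁ ≤ t) (h3 : t ≤ s₂) (z : EE n) :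
    hk t z ≤ (s₁ / s₂) ^ (-(n / 2 : ℝ)) * hk s₂ z := by
  have hp := Real.pi_pos
  have ht : 0 < t := lt_of_lt_of_le h1 h2
  have hs : 0 < s₂ := lt_of_lt_of_le ht h3
  unfold hk
  rw [← mul_assoc, ← Real.mul_rpow (by positivity) (by positivity),
    show s₁ / s₂ * (4 * Real.pi * s₂) = 4 * Real.pi * s₁ by field_simp]
  refine mul_le_mul (Real.rpow_le_rpow_of_nonpos (by positivity) (by nlinarith) ?_)
    (Real.exp_le_exp.2 ?_) (by positivity) (by positivity)
  · have : (0 : ℝ) ≤ n := Nat.cast_nonneg n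
    linarith
  · rw [neg_div, neg_div, neg_le_neg_iff]
    exact div_le_div_of_nonneg_left (sq_nonneg _) (by positivity) (by linarith)

theorem hasDerivAt_heat {s a M : ℝ} (hs : 0 < s) {w : EE n → ℝ} (hw : Continuous w)
    (h0 : Gr a M w) :
    HasDerivAt (fun t => ∫ z, hk t z * w z) (∫ z, hk s z * (lf s z * w z)) s := by
  have mw := hw.aestronglyMeasurable (μ := volume)
  have clf : Continuous (lf s : EE n → ℝ) := by unfold lf; fun_prop
  set q : EE n → ℝ := fun z => ‖z‖ ^ 2 / (4 * (s / 2) ^ 2) + n / (2 * (s / 2)) with hq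
  have cq : Continuous q := by simp only [hq]; fun_prop
  have gq : Gr 1 (2 * |1 / (4 * (s / 2) ^ 2)| + |n / (2 * (s / 2))| + |2 * (n / (2 * (s / 2)))| * 1)
      q := by
    have h1 : Gr 1 1 fun _ : EE n => (1 : ℝ) :=
      (gr_of_bdd (M := 1) fun _ => by simp).mono zero_le_one
    have := (gr_lf (n := n) (s / 2)).add (h1.const_mul (2 * (n / (2 * (s / 2)))))
    intro z
    have e : q z = lf (s / 2) z + 2 * (n / (2 * (s / 2))) * 1 := by simp only [hq, lf]; ring
    rw [e]
    exact this z
  refine (hasDerivAt_integral_of_dominated_loc_of_deriv_le (s := Icc (s / 2) (2 * s))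
    (F := fun t z => hk t z * w z) (F' := fun t z => hk t z * (lf t z * w z))
    (bound := fun z => (s / 2 / (2 * s)) ^ (-(n / 2 : ℝ)) * ‖hk (2 * s) z * (q z * w z)‖)
    (Icc_mem_nhds (by linarith) (by linarith))
    (Eventually.of_forall fun t => (continuous_hk t).aestronglyMeasurable.mul mw)
    (integrable_hk_mul hs mw h0)
    ((continuous_hk s).aestronglyMeasurable.mul (clf.aestronglyMeasurable.mul mw))
    (Eventually.of_forall fun z t ht => ?_)
    ((integrable_hk_mul (by linarith) (cq.aestronglyMeasurable.mul mw) (gq.mul h0)).norm.const_mul _)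
    (Eventually.of_forall fun z t ht => ?_)).2
  · have ht0 : 0 < t := by linarith [ht.1]
    have h1 := hk_le_hk (by linarith : 0 < s / 2) ht.1 ht.2 z
    have h2 : |lf t z| ≤ q z := by
      unfold lf
      refine (abs_sub _ _).trans (add_le_add ?_ ?_)
      · rw [abs_of_nonneg (by positivity)]
        refine div_le_div_of_nonneg_left (sq_nonneg _) (by positivity) ?_
        nlinarith [ht.1]
      · rw [abs_of_nonneg (by positivity)]
        exact div_le_div_of_nonneg_left (Nat.cast_nonneg _) (by positivity) (by linarith [ht.1])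
    have hq0 : 0 ≤ q z := (abs_nonneg _).trans h2
    simp only [norm_mul, Real.norm_eq_abs]
    rw [abs_of_pos (hk_pos ht0 z), abs_of_pos (hk_pos (by linarith) z), abs_of_nonneg hq0,
      ← mul_assoc ((s / 2 / (2 * s)) ^ _)]
    exact mul_le_mul h1 (mul_le_mul_of_nonneg_right h2 (abs_nonneg _)) (by positivity)
      ((hk_pos ht0 z).le.trans h1)
  · have ht0 : 0 < t := by linarith [ht.1]
    refine ((hasDerivAt_hk ht0 z).mul_const (w z)).congr_deriv ?_
    ring

/-- the semigroup in scaled form is continuous at time `0` -/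
theorem continuousWithinAt_heat {a M : ℝ} (ha : 0 ≤ a) {w : EE n → ℝ} (hw : Continuous w)
    (h0 : Gr a M w) : ContinuousWithinAt (fun s : ℝ => ∫ y, hk 1 y * w (√s • y)) (Ici 0) 0 := by
  have g1 : Gr a M fun y : EE n => M * Real.exp (a * ‖y‖) := fun y => by
    rw [abs_of_nonneg (mul_nonneg h0.nonneg (Real.exp_pos _).le)]
  refine continuousWithinAt_of_dominated (bound := fun y => hk 1 y * (M * Real.exp (a * ‖y‖)))
    (Eventually.of_forall fun s => ((continuous_hk 1).mul
      (hw.comp (continuous_const_smul _))).aestronglyMeasurable) ?_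
    (integrable_hk_mul one_pos (by fun_prop) g1) (Eventually.of_forall fun y => ?_)
  · have : Iio (1 : ℝ) ∈ 𝓝[Ici 0] 0 := mem_nhdsWithin_of_mem_nhds (Iio_mem_nhds one_pos)
    filter_upwards [this] with s hs
    refine Eventually.of_forall fun y => ?_
    rw [norm_mul, Real.norm_eq_abs, abs_of_pos (hk_pos one_pos y)]
    refine mul_le_mul_of_nonneg_left ((h0 _).trans (mul_le_mul_of_nonneg_left
      (Real.exp_le_exp.2 (mul_le_mul_of_nonneg_left ?_ ha)) h0.nonneg)) (hk_pos one_pos y).le
    rw [norm_smul, Real.norm_eq_abs, abs_of_nonneg (Real.sqrt_nonneg _)]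
    exact mul_le_of_le_one_left (norm_nonneg _) (Real.sqrt_le_one.2 (le_of_lt hs))
  · refine Continuous.continuousWithinAt ?_
    fun_prop

end

end Crest.Agent.N067.Ker
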