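import Crest.Agent.N067.A.Ker3

/-!
Row 67, basics (helper2): the resolvent `res μ f = (μ - Δ)⁻¹ f` of a bounded measurable function is
`C¹`, with gradient given by the integrable kernel `G1 μ z • z`.
-/

set_option autoImplicit false

open MeasureTheory Laplacian InnerProductSpace Topology Filter Set
open scoped RealInnerProductSpace ContDiff

namespace Crest.Agent.N067.Ker

open Crest.Agent.R077

noncomputable section

variable {n : ℕ}

/-- convolution in the form `∫ g z f (x + z) dz` -/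
def cv (g f : EE n → ℝ) (x : EE n) : ℝ := ∫ z, g z * f (x + z)

/-- the resolvent `(μ - Δ)⁻¹ f` -/
def res (μ : ℝ) (f : EE n → ℝ) : EE n → ℝ := cv (Gk μ) f

/-- radial part of the gradient of the kernel: `∇ Gk μ z = - G1 μ z • z` -/
def G1 (μ : ℝ) (z : EE n) : ℝ := ∫ s in Ioi (0 : ℝ), Real.exp (-μ * s) * (hk s z / (2 * s))

theorem cv_eq (g f : EE n → ℝ) (x : EE n) : cv g f x = ∫ y, g (y - x) * f y := integral_shift g f x

theorem res_eq (μ : ℝ) (f : EE n → ℝ) (x : EE n) : res μ f x = ∫ y, Gk μ (x - y) * f y := by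
  rw [res, cv_eq]
  simp_rw [Gk_sub_comm μ x]

theorem rep_res {μ a M : ℝ} (hμ : 0 < μ) (ha0 : 0 ≤ a) (ha : a ^ 2 < μ) {w : EE n → ℝ}
    (hw : ContDiff ℝ 2 w) (h0 : Gr a M w) (h2 : Gr a M (Δ w)) :
    w = res μ fun y => μ * w y - (Δ w) y := funext fun x => rep hμ ha0 ha hw h0 h2 x

theorem aesm_shift {f : EE n → ℝ} (hf : AEStronglyMeasurable f volume) (x : EE n) :
    AEStronglyMeasurable (fun z => f (x + z)) volume :=
  hf.comp_measurePreserving (measurePreserving_add_left volume x)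

theorem G1_nonneg (μ : ℝ) (z : EE n) : 0 ≤ G1 μ z :=
  setIntegral_nonneg measurableSet_Ioi fun _ hs =>
    mul_nonneg (Real.exp_pos _).le (div_nonneg (hk_pos hs z).le (by linarith [mem_Ioi.1 hs]))

theorem measurable_e1 (μ : ℝ) :
    Measurable fun p : ℝ × EE n => Real.exp (-μ * p.1) * (hk p.1 p.2 / (2 * p.1)) :=
  (by fun_prop : Measurable fun p : ℝ × EE n => Real.exp (-μ * p.1)).mul
    (measurable_hk.div (by fun_prop))

theorem measurable_G1 (μ : ℝ) : Measurable (G1 μ : EE n → ℝ) :=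
  ((measurable_e1 μ).stronglyMeasurable.integral_prod_left'
    (μ := volume.restrict (Ioi (0 : ℝ)))).measurable

/-- the constant in `|∇ P_s f| ≤ cD s^{-1/2} sup |f|` -/
def cD (n : ℕ) : ℝ := (1 - 1 / 2 : ℝ) ^ (-(n / 2 : ℝ))

theorem cD_pos : 0 < cD n := Real.rpow_pos_of_pos (by norm_num) _

theorem hk_div_norm_le {s : ℝ} (hs : 0 < s) (z : EE n) :
    hk s z / (2 * s) * ‖z‖ ≤ cD n * s ^ (-(1 / 2 : ℝ)) * hk (2 * s) z := by
  have h := norm_mul_hk_le hs (θ := 1 / 2) (by norm_num) (by norm_num) z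
  rw [show s / (1 - 1 / 2) = 2 * s by ring, show s / (1 / 2) = 2 * s by ring] at h
  have hq : 0 < √s := Real.sqrt_pos.2 hs
  have h1 : √(2 * s) ≤ 2 * √s := by
    rw [Real.sqrt_le_left (by positivity), mul_pow, Real.sq_sqrt hs.le]
    linarith
  have h2 : s ^ (-(1 / 2 : ℝ)) = √s / s := by
    rw [Real.rpow_neg hs.le, ← Real.sqrt_eq_rpow, Real.sqrt_div_self']
    simp
  have h3 := hk_pos (by linarith : 0 < 2 * s) z
  have h4 := cD_pos (n := n)
  rw [h2, div_mul_eq_mul_div, div_le_iff₀ (by linarith), mul_comm]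
  refine h.trans ?_
  change √(2 * s) * cD n * hk (2 * s) z ≤ _
  calc _ ≤ 2 * √s * cD n * hk (2 * s) z := by gcongr
    _ = _ := by field_simp

/-- gradient of the heat semigroup -/
def hD (s : ℝ) (f : EE n → ℝ) (x : EE n) : EE n →L[ℝ] ℝ :=
  ∫ z, (hk s z / (2 * s) * f (x + z)) • innerSL ℝ z

theorem norm_hD_int_le {s M : ℝ} (hs : 0 < s) {f : EE n → ℝ} (h : ∀ z, |f z| ≤ M) (x z : EE n) :
    ‖(hk s z / (2 * s) * f x) • innerSL ℝ z‖ ≤ M * (cD n * s ^ (-(1 / 2 : ℝ))) * hk (2 * s) z := by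
  have h0 : 0 ≤ hk s z / (2 * s) := div_nonneg (hk_pos hs z).le (by linarith)
  rw [norm_smul, innerSL_apply_norm, norm_mul, Real.norm_eq_abs, abs_of_nonneg h0,
    Real.norm_eq_abs]
  calc _ = |f x| * (hk s z / (2 * s) * ‖z‖) := by ring
    _ ≤ M * (cD n * s ^ (-(1 / 2 : ℝ)) * hk (2 * s) z) :=
      mul_le_mul (h x) (hk_div_norm_le hs z) (by positivity) ((abs_nonneg _).trans (h x))
    _ = _ := by ring

theorem norm_hD_le {s M : ℝ} (hs : 0 < s) {f : EE n → ℝ} (h : ∀ z, |f z| ≤ M) (x : EE n) :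
    ‖hD s f x‖ ≤ M * (cD n * s ^ (-(1 / 2 : ℝ))) := by
  have h2 : 0 < 2 * s := by linarith
  refine (norm_integral_le_of_norm_le ((integrable_hk h2).const_mul _)
    (Eventually.of_forall fun z => norm_hD_int_le hs h (x + z) z)).trans (le_of_eq ?_)
  rw [integral_const_mul, integral_hk h2, mul_one]

theorem hD_eq (s : ℝ) (f : EE n → ℝ) (x : EE n) :
    hD s f x = ∫ y, (hk s (y - x) / (2 * s) * f y) • innerSL ℝ (y - x) := by
  rw [hD, ← integral_add_left_eq_self
    (fun y => (hk s (y - x) / (2 * s) * f y) • innerSL ℝ (y - x)) x]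
  simp

theorem hk_shift_le {s : ℝ} (hs : 0 < s) {x x₀ : EE n} (hx : x ∈ Metric.ball x₀ 1) (y : EE n) :
    hk s (y - x) ≤ Real.exp (1 / (4 * s)) * cD n * hk (2 * s) (y - x₀) := by
  have h := hk_mul_exp hs (θ := 1 / 2) (by norm_num) (y - x₀)
  rw [show s / (1 - 1 / 2) = 2 * s by ring] at h
  rw [mul_assoc, cD, ← h]
  unfold hk
  rw [mul_assoc ((4 * Real.pi * s) ^ _), ← Real.exp_add, mul_left_comm (Real.exp _),
    ← Real.exp_add]
  have hp := Real.pi_pos
  refine mul_le_mul_of_nonneg_left (Real.exp_le_exp.2 ?_) (by positivity)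
  have h1 : ‖y - x₀‖ ≤ ‖y - x‖ + 1 := by
    have := norm_add_le (y - x) (x - x₀)
    rw [sub_add_sub_cancel] at this
    have h2 : ‖x - x₀‖ < 1 := by simpa [dist_eq_norm] using hx
    linarith
  have h2 : ‖y - x₀‖ ^ 2 ≤ 2 * ‖y - x‖ ^ 2 + 2 := by
    nlinarith [norm_nonneg (y - x₀), norm_nonneg (y - x), sq_nonneg (‖y - x‖ - 1)]
  rw [← add_div, ← add_div]
  exact div_le_div_of_nonneg_right (by linarith) (by linarith)

theorem hD_aux {s M : ℝ} (hs : 0 < s) {f : EE n → ℝ} (h : ∀ z, |f z| ≤ M) {x x₀ : EE n}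
    (hx : x ∈ Metric.ball x₀ 1) (y : EE n) :
    ‖(hk s (y - x) / (2 * s) * f y) • innerSL ℝ (y - x)‖ ≤
      M * (cD n * s ^ (-(1 / 2 : ℝ))) * (Real.exp (1 / (4 * (2 * s))) * cD n) *
        hk (2 * (2 * s)) (y - x₀) := by
  refine (norm_hD_int_le hs h y (y - x)).trans ?_
  rw [mul_assoc (M * _)]
  have := cD_pos (n := n)
  have := (abs_nonneg _).trans (h y)
  exact mul_le_mul_of_nonneg_left (hk_shift_le (by linarith) hx y) (by positivity)

theorem aesm_hD {f : EE n → ℝ} (hf : AEStronglyMeasurable f volume) (s : ℝ) (x : EE n) :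
    AEStronglyMeasurable (fun y => (hk s (y - x) / (2 * s) * f y) • innerSL ℝ (y - x)) volume := by
  have := continuous_hk (n := n) s
  exact ((by fun_prop : Continuous fun y : EE n => hk s (y - x) / (2 * s)).aestronglyMeasurable.mul
    hf).smul (by fun_prop : Continuous fun y : EE n => innerSL ℝ (y - x)).aestronglyMeasurable

theorem hasFDerivAt_heatP {s M : ℝ} (hs : 0 < s) {f : EE n → ℝ}
    (hf : AEStronglyMeasurable f volume) (h : ∀ z, |f z| ≤ M) (x₀ : EE n) :
    HasFDerivAt (cv (hk s) f) (hD s f x₀) x₀ := by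
  have hc := continuous_hk (n := n) s
  rw [show cv (hk s) f = fun x => ∫ y, hk s (y - x) * f y from funext (cv_eq _ _), hD_eq]
  refine hasFDerivAt_integral_of_dominated_of_fderiv_le (s := Metric.ball x₀ 1)
    (F := fun x y => hk s (y - x) * f y)
    (F' := fun x y => (hk s (y - x) / (2 * s) * f y) • innerSL ℝ (y - x))
    (Metric.ball_mem_nhds _ one_pos)
    (Eventually.of_forall fun x =>
      (by fun_prop : Continuous fun y : EE n => hk s (y - x)).aestronglyMeasurable.mul hf) ?_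
    (aesm_hD hf s x₀) (Eventually.of_forall fun y x hx => hD_aux hs h hx y)
    (((integrable_hk (by linarith)).comp_sub_right x₀).const_mul _)
    (Eventually.of_forall fun y x _ => ?_)
  · exact ((integrable_hk hs).comp_sub_right x₀).mul_bdd hf (Eventually.of_forall h)
  · have h1 := ((hasFDerivAt_hk (s := s) (y - x)).comp x
      ((hasFDerivAt_id x).const_sub y)).mul_const (f y)
    refine h1.congr_fderiv ?_
    ext v
    simp only [smul_apply, ContinuousLinearMap.comp_apply, neg_apply, ContinuousLinearMap.id_apply,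
      map_neg, smul_eq_mul]
    ring

theorem continuous_hD {s M : ℝ} (hs : 0 < s) {f : EE n → ℝ}
    (hf : AEStronglyMeasurable f volume) (h : ∀ z, |f z| ≤ M) : Continuous (hD s f) := by
  have hc := continuous_hk (n := n) s
  rw [show hD s f = _ from funext (hD_eq s f)]
  refine continuous_iff_continuousAt.2 fun x₀ => continuousAt_of_dominated
    (Eventually.of_forall fun x => aesm_hD hf s x) ?_
    (((integrable_hk (s := 2 * (2 * s)) (by linarith)).comp_sub_right x₀).const_mul
      (M * (cD n * s ^ (-(1 / 2 : ℝ))) * (Real.exp (1 / (4 * (2 * s))) * cD n)))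
    (Eventually.of_forall fun y => ?_)
  · filter_upwards [Metric.ball_mem_nhds x₀ one_pos] with x hx
    exact Eventually.of_forall fun y => hD_aux hs h hx y
  · fun_prop

theorem integrableOn_exp_rpow {μ : ℝ} (hμ : 0 < μ) :
    IntegrableOn (fun s : ℝ => Real.exp (-μ * s) * s ^ (-(1 / 2 : ℝ))) (Ioi 0) := by
  have := integrableOn_rpow_mul_exp_neg_mul_rpow (s := -(1 / 2 : ℝ)) (p := 1) (b := μ)
    (by norm_num) one_pos hμ
  simpa [mul_comm] using this

theorem integrable_prod_hD {μ M : ℝ} (hμ : 0 < μ) {f : EE n → ℝ}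
    (hf : AEStronglyMeasurable f volume) (h : ∀ z, |f z| ≤ M) :
    Integrable (fun p : ℝ × EE n =>
      (Real.exp (-μ * p.1) * (hk p.1 p.2 / (2 * p.1)) * f p.2) • innerSL ℝ p.2)
      ((volume.restrict (Ioi (0 : ℝ))).prod volume) := by
  have hm : AEStronglyMeasurable (fun p : ℝ × EE n =>
      (Real.exp (-μ * p.1) * (hk p.1 p.2 / (2 * p.1)) * f p.2) • innerSL ℝ p.2)
      ((volume.restrict (Ioi (0 : ℝ))).prod volume) :=
    ((measurable_e1 μ).aestronglyMeasurable.mul hf.comp_snd).smul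
      (by fun_prop : Continuous fun p : ℝ × EE n => innerSL ℝ p.2).aestronglyMeasurable
  have hb : ∀ s, 0 < s → ∀ z : EE n,
      ‖(Real.exp (-μ * s) * (hk s z / (2 * s)) * f z) • innerSL ℝ z‖ ≤
        M * cD n * (Real.exp (-μ * s) * s ^ (-(1 / 2 : ℝ))) * hk (2 * s) z := fun s hs z => by
    rw [mul_assoc, mul_smul, norm_smul, Real.norm_eq_abs, abs_of_pos (Real.exp_pos _)]
    refine (mul_le_mul_of_nonneg_left (norm_hD_int_le hs h z z) (Real.exp_pos _).le).trans
      (le_of_eq ?_)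
    ring
  rw [integrable_prod_iff hm]
  constructor
  · filter_upwards [ae_restrict_mem measurableSet_Ioi, hm.prodMk_left] with s hs hs'
    exact Integrable.mono' ((integrable_hk (by linarith [mem_Ioi.1 hs])).const_mul _) hs'
      (Eventually.of_forall (hb s hs))
  · refine Integrable.mono' ((integrableOn_exp_rpow hμ).const_mul (M * cD n))
      hm.norm.integral_prod_right' ?_
    filter_upwards [ae_restrict_mem measurableSet_Ioi] with s hs
    have h2 : 0 < 2 * s := by linarith [mem_Ioi.1 hs]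
    refine (norm_integral_le_of_norm_le ((integrable_hk h2).const_mul
      (M * cD n * (Real.exp (-μ * s) * s ^ (-(1 / 2 : ℝ)))))
      (Eventually.of_forall fun z => ?_)).trans (le_of_eq ?_)
    · rw [norm_norm]
      exact hb s hs z
    · rw [integral_const_mul, integral_hk h2, mul_one]

theorem G1_smul_eq (μ : ℝ) (f : EE n → ℝ) (z : EE n) : (G1 μ z * f z) • innerSL ℝ z =
    ∫ s in Ioi (0 : ℝ), (Real.exp (-μ * s) * (hk s z / (2 * s)) * f z) • innerSL ℝ z := by
  rw [integral_smul_const, integral_mul_const, G1]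

theorem integrable_G1_smul {μ M : ℝ} (hμ : 0 < μ) {f : EE n → ℝ}
    (hf : AEStronglyMeasurable f volume) (h : ∀ z, |f z| ≤ M) :
    Integrable fun z => (G1 μ z * f z) • innerSL ℝ z := by
  simp_rw [G1_smul_eq]
  exact (integrable_prod_hD hμ hf h).integral_prod_right

theorem integrable_G1_norm {μ : ℝ} (hμ : 0 < μ) : Integrable fun z : EE n => G1 μ z * ‖z‖ := by
  have := (integrable_G1_smul (n := n) hμ (f := fun _ => 1) (M := 1) aestronglyMeasurable_const
    fun _ => by simp).norm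
  refine this.congr (Eventually.of_forall fun z => ?_)
  simp only [mul_one, norm_smul, innerSL_apply_norm, Real.norm_eq_abs,
    abs_of_nonneg (G1_nonneg μ z)]

theorem integrable_G1_coord {μ : ℝ} (hμ : 0 < μ) (i : Fin n) :
    Integrable fun z : EE n => G1 μ z * z i := by
  refine Integrable.mono' (integrable_G1_norm hμ)
    ((measurable_G1 μ).aestronglyMeasurable.mul
      (differentiable_coord i).continuous.aestronglyMeasurable) (Eventually.of_forall fun z => ?_)
  rw [norm_mul, Real.norm_eq_abs, abs_of_nonneg (G1_nonneg μ z)]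
  exact mul_le_mul_of_nonneg_left (PiLp.norm_apply_le z i) (G1_nonneg μ z)

/-- gradient of the resolvent -/
def resD (μ : ℝ) (f : EE n → ℝ) (x : EE n) : EE n →L[ℝ] ℝ :=
  ∫ z, (G1 μ z * f (x + z)) • innerSL ℝ z

theorem resD_eq {μ M : ℝ} (hμ : 0 < μ) {f : EE n → ℝ}
    (hf : AEStronglyMeasurable f volume) (h : ∀ z, |f z| ≤ M) (x : EE n) :
    resD μ f x = ∫ s in Ioi (0 : ℝ), Real.exp (-μ * s) • hD s f x := by
  unfold resD
  simp_rw [G1_smul_eq μ (fun z => f (x + z))]
  rw [← integral_integral_swap (f := fun s z =>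
    (Real.exp (-μ * s) * (hk s z / (2 * s)) * f (x + z)) • innerSL ℝ z)
    (integrable_prod_hD hμ (aesm_shift hf x) fun z => h (x + z))]
  simp_rw [mul_assoc, mul_smul (Real.exp _), integral_smul, hD]

theorem aesm_e_hD {μ M : ℝ} (hμ : 0 < μ) {f : EE n → ℝ}
    (hf : AEStronglyMeasurable f volume) (h : ∀ z, |f z| ≤ M) (x : EE n) :
    AEStronglyMeasurable (fun s => Real.exp (-μ * s) • hD s f x) (volume.restrict (Ioi 0)) := by
  have := (integrable_prod_hD hμ (aesm_shift hf x) fun z => h (x + z)).integral_prod_left.1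
  simp_rw [mul_assoc, mul_smul (Real.exp _), integral_smul] at this
  exact this

theorem norm_e_hD_le {μ M : ℝ} {f : EE n → ℝ} (h : ∀ z, |f z| ≤ M) {s : ℝ} (hs : 0 < s)
    (x : EE n) : ‖Real.exp (-μ * s) • hD s f x‖ ≤
      M * cD n * (Real.exp (-μ * s) * s ^ (-(1 / 2 : ℝ))) := by
  rw [norm_smul, Real.norm_eq_abs, abs_of_pos (Real.exp_pos _)]
  refine (mul_le_mul_of_nonneg_left (norm_hD_le hs h x) (Real.exp_pos _).le).trans (le_of_eq ?_)
  ring

theorem res_eq_heat {μ M : ℝ} (hμ : 0 < μ) {f : EE n → ℝ}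
    (hf : AEStronglyMeasurable f volume) (h : ∀ z, |f z| ≤ M) (x : EE n) :
    res μ f x = ∫ s in Ioi (0 : ℝ), Real.exp (-μ * s) * cv (hk s) f x :=
  integral_Gk_mul hμ (a := 0) (by simpa using hμ) (aesm_shift hf x) (gr_of_bdd fun z => h (x + z))

theorem hasFDerivAt_res {μ M : ℝ} (hμ : 0 < μ) {f : EE n → ℝ}
    (hf : AEStronglyMeasurable f volume) (h : ∀ z, |f z| ≤ M) (x₀ : EE n) :
    HasFDerivAt (res μ f) (resD μ f x₀) x₀ := by
  rw [show res μ f = _ from funext (res_eq_heat hμ hf h), resD_eq hμ hf h]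
  have hI : ∀ x, Integrable (fun s => Real.exp (-μ * s) * cv (hk s) f x)
      (volume.restrict (Ioi 0)) := fun x => by
    have := (integrable_prod_hk hμ (a := 0) (by simpa using hμ) (aesm_shift hf x)
      (gr_of_bdd fun z => h (x + z))).integral_prod_left
    simp_rw [mul_assoc, integral_const_mul] at this
    exact this
  refine hasFDerivAt_integral_of_dominated_of_fderiv_le (s := univ)
    (F := fun x s => Real.exp (-μ * s) * cv (hk s) f x)
    (F' := fun x s => Real.exp (-μ * s) • hD s f x) univ_mem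
    (Eventually.of_forall fun x => (hI x).1) (hI x₀) (aesm_e_hD hμ hf h x₀) ?_
    ((integrableOn_exp_rpow hμ).const_mul (M * cD n)) ?_
  · filter_upwards [ae_restrict_mem measurableSet_Ioi] with s hs x _
    exact norm_e_hD_le h hs x
  · filter_upwards [ae_restrict_mem measurableSet_Ioi] with s hs x _
    exact (hasFDerivAt_heatP hs hf h x).const_mul _

theorem continuous_resD {μ M : ℝ} (hμ : 0 < μ) {f : EE n → ℝ}
    (hf : AEStronglyMeasurable f volume) (h : ∀ z, |f z| ≤ M) : Continuous (resD μ f) := by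
  rw [show resD μ f = _ from funext (resD_eq hμ hf h)]
  refine continuous_of_dominated (aesm_e_hD hμ hf h) (fun x => ?_)
    ((integrableOn_exp_rpow hμ).const_mul (M * cD n)) ?_
  · filter_upwards [ae_restrict_mem measurableSet_Ioi] with s hs
    exact norm_e_hD_le h hs x
  · filter_upwards [ae_restrict_mem measurableSet_Ioi] with s hs
    exact (continuous_hD hs hf h).const_smul (Real.exp (-μ * s))

/-- the resolvent of a bounded measurable function is `C¹` -/
theorem contDiff_one_res {μ M : ℝ} (hμ : 0 < μ) {f : EE n → ℝ}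
    (hf : AEStronglyMeasurable f volume) (h : ∀ z, |f z| ≤ M) : ContDiff ℝ 1 (res μ f) := by
  rw [contDiff_one_iff_fderiv]
  refine ⟨fun x => (hasFDerivAt_res hμ hf h x).differentiableAt, ?_⟩
  rw [show fderiv ℝ (res μ f) = _ from funext fun x => (hasFDerivAt_res hμ hf h x).fderiv]
  exact continuous_resD hμ hf h

theorem pdv_res {μ M : ℝ} (hμ : 0 < μ) {f : EE n → ℝ}
    (hf : AEStronglyMeasurable f volume) (h : ∀ z, |f z| ≤ M) (i : Fin n) :
    pdv i (res μ f) = cv (fun z => G1 μ z * z i) f := by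
  funext x
  unfold pdv
  rw [(hasFDerivAt_res hμ hf h x).fderiv, resD, ContinuousLinearMap.integral_apply
    (integrable_G1_smul hμ (aesm_shift hf x) fun z => h (x + z)), cv]
  congr 1
  funext z
  simp [EuclideanSpace.inner_single_right]
  ring

end

end Crest.Agent.N067.Ker
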