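import Crest.Agent.N067.A.Ker5

/-!
Row 67, basics (helper2): pointwise facts on the kernel `Gk μ` away from the origin:
`√μ ≤ |∇ log G| ≤ √μ + (n - 2)/r`, monotonicity and two-sided bounds.
-/

set_option autoImplicit false

open MeasureTheory Laplacian InnerProductSpace Topology Filter Set
open scoped RealInnerProductSpace ContDiff

namespace Crest.Agent.N067.Ker

open Crest.Agent.R077

noncomputable section

variable {n : ℕ}

/-- bound of the heat kernel at distance `≥ δ` -/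
def cO (n : ℕ) (δ : ℝ) : ℝ := 1 + (n + 1).factorial * (4 / δ ^ 2) ^ (n + 1)

theorem hk_le_far {δ s : ℝ} (hδ : 0 < δ) (hs : 0 < s) {z : EE n} (hz : δ ≤ ‖z‖) :
    hk s z ≤ cO n δ ∧ hk s z ≤ cO n δ * s := by
  have hp := Real.pi_gt_three
  have h0 : (0 : ℝ) ≤ n := Nat.cast_nonneg n
  have hc : 0 ≤ ((n + 1).factorial : ℝ) * (4 / δ ^ 2) ^ (n + 1) := by positivity
  have hc1 : 1 ≤ cO n δ := by unfold cO; linarith
  rcases le_total s 1 with h | h
  · have h1 : (4 * Real.pi * s) ^ (-(n / 2 : ℝ)) ≤ (s ^ n)⁻¹ := by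
      rw [← Real.rpow_natCast, ← Real.rpow_neg hs.le]
      exact (Real.rpow_le_rpow_of_nonpos hs (by nlinarith) (by linarith)).trans
        (Real.rpow_le_rpow_of_exponent_ge hs h (by linarith))
    have h2 : Real.exp (-‖z‖ ^ 2 / (4 * s)) ≤ (n + 1).factorial * (4 / δ ^ 2) ^ (n + 1) * s ^ (n + 1) := by
      have hx : 0 < δ ^ 2 / (4 * s) := by positivity
      have h3 := Real.pow_div_factorial_le_exp _ hx.le (n + 1)
      have h4 : Real.exp (-‖z‖ ^ 2 / (4 * s)) ≤ (Real.exp (δ ^ 2 / (4 * s)))⁻¹ := by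
        rw [← Real.exp_neg, neg_div]
        exact Real.exp_le_exp.2 (neg_le_neg (by gcongr))
      refine h4.trans ((inv_anti₀ (by positivity) h3).trans (le_of_eq ?_))
      rw [mul_assoc, ← mul_pow, inv_div, div_eq_mul_inv, ← inv_pow]
      congr 2
      field_simp
    have h5 : hk s z ≤ cO n δ * s := by
      calc hk s z ≤ (s ^ n)⁻¹ * ((n + 1).factorial * (4 / δ ^ 2) ^ (n + 1) * s ^ (n + 1)) :=
            mul_le_mul h1 h2 (Real.exp_pos _).le (by positivity)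
        _ = (n + 1).factorial * (4 / δ ^ 2) ^ (n + 1) * s := by
            rw [pow_succ s]
            field_simp
        _ ≤ _ := by unfold cO; nlinarith
    exact ⟨h5.trans (mul_le_of_le_one_right (by linarith) h), h5⟩
  · have h1 : hk s z ≤ 1 := by
      refine mul_le_one₀ (Real.rpow_le_one_of_one_le_of_nonpos (by nlinarith) (by linarith))
        (Real.exp_pos _).le (Real.exp_le_one_iff.2 ?_)
      rw [neg_div]
      exact neg_nonpos.2 (by positivity)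
    exact ⟨h1.trans hc1, h1.trans (one_le_mul_of_one_le_of_one_le hc1 h)⟩

theorem integrableOn_mom {μ : ℝ} (hμ : 0 < μ) {z : EE n} (hz : z ≠ 0) (j : ℕ) :
    IntegrableOn (fun s => Real.exp (-μ * s) * hk s z * s ^ j) (Ioi 0) := by
  have h := integrableOn_rpow_mul_exp_neg_mul_rpow (s := j) (p := 1) (b := μ)
    (lt_of_lt_of_le neg_one_lt_zero (Nat.cast_nonneg j)) one_pos hμ
  refine Integrable.mono' (h.const_mul (cO n ‖z‖))
    ((((measurable_ehk μ).comp (measurable_id.prodMk measurable_const)).mul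
      (measurable_id.pow_const j)).aestronglyMeasurable) ?_
  filter_upwards [ae_restrict_mem measurableSet_Ioi] with s hs
  have hs' : 0 < s := hs
  have h1 := (hk_le_far (norm_pos_iff.2 hz) hs' le_rfl).1
  have := hk_pos hs' z
  rw [Real.norm_of_nonneg (by positivity), Real.rpow_natCast, Real.rpow_one]
  calc _ = hk s z * (s ^ j * Real.exp (-μ * s)) := by ring
    _ ≤ _ := by gcongr

theorem integrableOn_Gk {μ : ℝ} (hμ : 0 < μ) {z : EE n} (hz : z ≠ 0) :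
    IntegrableOn (fun s => Real.exp (-μ * s) * hk s z) (Ioi 0) := by
  simpa using integrableOn_mom hμ hz 0

theorem e1_le {μ δ s : ℝ} (hδ : 0 < δ) (hs : 0 < s) {z : EE n} (hz : δ ≤ ‖z‖) :
    Real.exp (-μ * s) * (hk s z / (2 * s)) ≤ cO n δ / 2 * Real.exp (-μ * s) := by
  rw [mul_comm]
  refine mul_le_mul_of_nonneg_right ?_ (Real.exp_pos _).le
  rw [div_le_div_iff₀ (by positivity) two_pos]
  linarith [(hk_le_far hδ hs hz).2]

theorem integrableOn_G1 {μ : ℝ} (hμ : 0 < μ) {z : EE n} (hz : z ≠ 0) :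
    IntegrableOn (fun s => Real.exp (-μ * s) * (hk s z / (2 * s))) (Ioi 0) := by
  refine Integrable.mono' ((exp_neg_integrableOn_Ioi 0 hμ).const_mul (cO n ‖z‖ / 2))
    ((measurable_e1 μ).comp (measurable_id.prodMk measurable_const)).aestronglyMeasurable ?_
  filter_upwards [ae_restrict_mem measurableSet_Ioi] with s hs
  have hs' : 0 < s := hs
  have := hk_pos hs' z
  rw [Real.norm_of_nonneg (by positivity)]
  exact e1_le (norm_pos_iff.2 hz) hs' le_rfl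

theorem Gk_pos {μ : ℝ} (hμ : 0 < μ) {z : EE n} (hz : z ≠ 0) : 0 < Gk μ z := by
  unfold Gk
  rw [setIntegral_pos_iff_support_of_nonneg_ae ?_ (integrableOn_Gk hμ hz)]
  · have : Function.support (fun s : ℝ => Real.exp (-μ * s) * hk s z) ∩ Ioi 0 = Ioi 0 :=
      inter_eq_right.2 fun s hs => (mul_pos (Real.exp_pos _) (hk_pos hs z)).ne'
    rw [this]
    simp
  · filter_upwards [ae_restrict_mem measurableSet_Ioi] with s hs
    exact mul_nonneg (Real.exp_pos _).le (hk_pos hs z).le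

/-- `∇ G = - G1 z` away from the origin -/
theorem hasFDerivAt_Gk {μ : ℝ} (hμ : 0 < μ) {z₀ : EE n} (hz : z₀ ≠ 0) :
    HasFDerivAt (Gk μ) ((-G1 μ z₀) • innerSL ℝ z₀) z₀ := by
  have hr : 0 < ‖z₀‖ := norm_pos_iff.2 hz
  have key := hasFDerivAt_integral_of_dominated_of_fderiv_le (μ := volume.restrict (Ioi (0 : ℝ)))
    (s := Metric.ball z₀ (‖z₀‖ / 2)) (F := fun z s => Real.exp (-μ * s) * hk s z)
    (F' := fun z s => (-(Real.exp (-μ * s) * (hk s z / (2 * s)))) • innerSL ℝ z)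
    (bound := fun s => cO n (‖z₀‖ / 2) / 2 * Real.exp (-μ * s) * (2 * ‖z₀‖))
    (Metric.ball_mem_nhds _ (half_pos hr))
    (Eventually.of_forall fun z =>
      ((measurable_ehk μ).comp (measurable_id.prodMk measurable_const)).aestronglyMeasurable)
    (integrableOn_Gk hμ hz) ((integrableOn_G1 hμ hz).neg.1.smul_const _) ?_
    (((exp_neg_integrableOn_Ioi 0 hμ).const_mul _).mul_const _) ?_
  · rwa [integral_smul_const, integral_neg] at key
  · filter_upwards [ae_restrict_mem measurableSet_Ioi] with s hs z hz'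
    have hs' : 0 < s := hs
    have h1 : ‖z - z₀‖ < ‖z₀‖ / 2 := by simpa [dist_eq_norm] using hz'
    have h2 := norm_sub_norm_le z z₀
    have h3 := norm_sub_norm_le z₀ z
    rw [norm_sub_rev] at h3
    have := hk_pos hs' z
    rw [norm_smul, norm_neg, innerSL_apply_norm, Real.norm_of_nonneg (by positivity)]
    have h4 := e1_le (μ := μ) (half_pos hr) hs' (z := z) (by linarith)
    exact mul_le_mul h4 (by linarith) (norm_nonneg _) (le_trans (by positivity) h4)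
  · filter_upwards with s z _
    refine ((hasFDerivAt_hk (s := s) z).const_mul (Real.exp (-μ * s))).congr_fderiv ?_
    rw [smul_smul]
    congr 1
    ring

theorem continuousAt_Gk {μ : ℝ} (hμ : 0 < μ) {z : EE n} (hz : z ≠ 0) : ContinuousAt (Gk μ) z :=
  (hasFDerivAt_Gk hμ hz).continuousAt

theorem ibp_mom {μ : ℝ} (hμ : 0 < μ) {z : EE n} (hz : z ≠ 0) (m : ℕ) {f' : ℝ → ℝ}
    (he : ∀ s, 0 < s → f' s = Real.exp (-μ * s) * hk s z *
      (s ^ (m + 1) * (-μ + lf s z) + (m + 1) * s ^ m)) (hI : IntegrableOn f' (Ioi 0)) :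
    ∫ s in Ioi (0 : ℝ), f' s = 0 := by
  have hb : ∀ s, 0 < s → ‖Real.exp (-μ * s) * hk s z * s ^ (m + 1)‖ ≤
      cO n ‖z‖ * (s ^ (m + 1) * Real.exp (-μ * s)) := fun s hs => by
    have h1 := (hk_le_far (norm_pos_iff.2 hz) hs le_rfl).1
    have := hk_pos hs z
    rw [Real.norm_of_nonneg (by positivity)]
    calc _ = hk s z * (s ^ (m + 1) * Real.exp (-μ * s)) := by ring
      _ ≤ _ := by gcongr
  have key := integral_Ioi_of_hasDerivAt_of_tendsto (a := 0) (m := 0) (f' := f')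
    (f := fun s => Real.exp (-μ * s) * hk s z * s ^ (m + 1)) ?_ (fun s hs => ?_) hI ?_
  · simpa using key
  · rw [← continuousWithinAt_Ioi_iff_Ici, ContinuousWithinAt]
    simp only [ne_eq, Nat.add_eq_zero_iff, one_ne_zero, and_false, not_false_eq_true, zero_pow,
      mul_zero]
    refine squeeze_zero_norm' (Eventually.mono self_mem_nhdsWithin hb) ?_
    have : Continuous fun s : ℝ => cO n ‖z‖ * (s ^ (m + 1) * Real.exp (-μ * s)) := by fun_prop
    simpa using (this.tendsto 0).mono_left nhdsWithin_le_nhds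
  · have h1 : HasDerivAt (fun t : ℝ => Real.exp (-μ * t)) (Real.exp (-μ * s) * -μ) s := by
      simpa using ((hasDerivAt_id s).const_mul (-μ)).exp
    refine ((h1.mul (hasDerivAt_hk hs z)).mul (hasDerivAt_pow (m + 1) s)).congr_deriv ?_
    rw [he s hs]
    simp only [Pi.mul_apply, Nat.add_sub_cancel, Nat.cast_add, Nat.cast_one]
    ring
  · refine squeeze_zero_norm' (Eventually.mono (Ioi_mem_atTop 0) hb) ?_
    have := (tendsto_rpow_mul_exp_neg_mul_atTop_nhds_zero ((m + 1 : ℕ) : ℝ) μ hμ).const_mul (cO n ‖z‖)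
    simpa only [Real.rpow_natCast, mul_zero] using this

/-- moments of the kernel in the time variable -/
def Mo (μ : ℝ) (j : ℕ) (z : EE n) : ℝ := ∫ s in Ioi (0 : ℝ), Real.exp (-μ * s) * hk s z * s ^ j

theorem Mo_nonneg (μ : ℝ) (j : ℕ) (z : EE n) : 0 ≤ Mo μ j z :=
  setIntegral_nonneg measurableSet_Ioi fun s hs => by
    have hs' : 0 < s := hs
    have := hk_pos hs' z
    positivity

theorem mom_id1 {μ : ℝ} (hμ : 0 < μ) {z : EE n} (hz : z ≠ 0) :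
    ‖z‖ ^ 2 / 2 * G1 μ z = μ * Mo μ 1 z + (n / 2 - 1) * Gk μ z := by
  have i1 := (integrableOn_G1 hμ hz).const_mul (‖z‖ ^ 2 / 2)
  have i2 := (integrableOn_mom hμ hz 1).const_mul μ
  have i3 := (integrableOn_Gk hμ hz).const_mul ((n : ℝ) / 2 - 1)
  have h := ibp_mom hμ hz 0 (fun s hs => ?_) (i1.sub (i2.add i3))
  · rw [integral_sub' i1 (i2.add i3), integral_add' i2 i3, integral_const_mul, integral_const_mul,
      integral_const_mul] at h
    exact sub_eq_zero.1 h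
  · simp only [Pi.sub_apply, Pi.add_apply, lf]
    field_simp
    ring

theorem mom_id2 {μ : ℝ} (hμ : 0 < μ) {z : EE n} (hz : z ≠ 0) :
    ‖z‖ ^ 2 / 4 * Gk μ z = μ * Mo μ 2 z + (n / 2 - 2) * Mo μ 1 z := by
  have i1 := (integrableOn_Gk hμ hz).const_mul (‖z‖ ^ 2 / 4)
  have i2 := (integrableOn_mom hμ hz 2).const_mul μ
  have i3 := (integrableOn_mom hμ hz 1).const_mul ((n : ℝ) / 2 - 2)
  have h := ibp_mom hμ hz 1 (fun s hs => ?_) (i1.sub (i2.add i3))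
  · rw [integral_sub' i1 (i2.add i3), integral_add' i2 i3, integral_const_mul, integral_const_mul,
      integral_const_mul] at h
    exact sub_eq_zero.1 h
  · simp only [Pi.sub_apply, Pi.add_apply, lf]
    field_simp
    ring

/-- `|∇ log G| ≥ √μ` -/
theorem G1_lower (hn : 2 ≤ n) {μ : ℝ} (hμ : 0 < μ) {z : EE n} (hz : z ≠ 0) :
    √μ * Gk μ z ≤ ‖z‖ * G1 μ z := by
  have hr : 0 < ‖z‖ := norm_pos_iff.2 hz
  have hw : 0 < √μ := Real.sqrt_pos.2 hμ
  have hw2 : √μ ^ 2 = μ := Real.sq_sqrt hμ.le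
  have hn' : (2 : ℝ) ≤ n := by exact_mod_cast hn
  have i1 := (integrableOn_G1 hμ hz).const_mul (‖z‖ ^ 2 / 2)
  have i2 := (integrableOn_mom hμ hz 1).const_mul μ
  have h1 : ‖z‖ * √μ * Gk μ z ≤ ‖z‖ ^ 2 / 2 * G1 μ z + μ * Mo μ 1 z := by
    rw [Gk, G1, Mo, ← integral_const_mul, ← integral_const_mul, ← integral_const_mul,
      ← integral_add i1 i2]
    refine setIntegral_mono_on ((integrableOn_Gk hμ hz).const_mul _) (i1.add i2) measurableSet_Ioi
      fun s hs => ?_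
    have hs' : 0 < s := hs
    have := hk_pos hs' z
    rw [← sub_nonneg]
    have e : ‖z‖ ^ 2 / 2 * (Real.exp (-μ * s) * (hk s z / (2 * s))) +
        μ * (Real.exp (-μ * s) * hk s z * s ^ 1) - ‖z‖ * √μ * (Real.exp (-μ * s) * hk s z)
        = Real.exp (-μ * s) * hk s z * ((‖z‖ - 2 * √μ * s) ^ 2 / (4 * s)) := by
      rw [sub_sq, mul_pow, mul_pow, hw2]
      field_simp
      ring
    rw [e]
    positivity
  have h2 := mom_id1 hμ hz
  have h3 := mul_nonneg (by linarith : 0 ≤ (n : ℝ) / 2 - 1) (Gk_nonneg μ z)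
  refine le_of_mul_le_mul_left ?_ hr
  nlinarith

/-- `|∇ log G| ≤ √μ + (n - 2)/r` -/
theorem G1_upper (hn : 4 ≤ n) {μ : ℝ} (hμ : 0 < μ) {z : EE n} (hz : z ≠ 0) :
    ‖z‖ * G1 μ z ≤ (√μ + (n - 2) / ‖z‖) * Gk μ z := by
  have hr : 0 < ‖z‖ := norm_pos_iff.2 hz
  have hw : 0 < √μ := Real.sqrt_pos.2 hμ
  have hw2 : √μ ^ 2 = μ := Real.sq_sqrt hμ.le
  have hn' : (4 : ℝ) ≤ n := by exact_mod_cast hn
  have i1 := (integrableOn_Gk hμ hz).const_mul (‖z‖ ^ 2 / 4)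
  have i2 := (integrableOn_mom hμ hz 2).const_mul μ
  have h1 : ‖z‖ * √μ * Mo μ 1 z ≤ ‖z‖ ^ 2 / 4 * Gk μ z + μ * Mo μ 2 z := by
    rw [Gk, Mo, Mo, ← integral_const_mul, ← integral_const_mul, ← integral_const_mul,
      ← integral_add i1 i2]
    refine setIntegral_mono_on ((integrableOn_mom hμ hz 1).const_mul _) (i1.add i2)
      measurableSet_Ioi fun s hs => ?_
    have hs' : 0 < s := hs
    have := hk_pos hs' z
    rw [← sub_nonneg]
    have e : ‖z‖ ^ 2 / 4 * (Real.exp (-μ * s) * hk s z) +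
        μ * (Real.exp (-μ * s) * hk s z * s ^ 2) - ‖z‖ * √μ * (Real.exp (-μ * s) * hk s z * s ^ 1)
        = Real.exp (-μ * s) * hk s z * ((‖z‖ - 2 * √μ * s) ^ 2 / 4) := by
      rw [sub_sq, mul_pow, mul_pow, hw2]
      ring
    rw [e]
    positivity
  have h2 := mom_id1 hμ hz
  have h3 := mom_id2 hμ hz
  have h4 := mul_nonneg (by linarith : 0 ≤ (n : ℝ) / 2 - 2) (Mo_nonneg μ 1 z)
  have h5 : √μ * Mo μ 1 z ≤ ‖z‖ / 2 * Gk μ z := le_of_mul_le_mul_left (by nlinarith) hr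
  have h6 : μ * Mo μ 1 z ≤ √μ * (‖z‖ / 2 * Gk μ z) := by
    have := mul_le_mul_of_nonneg_left h5 hw.le
    rwa [← mul_assoc, Real.mul_self_sqrt hμ.le] at this
  refine le_of_mul_le_mul_left ?_ hr
  rw [← mul_assoc ‖z‖ (_ + _), mul_add, mul_div_cancel₀ _ hr.ne']
  nlinarith

theorem hasDerivAt_Gk_ray {μ : ℝ} (hμ : 0 < μ) {e : EE n} (he : ‖e‖ = 1) {t : ℝ} (ht : 0 < t) :
    HasDerivAt (fun r : ℝ => Gk μ (r • e)) (-(‖t • e‖ * G1 μ (t • e))) t := by
  have h0 : ‖t • e‖ = t := by rw [norm_smul, he, mul_one, Real.norm_of_nonneg ht.le]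
  have h := (hasFDerivAt_Gk hμ (z₀ := t • e) (norm_pos_iff.1 (h0.symm ▸ ht))).comp_hasDerivAt t
    ((hasDerivAt_id t).smul_const e)
  refine h.congr_deriv ?_
  simp [h0, he]
  ring

theorem exists_ray {y z : EE n} (hy : y ≠ 0) (μ : ℝ) : ∃ e : EE n, ‖e‖ = 1 ∧
    Gk μ y = Gk μ (‖y‖ • e) ∧ Gk μ z = Gk μ (‖z‖ • e) := by
  have h : ‖‖y‖⁻¹ • y‖ = 1 := norm_smul_inv_norm (𝕜 := ℝ) hy
  exact ⟨‖y‖⁻¹ • y, h, Gk_congr_norm μ (by rw [norm_smul, h]; simp),
    Gk_congr_norm μ (by rw [norm_smul, h]; simp)⟩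

/-- `e^{√μ r} G(r)` is nonincreasing -/
theorem Gk_exp_anti (hn : 2 ≤ n) {μ : ℝ} (hμ : 0 < μ) {y z : EE n} (hy : y ≠ 0) (h : ‖y‖ ≤ ‖z‖) :
    Real.exp (√μ * ‖z‖) * Gk μ z ≤ Real.exp (√μ * ‖y‖) * Gk μ y := by
  obtain ⟨e, he, h1, h2⟩ := exists_ray (z := z) hy μ
  have hr : 0 < ‖y‖ := norm_pos_iff.2 hy
  have hd : ∀ t ∈ Ioi (0 : ℝ), HasDerivAt (fun r : ℝ => Real.exp (√μ * r) * Gk μ (r • e))
      (Real.exp (√μ * t) * (√μ * Gk μ (t • e) - ‖t • e‖ * G1 μ (t • e))) t := fun t ht => by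
    refine ((((hasDerivAt_id t).const_mul √μ).exp).mul (hasDerivAt_Gk_ray hμ he ht)).congr_deriv ?_
    simp only [id, mul_one]
    ring
  rw [h1, h2]
  refine antitoneOn_of_deriv_nonpos (convex_Ioi 0)
    (fun t ht => (hd t ht).continuousAt.continuousWithinAt)
    (fun t ht => (hd t (interior_subset ht)).differentiableAt.differentiableWithinAt)
    (fun t ht => ?_) hr (lt_of_lt_of_le hr h) h
  have ht' : 0 < t := interior_subset ht
  rw [(hd t ht').deriv]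
  refine mul_nonpos_of_nonneg_of_nonpos (Real.exp_pos _).le (sub_nonpos.2 (G1_lower hn hμ ?_))
  exact smul_ne_zero ht'.ne' (norm_pos_iff.1 (he ▸ one_pos))

/-- `r^{n-2} e^{√μ r} G(r)` is nondecreasing -/
theorem Gk_exp_mono (hn : 4 ≤ n) {μ : ℝ} (hμ : 0 < μ) {y z : EE n} (hy : y ≠ 0) (h : ‖y‖ ≤ ‖z‖) :
    ‖y‖ ^ (n - 2) * (Real.exp (√μ * ‖y‖) * Gk μ y) ≤
      ‖z‖ ^ (n - 2) * (Real.exp (√μ * ‖z‖) * Gk μ z) := by
  obtain ⟨e, he, h1, h2⟩ := exists_ray (z := z) hy μ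
  obtain ⟨m, rfl⟩ : ∃ m, n = m + 3 := ⟨n - 3, by omega⟩
  have hr : 0 < ‖y‖ := norm_pos_iff.2 hy
  have hd : ∀ t ∈ Ioi (0 : ℝ),
      HasDerivAt (fun r : ℝ => r ^ (m + 1) * (Real.exp (√μ * r) * Gk μ (r • e)))
      (t ^ (m + 1) * Real.exp (√μ * t) *
        ((√μ + (m + 1) / t) * Gk μ (t • e) - ‖t • e‖ * G1 μ (t • e))) t := fun t ht => by
    have ht' : 0 < t := ht
    refine ((hasDerivAt_pow (m + 1) t).mul ((((hasDerivAt_id t).const_mul √μ).exp).mul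
      (hasDerivAt_Gk_ray hμ he ht))).congr_deriv ?_
    simp only [id, mul_one, Pi.mul_apply, Nat.add_sub_cancel, Nat.cast_add, Nat.cast_one]
    field_simp
    ring
  rw [h1, h2]
  refine monotoneOn_of_deriv_nonneg (convex_Ioi 0)
    (fun t ht => (hd t ht).continuousAt.continuousWithinAt)
    (fun t ht => (hd t (interior_subset ht)).differentiableAt.differentiableWithinAt)
    (fun t ht => ?_) hr (lt_of_lt_of_le hr h) h
  have ht' : 0 < t := interior_subset ht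
  have h0 : ‖t • e‖ = t := by rw [norm_smul, he, mul_one, Real.norm_of_nonneg ht'.le]
  have h3 := G1_upper hn hμ (z := t • e) (norm_pos_iff.1 (h0.symm ▸ ht'))
  rw [(hd t ht').deriv]
  refine mul_nonneg (by positivity) (sub_nonneg.2 (h3.trans (le_of_eq ?_)))
  rw [h0]
  push_cast
  ring

theorem Gk_le_exp (hn : 2 ≤ n) {μ : ℝ} (hμ : 0 < μ) {y z : EE n} (hy : y ≠ 0) (h : ‖y‖ ≤ ‖z‖) :
    Gk μ z ≤ Real.exp (-√μ * (‖z‖ - ‖y‖)) * Gk μ y := by
  refine le_of_mul_le_mul_left ((Gk_exp_anti hn hμ hy h).trans (le_of_eq ?_)) (Real.exp_pos _)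
  rw [← mul_assoc, ← Real.exp_add]
  congr 2
  ring

theorem Gk_anti (hn : 2 ≤ n) {μ : ℝ} (hμ : 0 < μ) {y z : EE n} (hy : y ≠ 0) (h : ‖y‖ ≤ ‖z‖) :
    Gk μ z ≤ Gk μ y :=
  (Gk_le_exp hn hμ hy h).trans (mul_le_of_le_one_left (Gk_nonneg μ y) (Real.exp_le_one_iff.2
    (by nlinarith [Real.sqrt_nonneg μ])))

theorem exp_le_Gk (hn : 4 ≤ n) {μ : ℝ} (hμ : 0 < μ) {y z : EE n} (hy : y ≠ 0) (h : ‖y‖ ≤ ‖z‖) :
    (‖y‖ / ‖z‖) ^ (n - 2) * Real.exp (-√μ * (‖z‖ - ‖y‖)) * Gk μ y ≤ Gk μ z := by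
  have hr : 0 < ‖z‖ := lt_of_lt_of_le (norm_pos_iff.2 hy) h
  refine le_of_mul_le_mul_left ?_ (mul_pos (pow_pos hr (n - 2)) (Real.exp_pos (√μ * ‖z‖)))
  rw [mul_assoc (‖z‖ ^ _) _ (Gk μ z)]
  refine le_trans (le_of_eq ?_) (Gk_exp_mono hn hμ hy h)
  rw [div_pow, show √μ * ‖y‖ = √μ * ‖z‖ + -√μ * (‖z‖ - ‖y‖) by ring, Real.exp_add]
  field_simp

/-- TWO-SIDED BOUNDS -/
theorem Gk_bounds (hn : 4 ≤ n) {μ : ℝ} (hμ : 0 < μ) : ∃ c : ℝ, 0 < c ∧ ∀ z : EE n,
    (1 ≤ ‖z‖ → c * (‖z‖ ^ (n - 2))⁻¹ * Real.exp (-√μ * ‖z‖) ≤ Gk μ z ∧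
      Gk μ z ≤ c * Real.exp (-√μ * ‖z‖)) ∧
    (z ≠ 0 → ‖z‖ ≤ 1 → c * Real.exp (-√μ * ‖z‖) ≤ Gk μ z ∧
      Gk μ z ≤ c * (‖z‖ ^ (n - 2))⁻¹ * Real.exp (-√μ * ‖z‖)) := by
  set e : EE n := ev ⟨0, by omega⟩ with he
  have h1 : ‖e‖ = 1 := by simp [he]
  have h0 : e ≠ 0 := norm_pos_iff.1 (h1 ▸ one_pos)
  have hx : ∀ r : ℝ, Real.exp (-√μ * r) * Real.exp (√μ * r) = 1 := fun r => by
    rw [← Real.exp_add]
    simp
  refine ⟨Real.exp √μ * Gk μ e, mul_pos (Real.exp_pos _) (Gk_pos hμ h0), fun z =>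
    ⟨fun h => ⟨?_, ?_⟩, fun hz h => ⟨?_, ?_⟩⟩⟩
  · have := exp_le_Gk hn hμ h0 (h1 ▸ h)
    rw [h1, show -√μ * (‖z‖ - 1) = √μ + -√μ * ‖z‖ by ring, Real.exp_add, one_div, inv_pow] at this
    linarith
  · have := Gk_le_exp (by omega) hμ h0 (h1 ▸ h)
    rw [h1, show -√μ * (‖z‖ - 1) = √μ + -√μ * ‖z‖ by ring, Real.exp_add] at this
    linarith
  · have := mul_le_mul_of_nonneg_left (Gk_exp_anti (by omega) hμ hz (h1 ▸ h : ‖z‖ ≤ ‖e‖))
      (Real.exp_pos (-√μ * ‖z‖)).le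
    rw [← mul_assoc _ _ (Gk μ z), hx, h1, mul_one, one_mul] at this
    linarith
  · have hr : 0 < ‖z‖ ^ (n - 2) := pow_pos (norm_pos_iff.2 hz) _
    have := mul_le_mul_of_nonneg_left (Gk_exp_mono hn hμ hz (h1 ▸ h : ‖z‖ ≤ ‖e‖))
      (mul_pos (inv_pos.2 hr) (Real.exp_pos (-√μ * ‖z‖))).le
    rw [h1, one_pow, mul_one, one_mul, mul_mul_mul_comm, inv_mul_cancel₀ hr.ne', one_mul,
      ← mul_assoc, hx, one_mul] at this
    linarith

end

end Crest.Agent.N067.Ker
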