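import Crest.Agent.N067.A.Ker6
import Crest.Agent.N067.A.HeatC

/-!
Row 67, STAB tools (helper2): exponential weights, `G * exp (-a |·|) ≤ C G` for `a > √μ`.
-/

set_option autoImplicit false

open MeasureTheory Laplacian InnerProductSpace Topology Filter Set
open scoped RealInnerProductSpace ContDiff ENNReal

namespace Crest.Agent.N067.Ker

open Crest.Agent.R077

noncomputable section

variable {n : ℕ}

theorem integrable_exp_norm {b : ℝ} (hb : 0 < b) :
    Integrable fun z : EE n => Real.exp (-b * ‖z‖) := by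
  obtain ⟨K, hK, h⟩ := poly_le_exp ((n : ℝ) + 1) (by positivity) hb
  refine ((integrable_one_add_norm (E := EE n) (μ := volume) (r := (n : ℝ) + 1)
    (by simp)).const_mul K).mono' (by fun_prop) (Eventually.of_forall fun z => ?_)
  have h1 : 0 < (1 + ‖z‖) ^ ((n : ℝ) + 1) := by positivity
  rw [Real.norm_of_nonneg (Real.exp_pos _).le, Real.rpow_neg (by positivity), neg_mul, Real.exp_neg,
    ← div_eq_mul_inv, inv_eq_one_div, div_le_div_iff₀ (Real.exp_pos _) h1, one_mul]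
  exact h _ (norm_nonneg z)

theorem pow_le_exp (k : ℕ) {ε : ℝ} (hε : 0 < ε) :
    ∃ K : ℝ, 1 ≤ K ∧ ∀ D : ℝ, 0 ≤ D → (1 + D) ^ k ≤ K * Real.exp (ε * D) := by
  obtain ⟨K, -, h⟩ := poly_le_exp (k : ℝ) (by positivity) hε
  refine ⟨K, by simpa using h 0 le_rfl, fun D hD => ?_⟩
  simpa only [Real.rpow_natCast] using h D hD

/-- lower bound of the kernel by any faster exponential -/
theorem exp_le_mul_Gk (hn : 4 ≤ n) {μ a : ℝ} (hμ : 0 < μ) (ha : √μ < a) :
    ∃ C : ℝ, 0 < C ∧ ∀ p : EE n, p ≠ 0 → Real.exp (-a * ‖p‖) ≤ C * Gk μ p := by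
  obtain ⟨c, hc, h⟩ := Gk_bounds hn hμ
  obtain ⟨K, hK, h1⟩ := pow_le_exp (n - 2) (sub_pos.2 ha)
  refine ⟨K / c, by positivity, fun p hp => ?_⟩
  have hr : 0 < ‖p‖ := norm_pos_iff.2 hp
  rw [div_mul_eq_mul_div, le_div_iff₀ hc]
  have hG := Gk_nonneg μ p
  rcases le_total 1 ‖p‖ with h2 | h2
  · have h3 := ((h p).1 h2).1
    have h4 : ‖p‖ ^ (n - 2) ≤ K * Real.exp ((a - √μ) * ‖p‖) :=
      (pow_le_pow_left₀ hr.le (by linarith) _).trans (h1 _ hr.le)
    have h5 : 0 < ‖p‖ ^ (n - 2) := pow_pos hr _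
    calc _ = (c * (‖p‖ ^ (n - 2))⁻¹ * Real.exp (-√μ * ‖p‖)) * ‖p‖ ^ (n - 2) *
          Real.exp (-(a - √μ) * ‖p‖) := by
          rw [show -a * ‖p‖ = -√μ * ‖p‖ + -(a - √μ) * ‖p‖ by ring, Real.exp_add]
          field_simp
      _ ≤ Gk μ p * (K * Real.exp ((a - √μ) * ‖p‖)) * Real.exp (-(a - √μ) * ‖p‖) := by gcongr
      _ = _ := by
          rw [mul_assoc, mul_assoc, ← Real.exp_add, neg_mul, add_neg_cancel, Real.exp_zero]
          ring
  · have h3 := ((h p).2 hp h2).1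
    have h4 : Real.exp (-a * ‖p‖) ≤ Real.exp (-√μ * ‖p‖) := Real.exp_le_exp.2 (by nlinarith)
    nlinarith [mul_le_mul_of_nonneg_left h4 hc.le]

/-- comparison of the kernel at two points, away from the origin -/
theorem Gk_le_shift (hn : 4 ≤ n) {μ a : ℝ} (hμ : 0 < μ) (ha : √μ < a) :
    ∃ C : ℝ, 1 ≤ C ∧ ∀ p u : EE n, p ≠ 0 → 1 ≤ ‖u‖ →
      Gk μ u ≤ C * Real.exp (a * ‖p - u‖) * Gk μ p := by
  obtain ⟨K, hK, h1⟩ := pow_le_exp (n - 2) (sub_pos.2 ha)
  refine ⟨K, hK, fun p u hp hu => ?_⟩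
  have hw := Real.sqrt_nonneg μ
  have hq := norm_nonneg (p - u)
  have hG := Gk_nonneg μ p
  rcases le_total ‖p‖ ‖u‖ with h | h
  · refine (Gk_anti (by omega) hμ hp h).trans (le_mul_of_one_le_left hG ?_)
    exact one_le_mul_of_one_le_of_one_le hK (Real.one_le_exp (by nlinarith))
  · have hu0 : u ≠ 0 := norm_pos_iff.1 (by linarith)
    have h2 := exp_le_Gk hn hμ hu0 h
    have h3 : ‖p‖ - ‖u‖ ≤ ‖p - u‖ := norm_sub_norm_le p u
    have h4 : 1 ≤ ‖u‖ / ‖p‖ * (1 + ‖p - u‖) := by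
      rw [div_mul_eq_mul_div, le_div_iff₀ (by linarith)]
      nlinarith
    have h5 : 1 ≤ (‖u‖ / ‖p‖) ^ (n - 2) * (K * Real.exp ((a - √μ) * ‖p - u‖)) :=
      (one_le_pow₀ (n := n - 2) h4).trans (by rw [mul_pow]; gcongr; exact h1 _ hq)
    have h6 : Real.exp ((a - √μ) * ‖p - u‖) ≤
        Real.exp (a * ‖p - u‖) * Real.exp (-√μ * (‖p‖ - ‖u‖)) := by
      rw [← Real.exp_add]
      exact Real.exp_le_exp.2 (by nlinarith)
    have hGu := Gk_nonneg μ u
    calc Gk μ u ≤ (‖u‖ / ‖p‖) ^ (n - 2) * (K * Real.exp ((a - √μ) * ‖p - u‖)) * Gk μ u :=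
          le_mul_of_one_le_left hGu h5
      _ ≤ (‖u‖ / ‖p‖) ^ (n - 2) * (K * (Real.exp (a * ‖p - u‖) *
            Real.exp (-√μ * (‖p‖ - ‖u‖)))) * Gk μ u := by gcongr
      _ = K * Real.exp (a * ‖p - u‖) *
            ((‖u‖ / ‖p‖) ^ (n - 2) * Real.exp (-√μ * (‖p‖ - ‖u‖)) * Gk μ u) := by ring
      _ ≤ _ := by gcongr

theorem lintegral_Gk {μ : ℝ} (hμ : 0 < μ) :
    ∫⁻ z : EE n, ENNReal.ofReal (Gk μ z) = ENNReal.ofReal μ⁻¹ := by
  rw [← ofReal_integral_eq_lintegral_ofReal (integrable_Gk hμ)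
    (Eventually.of_forall (Gk_nonneg μ)), integral_Gk hμ]

/-- `G * exp (-a |·|) ≤ C G` -/
theorem Gk_conv_exp (hn : 4 ≤ n) {μ a : ℝ} (hμ : 0 < μ) (ha : √μ < a) :
    ∃ C : ℝ, 0 < C ∧ ∀ p : EE n, p ≠ 0 →
      ∫⁻ u, ENNReal.ofReal (Gk μ u * Real.exp (-a * ‖p - u‖)) ≤ ENNReal.ofReal (C * Gk μ p) := by
  have hw := Real.sqrt_nonneg μ
  have hb : 0 < (a - √μ) / 2 := by linarith
  obtain ⟨C1, hC1, h1⟩ := exp_le_mul_Gk hn hμ ha
  obtain ⟨C2, hC2, h2⟩ := Gk_le_shift hn hμ (a := (a + √μ) / 2) (by linarith)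
  have hI := integrable_exp_norm (n := n) hb
  set I := ∫ z : EE n, Real.exp (-((a - √μ) / 2) * ‖z‖) with hIdef
  have hI0 : 0 ≤ I := integral_nonneg fun z => (Real.exp_pos _).le
  refine ⟨Real.exp a * C1 * μ⁻¹ + C2 * I, by positivity, fun p hp => ?_⟩
  have hG := Gk_nonneg μ p
  have i1 := (integrable_Gk (n := n) hμ).const_mul (Real.exp a * C1 * Gk μ p)
  have i2 := (hI.comp_sub_left p).const_mul (C2 * Gk μ p)
  have key : ∀ u : EE n, Gk μ u * Real.exp (-a * ‖p - u‖) ≤ Real.exp a * C1 * Gk μ p * Gk μ u +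
      C2 * Gk μ p * Real.exp (-((a - √μ) / 2) * ‖p - u‖) := fun u => by
    have hGu := Gk_nonneg μ u
    rcases le_total 1 ‖u‖ with h | h
    · refine le_add_of_nonneg_of_le (by positivity) ?_
      refine (mul_le_mul_of_nonneg_right (h2 p u hp h) (Real.exp_pos _).le).trans (le_of_eq ?_)
      rw [show -((a - √μ) / 2) * ‖p - u‖ = (a + √μ) / 2 * ‖p - u‖ + -a * ‖p - u‖ by ring,
        Real.exp_add]
      ring
    · refine le_add_of_le_of_nonneg ?_ (by positivity)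
      rw [mul_comm, mul_assoc (Real.exp a)]
      refine mul_le_mul_of_nonneg_right (le_trans ?_
        (mul_le_mul_of_nonneg_left (h1 p hp) (Real.exp_pos a).le)) hGu
      rw [← Real.exp_add]
      exact Real.exp_le_exp.2 (by nlinarith [norm_sub_norm_le p u])
  refine (lintegral_mono fun u => ENNReal.ofReal_le_ofReal (key u)).trans (le_of_eq ?_)
  rw [← ofReal_integral_eq_lintegral_ofReal (f := fun u => Real.exp a * C1 * Gk μ p * Gk μ u +
      C2 * Gk μ p * Real.exp (-((a - √μ) / 2) * ‖p - u‖)) (i1.add i2)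
    (Eventually.of_forall fun u => by have := Gk_nonneg μ u; positivity), integral_add i1 i2,
    integral_const_mul, integral_const_mul, integral_Gk hμ,
    integral_sub_left_eq_self (fun z : EE n => Real.exp (-((a - √μ) / 2) * ‖z‖)) volume p]
  congr 1
  ring

theorem measurable_cv {k g : EE n → ℝ} (hk : Measurable k) (hg : Measurable g) :
    Measurable (cv k g) :=
  (StronglyMeasurable.integral_prod_right' (f := fun q : EE n × EE n => k q.2 * g (q.1 + q.2))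
    ((hk.comp measurable_snd).mul (hg.comp (by fun_prop))).stronglyMeasurable).measurable

end

end Crest.Agent.N067.Ker
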