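import Crest.Agent.N067.V.Weak

/-!
Row 67, STAB tools (helper2): the matrix lemma.  For a kernel `K (x, p)` living on segments in `Ω`,
`∬ K (z (x+p) - z x)² ≤ ∬ K̄ (Dz p)²` (cost, `z` locally Lipschitz) and
`∬ K̄ |Df p|² ≤ ∬ K |f (x+p) - f x|² + ∬ K̄ |D²f|² |p|⁴` (gain), `K̄ (w, p) = ∫₀¹ K (w - s p, p) ds`.
-/

set_option autoImplicit false

open MeasureTheory Laplacian InnerProductSpace Topology Filter Set
open scoped RealInnerProductSpace ContDiff ENNReal NNReal

namespace Crest.Agent.N067.Ker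

open Crest.Agent.R077

noncomputable section

variable {n : ℕ}

/-- the averaged kernel -/
def Kb (K : EE n × EE n → ℝ≥0∞) (w p : EE n) : ℝ≥0∞ := ∫⁻ s in Icc (0 : ℝ) 1, K (w - s • p, p)

theorem measurable_Kb {K : EE n × EE n → ℝ≥0∞} (hK : Measurable K) :
    Measurable fun q : EE n × EE n => Kb K q.1 q.2 :=
  Measurable.lintegral_prod_right' (f := fun r : (EE n × EE n) × ℝ => K (r.1.1 - r.2 • r.1.2, r.1.2))
    (hK.comp (by fun_prop))

theorem swap3 {H : EE n × EE n × ℝ → ℝ≥0∞} (hH : Measurable H) :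
    ∫⁻ x, ∫⁻ p, ∫⁻ s in Icc (0 : ℝ) 1, H (x, p, s) =
      ∫⁻ q : EE n × ℝ, (∫⁻ x, H (x, q)) ∂(volume.prod (volume.restrict (Icc 0 1))) := by
  rw [← lintegral_lintegral_swap (f := fun x q => H (x, q)) hH.aemeasurable]
  refine lintegral_congr fun x => ?_
  exact (lintegral_prod (fun q => H (x, q)) (hH.comp measurable_prodMk_left).aemeasurable).symm

/-- the shear `x ↦ x + s p` -/
theorem shear {H : EE n × EE n × ℝ → ℝ≥0∞} (hH : Measurable H) :
    ∫⁻ x, ∫⁻ p, ∫⁻ s in Icc (0 : ℝ) 1, H (x + s • p, p, s) =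
      ∫⁻ w, ∫⁻ p, ∫⁻ s in Icc (0 : ℝ) 1, H (w, p, s) := by
  rw [swap3 hH, swap3 (H := fun r => H (r.1 + r.2.2 • r.2.1, r.2)) (hH.comp (by fun_prop))]
  exact lintegral_congr fun q => lintegral_add_right_eq_self (fun x => H (x, q)) (q.2 • q.1)

theorem shear_Kb {K F : EE n × EE n → ℝ≥0∞} (hK : Measurable K) (hF : Measurable F) :
    ∫⁻ x, ∫⁻ p, K (x, p) * ∫⁻ s in Icc (0 : ℝ) 1, F (x + s • p, p) =
      ∫⁻ w, ∫⁻ p, Kb K w p * F (w, p) := by
  have h := shear (H := fun r => K (r.1 - r.2.2 • r.2.1, r.2.1) * F (r.1, r.2.1))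
    ((hK.comp (by fun_prop)).mul (hF.comp (by fun_prop)))
  simp only [add_sub_cancel_right] at h
  refine Eq.trans (lintegral_congr fun x => lintegral_congr fun p => ?_)
    (h.trans (lintegral_congr fun w => lintegral_congr fun p => ?_))
  · exact (lintegral_const_mul _ (f := fun s : ℝ => F (x + s • p, p)) (hF.comp (by fun_prop))).symm
  · exact lintegral_mul_const _ (f := fun s : ℝ => K (w - s • p, p)) (hK.comp (by fun_prop))

theorem ae_seg {N : Set (EE n)} (hN : volume N = 0) :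
    ∀ᵐ x : EE n, ∀ᵐ p : EE n, ∀ᵐ s ∂(volume.restrict (Icc (0 : ℝ) 1)), x + s • p ∉ N := by
  obtain ⟨M, hNM, hM, hM0⟩ := exists_measurable_superset_of_null hN
  have hm : Measurable (M.indicator (1 : EE n → ℝ≥0∞)) := measurable_one.indicator hM
  have h := shear (H := fun r => M.indicator 1 r.1) (hm.comp measurable_fst)
  have h0 : ∫⁻ w : EE n, ∫⁻ _p : EE n, ∫⁻ _s in Icc (0 : ℝ) 1, M.indicator (1 : EE n → ℝ≥0∞) w = 0 := by
    refine (lintegral_congr_ae ?_).trans lintegral_zero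
    filter_upwards [measure_eq_zero_iff_ae_notMem.1 hM0] with w hw
    simp [hw]
  have m3 : Measurable fun r : (EE n × EE n) × ℝ =>
      M.indicator (1 : EE n → ℝ≥0∞) (r.1.1 + r.2 • r.1.2) := hm.comp (by fun_prop)
  have m2 := m3.lintegral_prod_right' (ν := volume.restrict (Icc (0 : ℝ) 1))
  filter_upwards [(lintegral_eq_zero_iff (m2.lintegral_prod_right' (ν := volume))).1 (h.trans h0)]
    with x hx
  filter_upwards [(lintegral_eq_zero_iff (m2.comp measurable_prodMk_left)).1 hx] with p hp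
  filter_upwards [(lintegral_eq_zero_iff (m3.comp measurable_prodMk_left)).1 hp] with s hs h
  simp [hNM h] at hs

theorem sq_integral_le {h : ℝ → ℝ} (hi : IntervalIntegrable h volume 0 1)
    (h2 : IntervalIntegrable (fun s => h s ^ 2) volume 0 1) :
    (∫ s in (0 : ℝ)..1, h s) ^ 2 ≤ ∫ s in (0 : ℝ)..1, h s ^ 2 := by
  set m := ∫ s in (0 : ℝ)..1, h s with hm
  have h1 : ∫ s in (0 : ℝ)..1, (2 * m * h s - m ^ 2) = m ^ 2 := by
    rw [intervalIntegral.integral_sub (hi.const_mul _) intervalIntegrable_const,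
      intervalIntegral.integral_const_mul, ← hm]
    simp only [intervalIntegral.integral_const, sub_zero, smul_eq_mul]
    ring
  rw [← h1]
  exact intervalIntegral.integral_mono_on zero_le_one ((hi.const_mul _).sub intervalIntegrable_const)
    h2 fun s _ => by nlinarith [sq_nonneg (h s - m)]

theorem ofReal_integral_eq {h : ℝ → ℝ} (hi : IntervalIntegrable h volume 0 1) (h0 : ∀ s, 0 ≤ h s) :
    ENNReal.ofReal (∫ s in (0 : ℝ)..1, h s) = ∫⁻ s in Icc (0 : ℝ) 1, ENNReal.ofReal (h s) := by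
  rw [intervalIntegral.integral_of_le zero_le_one, ← integral_Icc_eq_integral_Ioc,
    ofReal_integral_eq_lintegral_ofReal
      ((intervalIntegrable_iff_integrableOn_Icc_of_le zero_le_one).1 hi) (Eventually.of_forall h0)]

theorem ofReal_sq_integral_le {h : ℝ → ℝ} (hi : IntervalIntegrable h volume 0 1) :
    ENNReal.ofReal ((∫ s in (0 : ℝ)..1, h s) ^ 2) ≤
      ∫⁻ s in Icc (0 : ℝ) 1, ENNReal.ofReal (h s ^ 2) := by
  by_cases h2 : IntervalIntegrable (fun s => h s ^ 2) volume 0 1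
  · rw [← ofReal_integral_eq h2 fun s => sq_nonneg _]
    exact ENNReal.ofReal_le_ofReal (sq_integral_le hi h2)
  · rw [intervalIntegrable_iff_integrableOn_Icc_of_le zero_le_one] at hi h2
    rw [IntegrableOn, ← lintegral_ofReal_ne_top_iff_integrable (f := fun s => h s ^ 2) (hi.1.pow 2)
      (Eventually.of_forall fun s => sq_nonneg _), not_not] at h2
    exact h2 ▸ le_top

theorem hasDerivAt_seg {z : EE n → ℝ} {x p : EE n} {s : ℝ} (hd : DifferentiableAt ℝ z (x + s • p)) :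
    HasDerivAt (fun r : ℝ => z (x + r • p)) (fderiv ℝ z (x + s • p) p) s := by
  have := hd.hasFDerivAt.comp_hasDerivAt s (((hasDerivAt_id s).smul_const p).const_add x)
  rwa [one_smul] at this

theorem seg_sq_le {Ω : Set (EE n)} {z : EE n → ℝ} {x p : EE n} (hz : LocallyLipschitzOn Ω z)
    (hs : ∀ s ∈ Icc (0 : ℝ) 1, x + s • p ∈ Ω)
    (hd : ∀ᵐ s ∂(volume.restrict (Icc (0 : ℝ) 1)), DifferentiableAt ℝ z (x + s • p)) :
    ENNReal.ofReal ((z (x + p) - z x) ^ 2) ≤
      ∫⁻ s in Icc (0 : ℝ) 1, ENNReal.ofReal (fderiv ℝ z (x + s • p) p ^ 2) := by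
  have hc : ContDiff ℝ 1 fun s : ℝ => x + s • p := by fun_prop
  obtain ⟨K, hK⟩ := (hz.mono (image_subset_iff.2 hs)).exists_lipschitzOnWith_of_compact
    (isCompact_Icc.image hc.continuous)
  obtain ⟨L, hL⟩ := hc.contDiffOn.exists_lipschitzOnWith (by decide) (convex_Icc 0 1) isCompact_Icc
  have h1 := hK.comp hL (mapsTo_image _ _)
  rw [← uIcc_of_le zero_le_one] at h1
  have ac := h1.absolutelyContinuousOnInterval
  have h2 := ac.integral_deriv_eq_sub
  simp only [Function.comp, one_smul, zero_smul, add_zero] at h2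
  rw [← h2]
  refine (ofReal_sq_integral_le ac.intervalIntegrable_deriv).trans (le_of_eq (lintegral_congr_ae ?_))
  filter_upwards [hd] with s hs
  rw [← (hasDerivAt_seg hs).deriv]
  rfl

theorem measurable_pdv (z : EE n → ℝ) (i : Fin n) : Measurable (pdv i z) :=
  measurable_fderiv_apply_const ℝ z (ev i)

theorem measurable_fderiv_pair (z : EE n → ℝ) :
    Measurable fun q : EE n × EE n => fderiv ℝ z q.1 q.2 := by
  simp_rw [fderiv_eq_sum']
  exact Finset.measurable_sum _ fun i _ => ((measurable_pdv z i).comp measurable_fst).mul (by fun_prop)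

theorem measurable_hsq (z : EE n → ℝ) : Measurable (hsq z) :=
  Finset.measurable_sum _ fun i _ => Finset.measurable_sum _ fun _ _ =>
    (measurable_pdv _ i).pow_const 2

/-- M-LEMMA, cost -/
theorem mlemma {Ω : Set (EE n)} (hΩ : IsOpen Ω) {z : EE n → ℝ} (hz : LocallyLipschitzOn Ω z)
    {K : EE n × EE n → ℝ≥0∞} (hK : Measurable K)
    (hs : ∀ x p, K (x, p) ≠ 0 → ∀ s ∈ Icc (0 : ℝ) 1, x + s • p ∈ Ω) :
    ∫⁻ x, ∫⁻ p, K (x, p) * ENNReal.ofReal ((z (x + p) - z x) ^ 2) ≤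
      ∫⁻ w, ∫⁻ p, Kb K w p * ENNReal.ofReal (fderiv ℝ z w p ^ 2) := by
  rw [← shear_Kb (F := fun q => ENNReal.ofReal (fderiv ℝ z q.1 q.2 ^ 2)) hK
    ((measurable_fderiv_pair z).pow_const 2).ennreal_ofReal]
  refine lintegral_mono_ae ?_
  filter_upwards [ae_seg (ae_iff.1 (V.ae_diff hΩ hz))] with x hx
  refine lintegral_mono_ae ?_
  filter_upwards [hx] with p hp
  by_cases h0 : K (x, p) = 0
  · simp [h0]
  refine mul_le_mul_right (seg_sq_le hz (hs x p h0) ?_) _
  filter_upwards [hp, ae_restrict_mem measurableSet_Icc] with s h1 h2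
  exact (not_not.1 h1) (hs x p h0 s h2)

theorem gain_1d {g g1 g2 : ℝ → ℝ} (h1 : ∀ s ∈ Icc (0 : ℝ) 1, HasDerivAt g (g1 s) s)
    (h2 : ∀ s ∈ Icc (0 : ℝ) 1, HasDerivAt g1 (g2 s) s) (h3 : ContinuousOn g2 (Icc 0 1)) :
    ∫ s in (0 : ℝ)..1, g1 s ^ 2 ≤ (g 1 - g 0) ^ 2 + ∫ s in (0 : ℝ)..1, g2 s ^ 2 := by
  have c1 : ContinuousOn g1 (Icc 0 1) := fun s hs => (h2 s hs).continuousAt.continuousWithinAt
  have I : ∀ {f : ℝ → ℝ}, ContinuousOn f (Icc 0 1) → IntervalIntegrable f volume 0 1 := fun hf =>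
    hf.intervalIntegrable_of_Icc zero_le_one
  obtain ⟨ξ, hξ, he⟩ := exists_hasDerivAt_eq_slope g g1 one_pos
    (fun s hs => (h1 s hs).continuousAt.continuousWithinAt) fun s hs => h1 s (Ioo_subset_Icc_self hs)
  rw [sub_zero, div_one] at he
  have hm : ∫ s in (0 : ℝ)..1, g1 s = g 1 - g 0 :=
    intervalIntegral.integral_eq_sub_of_hasDerivAt (by rwa [uIcc_of_le zero_le_one]) (I c1)
  have hQ := sq_integral_le (I h3.abs) (by simpa only [sq_abs] using I (h3.fun_pow 2))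
  simp only [sq_abs] at hQ
  set Q := ∫ s in (0 : ℝ)..1, g2 s ^ 2
  have hb : ∀ s ∈ Icc (0 : ℝ) 1, g1 s ^ 2 ≤ 2 * g1 ξ * g1 s + (Q - g1 ξ ^ 2) := fun s hs => by
    have hsub : uIcc ξ s ⊆ Icc 0 1 := uIcc_subset_Icc (Ioo_subset_Icc_self hξ) hs
    have e : ∫ r in ξ..s, g2 r = g1 s - g1 ξ :=
      intervalIntegral.integral_eq_sub_of_hasDerivAt (fun r hr => h2 r (hsub hr))
        (h3.mono hsub).intervalIntegrable
    have h4 : |g1 s - g1 ξ| ≤ ∫ r in (0 : ℝ)..1, |g2 r| := by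
      rw [← e]
      refine (intervalIntegral.norm_integral_le_abs_integral_norm (f := g2)).trans ?_
      refine (intervalIntegral.abs_integral_mono_interval (f := fun r => |g2 r|) (c := 0) (d := 1)
        ?_ (Eventually.of_forall fun r => abs_nonneg _) (I h3.abs)).trans
        (le_of_eq (abs_of_nonneg (intervalIntegral.integral_nonneg zero_le_one
          fun r _ => abs_nonneg _)))
      exact uIoc_subset_uIoc_of_uIcc_subset_uIcc (by rwa [uIcc_of_le zero_le_one])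
    have h5 := pow_le_pow_left₀ (abs_nonneg _) h4 2
    rw [sq_abs] at h5
    nlinarith
  refine (intervalIntegral.integral_mono_on zero_le_one (I (c1.pow 2))
    (((I c1).const_mul _).add intervalIntegrable_const) hb).trans (le_of_eq ?_)
  rw [intervalIntegral.integral_add ((I c1).const_mul _) intervalIntegrable_const,
    intervalIntegral.integral_const_mul, hm, he]
  simp only [intervalIntegral.integral_const, sub_zero, smul_eq_mul]
  ring

theorem quad_sq_le (f : EE n → ℝ) (w p : EE n) :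
    (∑ j, (∑ i, pdv i (pdv j f) w * p i) * p j) ^ 2 ≤ hsq f w * ‖p‖ ^ 4 := by
  have hp : ∑ i, p i ^ 2 = ‖p‖ ^ 2 := by simp [EuclideanSpace.norm_sq_eq]
  refine (Finset.sum_mul_sq_le_sq_mul_sq _ _ _).trans ?_
  rw [hp, show ‖p‖ ^ 4 = ‖p‖ ^ 2 * ‖p‖ ^ 2 by ring, ← mul_assoc, hsq_eq, Finset.sum_comm]
  refine mul_le_mul_of_nonneg_right ?_ (sq_nonneg ‖p‖)
  rw [Finset.sum_mul]
  refine Finset.sum_le_sum fun j _ => ?_
  rw [← hp]
  exact Finset.sum_mul_sq_le_sq_mul_sq _ _ _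

theorem gain_seg {f : EE n → ℝ} {x p : EE n}
    (hf : ∀ s ∈ Icc (0 : ℝ) 1, ContDiffAt ℝ 2 f (x + s • p)) :
    ∫⁻ s in Icc (0 : ℝ) 1, ENNReal.ofReal (fderiv ℝ f (x + s • p) p ^ 2) ≤
      ENNReal.ofReal ((f (x + p) - f x) ^ 2) +
        ∫⁻ s in Icc (0 : ℝ) 1, ENNReal.ofReal (hsq f (x + s • p) * ‖p‖ ^ 4) := by
  have cl : Continuous fun s : ℝ => x + s • p := by fun_prop
  have c2 : ∀ i j, ContinuousOn (fun s : ℝ => pdv i (pdv j f) (x + s • p)) (Icc 0 1) :=
    fun i j s hs => (ContinuousAt.comp (f := fun s : ℝ => x + s • p) (contDiffAt_pdv (m := 0)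
      (contDiffAt_pdv (m := 1) (hf s hs) (by norm_num) j) (by norm_num) i).continuousAt
      cl.continuousAt).continuousWithinAt
  have h2 : ∀ s ∈ Icc (0 : ℝ) 1, HasDerivAt (fun r : ℝ => fderiv ℝ f (x + r • p) p)
      (∑ j, (∑ i, pdv i (pdv j f) (x + s • p) * p i) * p j) s := fun s hs => by
    simp_rw [fderiv_eq_sum', ← fderiv_eq_sum' (pdv _ f)]
    exact HasDerivAt.fun_sum fun j _ => (hasDerivAt_seg (diffAt_pdv (hf s hs) j)).mul_const _
  have c3 : ContinuousOn (fun s : ℝ => ∑ j, (∑ i, pdv i (pdv j f) (x + s • p) * p i) * p j)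
      (Icc 0 1) := continuousOn_finsetSum _ fun j _ =>
    (continuousOn_finsetSum _ fun i _ => (c2 i j).mul continuousOn_const).mul continuousOn_const
  have c4 : ContinuousOn (fun s : ℝ => hsq f (x + s • p) * ‖p‖ ^ 4) (Icc 0 1) :=
    (continuousOn_finsetSum _ fun i _ => continuousOn_finsetSum _ fun j _ => (c2 i j).pow 2).mul
      continuousOn_const
  have c1 : ContinuousOn (fun r : ℝ => fderiv ℝ f (x + r • p) p) (Icc 0 1) :=
    fun s hs => (h2 s hs).continuousAt.continuousWithinAt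
  have h := gain_1d (fun s hs => hasDerivAt_seg ((hf s hs).differentiableAt (by norm_num))) h2 c3
  simp only [one_smul, zero_smul, add_zero] at h
  have h0 : ∀ s : ℝ, 0 ≤ hsq f (x + s • p) * ‖p‖ ^ 4 := fun s =>
    mul_nonneg (hsq_nonneg _ _) (by positivity)
  rw [← ofReal_integral_eq ((c1.fun_pow 2).intervalIntegrable_of_Icc zero_le_one)
    fun _ => sq_nonneg _,
    ← ofReal_integral_eq (c4.intervalIntegrable_of_Icc zero_le_one) h0,
    ← ENNReal.ofReal_add (sq_nonneg _) (intervalIntegral.integral_nonneg zero_le_one fun s _ => h0 s)]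
  refine ENNReal.ofReal_le_ofReal (h.trans (add_le_add le_rfl ?_))
  exact intervalIntegral.integral_mono_on zero_le_one
    ((c3.pow 2).intervalIntegrable_of_Icc zero_le_one) (c4.intervalIntegrable_of_Icc zero_le_one)
    fun s _ => quad_sq_le f _ p

/-- M-LEMMA, gain -/
theorem glemma {Ω : Set (EE n)} {f : EE n → ℝ} (hf : ∀ x ∈ Ω, ContDiffAt ℝ 2 f x)
    (hm : Measurable f) {K : EE n × EE n → ℝ≥0∞} (hK : Measurable K)
    (hs : ∀ x p, K (x, p) ≠ 0 → ∀ s ∈ Icc (0 : ℝ) 1, x + s • p ∈ Ω) :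
    ∫⁻ w, ∫⁻ p, Kb K w p * ENNReal.ofReal (fderiv ℝ f w p ^ 2) ≤
      (∫⁻ x, ∫⁻ p, K (x, p) * ENNReal.ofReal ((f (x + p) - f x) ^ 2)) +
        ∫⁻ w, ∫⁻ p, Kb K w p * ENNReal.ofReal (hsq f w * ‖p‖ ^ 4) := by
  have m1 : Measurable fun q : EE n × EE n => K q * ENNReal.ofReal ((f (q.1 + q.2) - f q.1) ^ 2) :=
    hK.mul (((hm.comp (by fun_prop)).sub (hm.comp measurable_fst)).pow_const 2).ennreal_ofReal
  rw [← shear_Kb (F := fun q => ENNReal.ofReal (fderiv ℝ f q.1 q.2 ^ 2)) hK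
    ((measurable_fderiv_pair f).pow_const 2).ennreal_ofReal,
    ← shear_Kb (F := fun q => ENNReal.ofReal (hsq f q.1 * ‖q.2‖ ^ 4)) hK
    (((measurable_hsq f).comp measurable_fst).mul (by fun_prop)).ennreal_ofReal,
    ← lintegral_add_left m1.lintegral_prod_right']
  refine lintegral_mono fun x => ?_
  simp only
  rw [← lintegral_add_left (f := fun p => K (x, p) * ENNReal.ofReal ((f (x + p) - f x) ^ 2))
    (m1.comp measurable_prodMk_left)]
  refine lintegral_mono fun p => ?_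
  by_cases h0 : K (x, p) = 0
  · simp [h0]
  rw [← mul_add]
  exact mul_le_mul_right (gain_seg fun s h => hf _ (hs x p h0 s h)) _

end

end Crest.Agent.N067.Ker
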