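import Crest.Agent.N067.A.All

/-!
# Row 67, basics: the one-dimensional marginal of the kernel `(μ - Δ)⁻¹` (helper43)

`∫ Gk μ z * f ⟪e, z⟫ dz = ∫ g1 μ s * f s ds`, `g1 μ s = exp (-√μ |s|) / (2 √μ)`, `‖e‖ = 1`.
-/

set_option autoImplicit false

open MeasureTheory Laplacian InnerProductSpace Topology Filter Set Metric
open scoped RealInnerProductSpace ContDiff Gradient ENNReal

namespace Crest.Agent.N067

open Crest.Agent.R077 Ker

noncomputable section

variable {n : ℕ}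

/-- the one-dimensional kernel -/
def g1 (μ s : ℝ) : ℝ := Real.exp (-√μ * |s|) / (2 * √μ)

theorem g1_nonneg (μ s : ℝ) : 0 ≤ g1 μ s := by unfold g1; positivity

theorem g1_pos {μ : ℝ} (hμ : 0 < μ) (s : ℝ) : 0 < g1 μ s := by
  have := Real.sqrt_pos.2 hμ
  unfold g1; positivity

theorem continuous_g1 (μ : ℝ) : Continuous (g1 μ) := by unfold g1; fun_prop

theorem g1_neg (μ s : ℝ) : g1 μ (-s) = g1 μ s := by simp [g1]

theorem g1_le (μ s : ℝ) : g1 μ s ≤ Real.exp (-√μ * s) / (2 * √μ) := by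
  unfold g1
  refine div_le_div_of_nonneg_right (Real.exp_le_exp.2 ?_) (by positivity)
  nlinarith [le_abs_self s, Real.sqrt_nonneg μ]

theorem g1_of_nonneg (μ : ℝ) {s : ℝ} (hs : 0 ≤ s) : g1 μ s = Real.exp (-√μ * s) / (2 * √μ) := by
  rw [g1, abs_of_nonneg hs]

theorem contDiff_ridge (e : EE n) {k : WithTop ℕ∞} : ContDiff ℝ k fun z : EE n => ⟪e, z⟫ :=
  (innerSL ℝ e).contDiff

theorem gsq_ridge (e z : EE n) : gsq (fun z : EE n => ⟪e, z⟫) z = ‖e‖ ^ 2 := by
  simp only [gsq, pdv_inner]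
  rw [EuclideanSpace.norm_sq_eq]
  simp

theorem lap_ridge {e : EE n} (he : ‖e‖ = 1) {φ φ1 φ2 : ℝ → ℝ} (hφ : ContDiff ℝ 2 φ)
    (h1 : ∀ s, HasDerivAt φ (φ1 s) s) (h2 : ∀ s, HasDerivAt φ1 (φ2 s) s) (z : EE n) :
    (Δ fun z : EE n => φ ⟪e, z⟫) z = φ2 ⟪e, z⟫ := by
  rw [lap_comp (f := fun z : EE n => ⟪e, z⟫) (contDiff_ridge e).contDiffAt hφ.contDiffAt
    (Eventually.of_forall h1) (h2 _), lap_inner, gsq_ridge, he]
  ring

/-- representation formula for ridge functions -/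
theorem rep_ridge {μ M : ℝ} (hμ : 0 < μ) {e : EE n} (he : ‖e‖ = 1) {φ φ1 φ2 : ℝ → ℝ}
    (hφ : ContDiff ℝ 2 φ) (h1 : ∀ s, HasDerivAt φ (φ1 s) s) (h2 : ∀ s, HasDerivAt φ1 (φ2 s) s)
    (b0 : ∀ s, |φ s| ≤ M) (b2 : ∀ s, |φ2 s| ≤ M) :
    ∫ z : EE n, Gk μ z * (μ * φ ⟪e, z⟫ - φ2 ⟪e, z⟫) = φ 0 := by
  have h := rep_zero (a := 0) (M := M) hμ le_rfl (by simpa using hμ)
    (hφ.comp (contDiff_ridge e)) (gr_of_bdd fun z => b0 _) (gr_of_bdd fun z => by
      rw [Function.comp_def, lap_ridge he hφ h1 h2]; exact b2 _)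
  simp only [Function.comp_def, lap_ridge he hφ h1 h2, inner_zero_right] at h
  exact h.symm

theorem Gk_cos {μ : ℝ} (hμ : 0 < μ) {e : EE n} (he : ‖e‖ = 1) (ξ θ : ℝ) :
    ∫ z : EE n, Gk μ z * Real.cos (ξ * ⟪e, z⟫ + θ) = Real.cos θ / (μ + ξ ^ 2) := by
  have hl : ∀ s, HasDerivAt (fun s => ξ * s + θ) ξ s := fun s => by
    simpa using ((hasDerivAt_id s).const_mul ξ).add_const θ
  have h := rep_ridge (M := 1 + ξ ^ 2) hμ he (φ := fun s => Real.cos (ξ * s + θ))
    (φ1 := fun s => -Real.sin (ξ * s + θ) * ξ) (φ2 := fun s => -(Real.cos (ξ * s + θ) * ξ) * ξ)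
    (by fun_prop) (fun s => (hl s).cos) (fun s => (hl s).sin.neg.mul_const ξ)
    (fun s => (Real.abs_cos_le_one _).trans (by nlinarith [sq_nonneg ξ])) fun s => by
      rw [neg_mul, abs_neg, mul_assoc, abs_mul, abs_mul_self]
      nlinarith [Real.abs_cos_le_one (ξ * s + θ), mul_self_nonneg ξ, abs_nonneg (Real.cos (ξ * s + θ))]
  have e1 : ∀ z : EE n, Gk μ z * (μ * Real.cos (ξ * ⟪e, z⟫ + θ) - -(Real.cos (ξ * ⟪e, z⟫ + θ) * ξ) * ξ)
      = (μ + ξ ^ 2) * (Gk μ z * Real.cos (ξ * ⟪e, z⟫ + θ)) := fun z => by ring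
  simp only [e1, integral_const_mul, mul_zero, zero_add] at h
  rw [← h, mul_div_cancel_left₀ _ (by positivity)]

theorem g1_cexp {μ : ℝ} (hμ : 0 < μ) (ξ : ℝ) :
    Integrable (fun s : ℝ => g1 μ s • Complex.exp (ξ * s * Complex.I)) ∧
      ∫ s : ℝ, g1 μ s • Complex.exp (ξ * s * Complex.I) = ((μ + ξ ^ 2)⁻¹ : ℝ) := by
  have hk := Real.sqrt_pos.2 hμ
  have hk2 : ((√μ : ℝ) : ℂ) ^ 2 = μ := by exact_mod_cast Real.sq_sqrt hμ.le
  set k := √μ with hkk
  have e1 : EqOn (fun s : ℝ => g1 μ s • Complex.exp (ξ * s * Complex.I))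
      (fun s : ℝ => (2 * k : ℂ)⁻¹ * Complex.exp ((k + ξ * Complex.I) * s)) (Iic 0) := by
    intro s hs
    simp only [g1, ← hkk, abs_of_nonpos (mem_Iic.1 hs), Complex.real_smul]
    push_cast
    rw [div_mul_eq_mul_div, ← Complex.exp_add, div_eq_inv_mul]
    congr 2; ring
  have e2 : EqOn (fun s : ℝ => g1 μ s • Complex.exp (ξ * s * Complex.I))
      (fun s : ℝ => (2 * k : ℂ)⁻¹ * Complex.exp ((-k + ξ * Complex.I) * s)) (Ioi 0) := by
    intro s hs
    simp only [g1, ← hkk, abs_of_pos (mem_Ioi.1 hs), Complex.real_smul]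
    push_cast
    rw [div_mul_eq_mul_div, ← Complex.exp_add, div_eq_inv_mul]
    congr 2; ring
  have r1 : 0 < ((k : ℂ) + ξ * Complex.I).re := by simpa using hk
  have r2 : (-(k : ℂ) + ξ * Complex.I).re < 0 := by simpa using hk
  have i1 := ((integrableOn_exp_mul_complex_Iic r1 0).const_mul (2 * k : ℂ)⁻¹)
  have i2 := ((integrableOn_exp_mul_complex_Ioi r2 0).const_mul (2 * k : ℂ)⁻¹)
  have j1 := IntegrableOn.congr_fun i1 e1.symm measurableSet_Iic
  have j2 := IntegrableOn.congr_fun i2 e2.symm measurableSet_Ioi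
  refine ⟨by simpa only [Iic_union_Ioi, integrableOn_univ] using j1.union j2, ?_⟩
  rw [← intervalIntegral.integral_Iic_add_Ioi j1 j2, setIntegral_congr_fun measurableSet_Iic e1,
    setIntegral_congr_fun measurableSet_Ioi e2, integral_const_mul, integral_const_mul,
    integral_exp_mul_complex_Iic r1, integral_exp_mul_complex_Ioi r2]
  have n0 : (k : ℂ) ≠ 0 := by exact_mod_cast hk.ne'
  have n1 : (k : ℂ) + ξ * Complex.I ≠ 0 := fun h => by rw [h] at r1; simp at r1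
  have n2 : -(k : ℂ) + ξ * Complex.I ≠ 0 := fun h => by rw [h] at r2; simp at r2
  have n3 : (μ : ℂ) + (ξ : ℂ) ^ 2 ≠ 0 := by exact_mod_cast (show μ + ξ ^ 2 ≠ 0 by positivity)
  push_cast
  simp only [mul_zero, Complex.exp_zero]
  rw [← hk2] at n3 ⊢
  field_simp
  linear_combination (-2 * (k : ℂ) * ξ ^ 2) * Complex.I_sq

theorem integrable_g1 {μ : ℝ} (hμ : 0 < μ) : Integrable (g1 μ) := by
  simpa [abs_of_nonneg (g1_nonneg μ _)] using (g1_cexp hμ 0).1.norm

/-- the law of `⟪e, z⟫` under `Gk μ z dz` -/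
theorem map_Gk {μ : ℝ} (hμ : 0 < μ) {e : EE n} (he : ‖e‖ = 1) :
    (volume.withDensity fun z : EE n => ENNReal.ofReal (Gk μ z)).map (fun z => ⟪e, z⟫)
      = volume.withDensity fun s => ENNReal.ofReal (g1 μ s) := by
  have := isFiniteMeasure_withDensity_ofReal (integrable_Gk (n := n) hμ).2
  have := isFiniteMeasure_withDensity_ofReal (integrable_g1 hμ).2
  have cr : Continuous fun z : EE n => ⟪e, z⟫ := (contDiff_ridge e (k := 0)).continuous
  refine Measure.ext_of_charFun (funext fun ξ => ?_)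
  rw [charFun_apply_real, charFun_apply_real, integral_map cr.aemeasurable (by fun_prop),
    integral_withDensity_eq_integral_toReal_smul (measurable_Gk μ).ennreal_ofReal (by simp),
    integral_withDensity_eq_integral_toReal_smul (continuous_g1 μ).measurable.ennreal_ofReal
      (by simp)]
  simp only [ENNReal.toReal_ofReal (Gk_nonneg μ _), ENNReal.toReal_ofReal (g1_nonneg μ _),
    (g1_cexp hμ ξ).2]
  have i : ∀ θ, Integrable fun z : EE n => Gk μ z * Real.cos (ξ * ⟪e, z⟫ + θ) := fun θ =>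
    (integrable_Gk hμ).mul_bdd (c := 1) (by fun_prop)
      (Eventually.of_forall fun z => Real.abs_cos_le_one _)
  have e1 : ∀ z : EE n, Gk μ z • Complex.exp (ξ * (⟪e, z⟫ : ℝ) * Complex.I)
      = ((Gk μ z * Real.cos (ξ * ⟪e, z⟫ + 0) : ℝ) : ℂ)
        + ((Gk μ z * Real.cos (ξ * ⟪e, z⟫ + -(Real.pi / 2)) : ℝ) : ℂ) * Complex.I := by
    intro z
    rw [← sub_eq_add_neg, Real.cos_sub_pi_div_two, add_zero, ← Complex.ofReal_mul,
      Complex.exp_mul_I, Complex.real_smul]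
    push_cast
    ring
  simp only [e1]
  rw [integral_add (f := fun z : EE n => ((Gk μ z * Real.cos (ξ * ⟪e, z⟫ + 0) : ℝ) : ℂ))
    (g := fun z : EE n => ((Gk μ z * Real.cos (ξ * ⟪e, z⟫ + -(Real.pi / 2)) : ℝ) : ℂ) * Complex.I)
    (i 0).ofReal ((i _).ofReal.mul_const _), integral_mul_const,
    integral_complex_ofReal, integral_complex_ofReal, Gk_cos hμ he, Gk_cos hμ he]
  simp

/-- **marginal of the kernel**, `lintegral` form -/
theorem lintegral_Gk_ridge {μ : ℝ} (hμ : 0 < μ) {e : EE n} (he : ‖e‖ = 1) {f : ℝ → ℝ≥0∞}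
    (hf : Measurable f) :
    ∫⁻ z : EE n, ENNReal.ofReal (Gk μ z) * f ⟪e, z⟫ = ∫⁻ s, ENNReal.ofReal (g1 μ s) * f s := by
  have cr : Measurable fun z : EE n => ⟪e, z⟫ := (contDiff_ridge e (k := 0)).continuous.measurable
  have h1 := lintegral_withDensity_eq_lintegral_mul volume (measurable_Gk (n := n) μ).ennreal_ofReal
    (hf.comp cr)
  have h2 := lintegral_withDensity_eq_lintegral_mul volume
    (continuous_g1 μ).measurable.ennreal_ofReal hf
  rw [← map_Gk hμ he, lintegral_map hf cr] at h2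
  exact h1.symm.trans h2

/-- **marginal of the kernel** -/
theorem integral_Gk_ridge {μ : ℝ} (hμ : 0 < μ) {e : EE n} (he : ‖e‖ = 1) {f : ℝ → ℝ}
    (hf : Measurable f) : ∫ z : EE n, Gk μ z * f ⟪e, z⟫ = ∫ s, g1 μ s * f s := by
  have cr : Measurable fun z : EE n => ⟪e, z⟫ := (contDiff_ridge e (k := 0)).continuous.measurable
  have h1 := integral_withDensity_eq_integral_toReal_smul (μ := volume)
    (measurable_Gk (n := n) μ).ennreal_ofReal (by simp) (fun z => f ⟪e, z⟫)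
  have h2 := integral_withDensity_eq_integral_toReal_smul (μ := volume)
    (continuous_g1 μ).measurable.ennreal_ofReal (by simp) f
  rw [← map_Gk hμ he, integral_map cr.aemeasurable hf.aestronglyMeasurable, h1] at h2
  simpa only [ENNReal.toReal_ofReal (Gk_nonneg μ _), ENNReal.toReal_ofReal (g1_nonneg μ _),
    smul_eq_mul] using h2

theorem integrable_Gk_ridge {μ : ℝ} (hμ : 0 < μ) {e : EE n} (he : ‖e‖ = 1) {f : ℝ → ℝ}
    (hf : Measurable f) :
    (Integrable fun z : EE n => Gk μ z * f ⟪e, z⟫) ↔ Integrable fun s => g1 μ s * f s := by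
  have cr : Measurable fun z : EE n => ⟪e, z⟫ := (contDiff_ridge e (k := 0)).continuous.measurable
  have h := lintegral_Gk_ridge hμ he hf.enorm
  have m1 : AEStronglyMeasurable (fun z : EE n => Gk μ z * f ⟪e, z⟫) volume :=
    ((measurable_Gk μ).mul (hf.comp cr)).aestronglyMeasurable
  have m2 : AEStronglyMeasurable (fun s => g1 μ s * f s) volume :=
    ((continuous_g1 μ).measurable.mul hf).aestronglyMeasurable
  simp only [Integrable, m1, m2, true_and, HasFiniteIntegral, enorm_mul,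
    Real.enorm_of_nonneg (Gk_nonneg μ _), Real.enorm_of_nonneg (g1_nonneg μ _), h]

end

end Crest.Agent.N067
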