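import Crest.Agent.N067.A.Marg

/-!
Row 67, STAB tools (helper2): tangential second moments of the kernel.  For `a ⊥ e`, `‖e‖ = 1`:
`∫ G(z) ⟪a,z⟫² f ⟪e,z⟫ dz = 2 ‖a‖² ∬ g1 s g1 t f (s + t)`.
-/

set_option autoImplicit false

open MeasureTheory Laplacian InnerProductSpace Topology Filter Set Metric
open scoped RealInnerProductSpace ContDiff Gradient ENNReal

namespace Crest.Agent.N067

open Crest.Agent.R077 Ker

noncomputable section

variable {n : ℕ}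

theorem sq_le_exp {b : ℝ} (hb : 0 < b) {r : ℝ} (hr : 0 ≤ r) :
    r ^ 2 ≤ 2 / b ^ 2 * Real.exp (b * r) := by
  have h := Real.quadratic_le_exp_of_nonneg (mul_nonneg hb.le hr)
  rw [div_mul_eq_mul_div, le_div_iff₀ (by positivity)]
  nlinarith [mul_nonneg hb.le hr]

theorem gr_inner_sq {b : ℝ} (hb : 0 < b) (a : EE n) :
    Gr b (‖a‖ ^ 2 * (2 / b ^ 2)) fun z : EE n => ⟪a, z⟫ ^ 2 := fun z => by
  simp only
  rw [abs_of_nonneg (sq_nonneg _), mul_assoc, ← sq_abs ⟪a, z⟫]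
  refine (pow_le_pow_left₀ (abs_nonneg _) (abs_real_inner_le_norm a z) 2).trans ?_
  rw [mul_pow]
  exact mul_le_mul_of_nonneg_left (sq_le_exp hb (norm_nonneg z)) (sq_nonneg _)

theorem half_sqrt_sq {μ : ℝ} (hμ : 0 < μ) : (√μ / 2) ^ 2 < μ := by
  rw [div_pow, Real.sq_sqrt hμ.le]
  linarith

theorem integrable_Gk_sq {μ : ℝ} (hμ : 0 < μ) (a : EE n) :
    Integrable fun z : EE n => Gk μ z * ⟪a, z⟫ ^ 2 :=
  integrable_Gk_mul hμ (half_sqrt_sq hμ) (by fun_prop)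
    (gr_inner_sq (half_pos (Real.sqrt_pos.2 hμ)) a)

theorem lap_sq_ridge {a e : EE n} (he : ‖e‖ = 1) (hae : ⟪a, e⟫ = 0) {φ φ1 φ2 : ℝ → ℝ}
    (hφ : ContDiff ℝ 2 φ) (h1 : ∀ s, HasDerivAt φ (φ1 s) s) (h2 : ∀ s, HasDerivAt φ1 (φ2 s) s)
    (z : EE n) : (Δ fun z : EE n => ⟪a, z⟫ ^ 2 * φ ⟪e, z⟫) z =
      2 * ‖a‖ ^ 2 * φ ⟪e, z⟫ + ⟪a, z⟫ ^ 2 * φ2 ⟪e, z⟫ := by
  have ca : ContDiff ℝ 2 fun z : EE n => ⟪a, z⟫ := contDiff_ridge a
  have ce : ContDiff ℝ 2 fun z : EE n => ⟪e, z⟫ := contDiff_ridge e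
  rw [lap_mul (ca.pow 2) (g := fun z => φ ⟪e, z⟫) (hφ.comp ce), lap_ridge he hφ h1 h2,
    lap_sq ca.contDiffAt, lap_inner, gsq_ridge]
  have : ∑ i, pdv i (fun z : EE n => ⟪a, z⟫ ^ 2) z * pdv i (fun z : EE n => φ ⟪e, z⟫) z = 0 := by
    have e1 : ∀ i, pdv i (fun z : EE n => ⟪a, z⟫ ^ 2) z * pdv i (fun z : EE n => φ ⟪e, z⟫) z
        = 2 * ⟪a, z⟫ * φ1 ⟪e, z⟫ * (a i * e i) := fun i => by
      rw [pdv_sq (ca.differentiable (by norm_num) z),
        pdv_comp (f := fun z : EE n => ⟪e, z⟫) (h1 _) (ce.differentiable (by norm_num) z),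
        pdv_inner, pdv_inner]
      ring
    simp only [e1, ← Finset.mul_sum, ← inner_eq_sum, hae, mul_zero]
  rw [this]
  ring

/-- second moment of ridge functions -/
theorem rep_sq_ridge {μ M : ℝ} (hμ : 0 < μ) {a e : EE n} (he : ‖e‖ = 1) (hae : ⟪a, e⟫ = 0)
    {φ φ1 φ2 : ℝ → ℝ} (hφ : ContDiff ℝ 2 φ) (h1 : ∀ s, HasDerivAt φ (φ1 s) s)
    (h2 : ∀ s, HasDerivAt φ1 (φ2 s) s) (c2 : Continuous φ2) (b0 : ∀ s, |φ s| ≤ M)
    (b2 : ∀ s, |φ2 s| ≤ M) :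
    ∫ z : EE n, Gk μ z * ⟪a, z⟫ ^ 2 * (μ * φ ⟪e, z⟫ - φ2 ⟪e, z⟫) =
      2 * ‖a‖ ^ 2 * ∫ z : EE n, Gk μ z * φ ⟪e, z⟫ := by
  have hb := half_pos (Real.sqrt_pos.2 hμ)
  have ca : ContDiff ℝ 2 fun z : EE n => ⟪a, z⟫ := contDiff_ridge a
  have ce : ContDiff ℝ 2 fun z : EE n => ⟪e, z⟫ := contDiff_ridge e
  have cφ := hφ.continuous
  have g0 := (gr_inner_sq hb a).mul (gr_of_bdd (f := fun z : EE n => φ ⟪e, z⟫) fun z => b0 _)
  have g2 := (gr_inner_sq hb a).mul (gr_of_bdd (f := fun z : EE n => φ2 ⟪e, z⟫) fun z => b2 _)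
  have g1 := ((gr_of_bdd (f := fun z : EE n => φ ⟪e, z⟫) fun z => b0 _).const_mul
    (2 * ‖a‖ ^ 2)).mono hb.le
  rw [add_zero] at g0 g2
  have g3 := g1.add g2
  have h := rep_zero (M := |2 * ‖a‖ ^ 2| * M + ‖a‖ ^ 2 * (2 / (√μ / 2) ^ 2) * M) hμ hb.le
    (half_sqrt_sq hμ) ((ca.pow 2).mul (hφ.comp ce))
    (fun z => (g0 z).trans (mul_le_mul_of_nonneg_right (by linarith [g1.nonneg]) (Real.exp_pos _).le))
    (fun z => by
      simp only [Function.comp_def]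
      rw [lap_sq_ridge he hae hφ h1 h2]
      exact g3 z)
  simp only [Function.comp_def, lap_sq_ridge he hae hφ h1 h2, inner_zero_right] at h
  have i1 : Integrable fun z : EE n => Gk μ z * ⟪a, z⟫ ^ 2 * (μ * φ ⟪e, z⟫ - φ2 ⟪e, z⟫) :=
    (integrable_Gk_sq hμ a).mul_bdd (c := |μ| * M + M) (by fun_prop)
      (Eventually.of_forall fun z => (abs_sub _ _).trans (add_le_add (by
        rw [abs_mul]
        exact mul_le_mul_of_nonneg_left (b0 _) (abs_nonneg _)) (b2 _)))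
  have i2 : Integrable fun z : EE n => Gk μ z * φ ⟪e, z⟫ :=
    (integrable_Gk hμ).mul_bdd (by fun_prop) (Eventually.of_forall fun z => b0 _)
  rw [← sub_eq_zero, ← integral_const_mul, ← integral_sub i1 (i2.const_mul _)]
  refine Eq.trans ?_ (h.symm.trans (by simp))
  congr 1
  funext z
  ring

theorem Gk_sq_cos {μ : ℝ} (hμ : 0 < μ) {a e : EE n} (he : ‖e‖ = 1) (hae : ⟪a, e⟫ = 0) (ξ θ : ℝ) :
    ∫ z : EE n, Gk μ z * ⟪a, z⟫ ^ 2 * Real.cos (ξ * ⟪e, z⟫ + θ) =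
      2 * ‖a‖ ^ 2 * (Real.cos θ / (μ + ξ ^ 2) ^ 2) := by
  have hl : ∀ s, HasDerivAt (fun s => ξ * s + θ) ξ s := fun s => by
    simpa using ((hasDerivAt_id s).const_mul ξ).add_const θ
  have h := rep_sq_ridge (M := 1 + ξ ^ 2) hμ he hae (φ := fun s => Real.cos (ξ * s + θ))
    (φ1 := fun s => -Real.sin (ξ * s + θ) * ξ) (φ2 := fun s => -(Real.cos (ξ * s + θ) * ξ) * ξ)
    (by fun_prop) (fun s => (hl s).cos) (fun s => (hl s).sin.neg.mul_const ξ) (by fun_prop)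
    (fun s => (Real.abs_cos_le_one _).trans (by nlinarith [sq_nonneg ξ])) fun s => by
      rw [neg_mul, abs_neg, mul_assoc, abs_mul, abs_mul_self]
      nlinarith [Real.abs_cos_le_one (ξ * s + θ), mul_self_nonneg ξ, abs_nonneg (Real.cos (ξ * s + θ))]
  have e1 : ∀ z : EE n, Gk μ z * ⟪a, z⟫ ^ 2 *
      (μ * Real.cos (ξ * ⟪e, z⟫ + θ) - -(Real.cos (ξ * ⟪e, z⟫ + θ) * ξ) * ξ)
      = (μ + ξ ^ 2) * (Gk μ z * ⟪a, z⟫ ^ 2 * Real.cos (ξ * ⟪e, z⟫ + θ)) := fun z => by ring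
  simp only [e1, integral_const_mul, Gk_cos hμ he] at h
  have hp : 0 < μ + ξ ^ 2 := by positivity
  refine mul_left_cancel₀ hp.ne' (h.trans ?_)
  field_simp

theorem charFun_g1 {μ : ℝ} (hμ : 0 < μ) (ξ : ℝ) :
    charFun (volume.withDensity fun s => ENNReal.ofReal (g1 μ s)) ξ = ((μ + ξ ^ 2)⁻¹ : ℝ) := by
  rw [charFun_apply_real,
    integral_withDensity_eq_integral_toReal_smul (continuous_g1 μ).measurable.ennreal_ofReal
      (by simp)]
  simp only [ENNReal.toReal_ofReal (g1_nonneg μ _), (g1_cexp hμ ξ).2]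

theorem map_Gk_sq {μ : ℝ} (hμ : 0 < μ) {a e : EE n} (he : ‖e‖ = 1) (hae : ⟪a, e⟫ = 0) :
    (volume.withDensity fun z : EE n => ENNReal.ofReal (Gk μ z * ⟪a, z⟫ ^ 2)).map (fun z => ⟪e, z⟫)
      = (2 * ‖a‖₊ ^ 2) • ((volume.withDensity fun s => ENNReal.ofReal (g1 μ s)) ∗
        (volume.withDensity fun s => ENNReal.ofReal (g1 μ s))) := by
  have := isFiniteMeasure_withDensity_ofReal (integrable_Gk_sq hμ a).2
  have := isFiniteMeasure_withDensity_ofReal (integrable_g1 hμ).2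
  have cr : Continuous fun z : EE n => ⟪e, z⟫ := (contDiff_ridge e (k := 0)).continuous
  have mG : Measurable fun z : EE n => Gk μ z * ⟪a, z⟫ ^ 2 := (measurable_Gk μ).mul (by fun_prop)
  have nG : ∀ z : EE n, 0 ≤ Gk μ z * ⟪a, z⟫ ^ 2 := fun z => mul_nonneg (Gk_nonneg μ z) (sq_nonneg _)
  refine Measure.ext_of_charFun (funext fun ξ => ?_)
  rw [charFun_apply_real (μ := _ • _), integral_smul_nnreal_measure, ← charFun_apply_real,
    charFun_conv, charFun_g1 hμ, charFun_apply_real, integral_map cr.aemeasurable (by fun_prop),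
    integral_withDensity_eq_integral_toReal_smul mG.ennreal_ofReal (by simp)]
  simp only [ENNReal.toReal_ofReal (nG _)]
  have i : ∀ θ, Integrable fun z : EE n => Gk μ z * ⟪a, z⟫ ^ 2 * Real.cos (ξ * ⟪e, z⟫ + θ) :=
    fun θ => (integrable_Gk_sq hμ a).mul_bdd (c := 1) (by fun_prop)
      (Eventually.of_forall fun z => Real.abs_cos_le_one _)
  have e1 : ∀ z : EE n, (Gk μ z * ⟪a, z⟫ ^ 2) • Complex.exp (ξ * (⟪e, z⟫ : ℝ) * Complex.I)
      = ((Gk μ z * ⟪a, z⟫ ^ 2 * Real.cos (ξ * ⟪e, z⟫ + 0) : ℝ) : ℂ)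
        + ((Gk μ z * ⟪a, z⟫ ^ 2 * Real.cos (ξ * ⟪e, z⟫ + -(Real.pi / 2)) : ℝ) : ℂ) * Complex.I := by
    intro z
    rw [← sub_eq_add_neg, Real.cos_sub_pi_div_two, add_zero, ← Complex.ofReal_mul,
      Complex.exp_mul_I, Complex.real_smul]
    push_cast
    ring
  simp only [e1]
  rw [integral_add (f := fun z : EE n =>
      ((Gk μ z * ⟪a, z⟫ ^ 2 * Real.cos (ξ * ⟪e, z⟫ + 0) : ℝ) : ℂ))
    (g := fun z : EE n =>
      ((Gk μ z * ⟪a, z⟫ ^ 2 * Real.cos (ξ * ⟪e, z⟫ + -(Real.pi / 2)) : ℝ) : ℂ) * Complex.I)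
    (i 0).ofReal ((i _).ofReal.mul_const _), integral_mul_const,
    integral_complex_ofReal, integral_complex_ofReal, Gk_sq_cos hμ he hae, Gk_sq_cos hμ he hae]
  simp only [NNReal.smul_def, Real.cos_zero, Real.cos_neg, Real.cos_pi_div_two, Complex.real_smul]
  push_cast
  rw [one_div, ← inv_pow]
  ring

/-- **tangential second moment**, `lintegral` form -/
theorem lintegral_Gk_sq_ridge {μ : ℝ} (hμ : 0 < μ) {a e : EE n} (he : ‖e‖ = 1) (hae : ⟪a, e⟫ = 0)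
    {f : ℝ → ℝ≥0∞} (hf : Measurable f) :
    ∫⁻ z : EE n, ENNReal.ofReal (Gk μ z * ⟪a, z⟫ ^ 2) * f ⟪e, z⟫ = ENNReal.ofReal (2 * ‖a‖ ^ 2) *
      ∫⁻ s, ENNReal.ofReal (g1 μ s) * ∫⁻ t, ENNReal.ofReal (g1 μ t) * f (s + t) := by
  have := isFiniteMeasure_withDensity_ofReal (integrable_g1 hμ).2
  have cr : Measurable fun z : EE n => ⟪e, z⟫ := (contDiff_ridge e (k := 0)).continuous.measurable
  have mG : Measurable fun z : EE n => Gk μ z * ⟪a, z⟫ ^ 2 := (measurable_Gk μ).mul (by fun_prop)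
  have mg := (continuous_g1 μ).measurable.ennreal_ofReal
  have h1 := lintegral_withDensity_eq_lintegral_mul volume mG.ennreal_ofReal (hf.comp cr)
  have h2 := lintegral_map (μ := volume.withDensity fun z : EE n =>
    ENNReal.ofReal (Gk μ z * ⟪a, z⟫ ^ 2)) hf cr
  rw [map_Gk_sq hμ he hae, lintegral_smul_measure, Measure.lintegral_conv hf] at h2
  refine (h1.symm.trans h2.symm).trans ?_
  have m2 : Measurable fun s : ℝ => ∫⁻ t, ENNReal.ofReal (g1 μ t) * f (s + t) :=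
    Measurable.lintegral_prod_right' (f := fun q : ℝ × ℝ => ENNReal.ofReal (g1 μ q.2) * f (q.1 + q.2))
      ((mg.comp measurable_snd).mul (hf.comp (by fun_prop)))
  have e : ∀ s : ℝ, ∫⁻ t, f (s + t) ∂(volume.withDensity fun s => ENNReal.ofReal (g1 μ s)) =
      ∫⁻ t, ENNReal.ofReal (g1 μ t) * f (s + t) := fun s =>
    lintegral_withDensity_eq_lintegral_mul volume mg (hf.comp (by fun_prop))
  simp_rw [e]
  rw [lintegral_withDensity_eq_lintegral_mul volume mg m2, ENNReal.smul_def, smul_eq_mul,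
    ENNReal.ofReal_eq_coe_nnreal (by positivity)]
  rfl

/-- symmetry of the one-dimensional kernel: `∫ f (g1 * (g1 * f)) = ∫ (g1 * f)²` -/
theorem lintegral_g1_g1 (μ : ℝ) {f : ℝ → ℝ≥0∞} (hf : Measurable f) :
    ∫⁻ x, f x * ∫⁻ s, ENNReal.ofReal (g1 μ s) * ∫⁻ t, ENNReal.ofReal (g1 μ t) * f (x + (s + t)) =
      ∫⁻ y, (∫⁻ s, ENNReal.ofReal (g1 μ s) * f (y + s)) ^ 2 := by
  have mg := (continuous_g1 μ).measurable.ennreal_ofReal
  set h : ℝ → ℝ≥0∞ := fun y => ∫⁻ s, ENNReal.ofReal (g1 μ s) * f (y + s) with hh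
  have mh : Measurable h :=
    Measurable.lintegral_prod_right' (f := fun q : ℝ × ℝ => ENNReal.ofReal (g1 μ q.2) * f (q.1 + q.2))
      ((mg.comp measurable_snd).mul (hf.comp (by fun_prop)))
  calc _ = ∫⁻ x, ∫⁻ s, f x * (ENNReal.ofReal (g1 μ s) * h (x + s)) := by
        refine lintegral_congr fun x => ?_
        rw [lintegral_const_mul _ (f := fun s => ENNReal.ofReal (g1 μ s) * h (x + s))
          (mg.mul (mh.comp (by fun_prop)))]
        simp only [hh, add_assoc]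
    _ = ∫⁻ s, ∫⁻ x, f x * (ENNReal.ofReal (g1 μ s) * h (x + s)) :=
        lintegral_lintegral_swap ((hf.comp measurable_fst).mul
          ((mg.comp measurable_snd).mul (mh.comp (by fun_prop)))).aemeasurable
    _ = ∫⁻ s, ∫⁻ y, f (y - s) * (ENNReal.ofReal (g1 μ s) * h y) := by
        refine lintegral_congr fun s => ?_
        rw [← lintegral_add_right_eq_self (fun y => f (y - s) * (ENNReal.ofReal (g1 μ s) * h y)) s]
        simp only [add_sub_cancel_right]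
    _ = ∫⁻ y, ∫⁻ s, f (y - s) * (ENNReal.ofReal (g1 μ s) * h y) :=
        lintegral_lintegral_swap ((hf.comp (by fun_prop)).mul
          ((mg.comp measurable_fst).mul (mh.comp measurable_snd))).aemeasurable
    _ = _ := by
        refine lintegral_congr fun y => ?_
        rw [← lintegral_neg_eq_self]
        simp only [sub_neg_eq_add, g1_neg, mul_comm (f _), mul_right_comm _ (h y)]
        rw [lintegral_mul_const _ (f := fun s => ENNReal.ofReal (g1 μ s) * f (y + s))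
          (mg.mul (hf.comp (by fun_prop))), sq]

end

end Crest.Agent.N067
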