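import Crest.Agent.N067.A.Aac
import Crest.Agent.N067.A.Stab

/-!
# Row 67, basics: `ℝⁿ⁺¹ = ℝⁿ × ℝ` and the limits `u^±` (helper43)

`snoc`/`init` calculus, Fubini (`integral_snoc`), `isSol_of_init`, `stable_of_init`,
`pm_of : RegStmt → LimStmt → PMStmt`.
-/

set_option autoImplicit false

open MeasureTheory Laplacian InnerProductSpace Topology Filter Set Metric
open scoped RealInnerProductSpace Gradient ContDiff

namespace Crest.Agent.N067

open Crest.Agent.R077

noncomputable section

variable {n : ℕ}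

@[simp] theorem snoc_last (y : EE n) (s : ℝ) : snoc y s (Fin.last n) = s := by simp [snoc]

@[simp] theorem snoc_castSucc (y : EE n) (s : ℝ) (i : Fin n) : snoc y s i.castSucc = y i := by
  simp [snoc]

@[simp] theorem init_apply (z : EE (n + 1)) (i : Fin n) : init z i = z i.castSucc := rfl

@[simp] theorem init_snoc (y : EE n) (s : ℝ) : init (snoc y s) = y := by
  ext i; simp

@[simp] theorem snoc_init (z : EE (n + 1)) : snoc (init z) (z (Fin.last n)) = z := by
  ext i
  refine Fin.lastCases ?_ (fun j => ?_) i <;> simp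

/-- `init` as a continuous linear map -/
def initL (n : ℕ) : EE (n + 1) →L[ℝ] EE n :=
  LinearMap.toContinuousLinearMap
    { toFun := init, map_add' := fun _ _ => by ext i; simp, map_smul' := fun _ _ => by ext i; simp }

/-- `snoc` as a continuous linear map -/
def snocL (n : ℕ) : ℝ × EE n →L[ℝ] EE (n + 1) :=
  LinearMap.toContinuousLinearMap
    { toFun := fun p => snoc p.2 p.1
      map_add' := fun _ _ => by ext i; refine Fin.lastCases ?_ (fun j => ?_) i <;> simp
      map_smul' := fun _ _ => by ext i; refine Fin.lastCases ?_ (fun j => ?_) i <;> simp }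

@[simp] theorem initL_apply (z : EE (n + 1)) : initL n z = init z := rfl

@[simp] theorem snocL_apply (p : ℝ × EE n) : snocL n p = snoc p.2 p.1 := rfl

theorem contDiff_init {k : WithTop ℕ∞} : ContDiff ℝ k (init : EE (n + 1) → EE n) :=
  (initL n).contDiff

theorem contDiff_snoc {k : WithTop ℕ∞} : ContDiff ℝ k fun p : ℝ × EE n => snoc p.2 p.1 :=
  (snocL n).contDiff

theorem contDiff_snoc_left {k : WithTop ℕ∞} (s : ℝ) : ContDiff ℝ k fun y : EE n => snoc y s :=
  contDiff_snoc.comp (contDiff_const.prodMk contDiff_id)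

theorem contDiff_last {k : WithTop ℕ∞} : ContDiff ℝ k fun z : EE (n + 1) => z (Fin.last n) :=
  (EuclideanSpace.proj (Fin.last n) : EE (n + 1) →L[ℝ] ℝ).contDiff

theorem snoc_eq_add (y : EE n) (s : ℝ) : snoc y s = snoc y 0 + s • ev (Fin.last n) := by
  rw [Aac.snoc_eq]; simp

theorem hasDerivAt_snoc (y : EE n) (s : ℝ) :
    HasDerivAt (fun s => snoc y s) (ev (Fin.last n)) s := by
  rw [show (fun s => snoc y s) = fun s => snoc y 0 + s • ev (Fin.last n) from
    funext (snoc_eq_add y)]
  simpa using ((hasDerivAt_id s).smul_const (ev (Fin.last n) : EE (n + 1))).const_add (snoc y 0)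

theorem init_ev_castSucc (i : Fin n) : init (ev i.castSucc) = ev i := by
  ext j; simp

theorem init_ev_last : init (ev (Fin.last n)) = 0 := by
  ext j; simp [(Fin.castSucc_lt_last j).ne]

theorem fderiv_init {f : EE n → ℝ} {z : EE (n + 1)} (hf : DifferentiableAt ℝ f (init z))
    (w : EE (n + 1)) : fderiv ℝ (fun z => f (init z)) z w = fderiv ℝ f (init z) (init w) := by
  have h := hf.hasFDerivAt.comp z (initL n).hasFDerivAt
  have h2 : fderiv ℝ (fun z => f (init z)) z = _ := h.fderiv
  rw [h2]; rfl

theorem pdv_init_castSucc {f : EE n → ℝ} {z : EE (n + 1)} (hf : DifferentiableAt ℝ f (init z))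
    (i : Fin n) : pdv i.castSucc (fun z => f (init z)) z = pdv i f (init z) := by
  rw [pdv, fderiv_init hf, init_ev_castSucc, pdv]

theorem pdv_init_last {f : EE n → ℝ} {z : EE (n + 1)} (hf : DifferentiableAt ℝ f (init z)) :
    pdv (Fin.last n) (fun z => f (init z)) z = 0 := by
  rw [pdv, fderiv_init hf, init_ev_last, map_zero]

theorem lap_init {f : EE n → ℝ} (hf : ContDiff ℝ 2 f) (z : EE (n + 1)) :
    (Δ fun z => f (init z)) z = (Δ f) (init z) := by
  have df := hf.differentiable (by norm_num)
  have hc : ContDiff ℝ 2 fun z : EE (n + 1) => f (init z) := hf.comp contDiff_init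
  rw [lap_eq hc.contDiffAt, lap_eq hf.contDiffAt, Fin.sum_univ_castSucc,
    show (pdv (Fin.last n) fun z => f (init z)) = fun _ => 0 from
      funext fun z => pdv_init_last (df _), pdv_const, add_zero]
  refine Finset.sum_congr rfl fun i _ => ?_
  rw [show (pdv i.castSucc fun z => f (init z)) = fun z => pdv i f (init z) from
    funext fun z => pdv_init_castSucc (df _) i, pdv_init_castSucc (diffAt_pdv hf.contDiffAt i)]

theorem gsq_init {f : EE n → ℝ} {z : EE (n + 1)} (hf : DifferentiableAt ℝ f (init z)) :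
    gsq (fun z => f (init z)) z = gsq f (init z) := by
  simp only [gsq, Fin.sum_univ_castSucc, pdv_init_castSucc hf, pdv_init_last hf]
  simp

/-! ### Fubini -/

/-- `ℝ × ℝⁿ ≃ ℝⁿ⁺¹` -/
def snocE (n : ℕ) : ℝ × EE n ≃ᵐ EE (n + 1) :=
  ((MeasurableEquiv.refl ℝ).prodCongr (MeasurableEquiv.toLp 2 (Fin n → ℝ)).symm).trans
    ((MeasurableEquiv.piFinSuccAbove (fun _ => ℝ) (Fin.last n)).symm.trans
      (MeasurableEquiv.toLp 2 (Fin (n + 1) → ℝ)))

theorem snocE_apply (p : ℝ × EE n) : snocE n p = snoc p.2 p.1 := by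
  ext i
  simp [snocE, snoc, MeasurableEquiv.piFinSuccAbove, MeasurableEquiv.prodCongr,
    Fin.insertNthEquiv, Fin.insertNth_last']

theorem measurePreserving_snocE : MeasurePreserving (snocE n) volume volume := by
  refine MeasurePreserving.trans ?_ (MeasurePreserving.trans
    (volume_preserving_piFinSuccAbove (fun _ => ℝ) (Fin.last n)).symm
    (PiLp.volume_preserving_toLp (Fin (n + 1))))
  exact (MeasurePreserving.id volume).prod (PiLp.volume_preserving_ofLp (Fin n))

theorem measurePreserving_snoc :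
    MeasurePreserving (fun p : ℝ × EE n => snoc p.2 p.1) volume volume := by
  rw [← show (snocE n : ℝ × EE n → EE (n + 1)) = fun p => snoc p.2 p.1 from funext snocE_apply]
  exact measurePreserving_snocE

theorem integral_snoc {F : Type*} [NormedAddCommGroup F] [NormedSpace ℝ F] (g : EE (n + 1) → F) :
    ∫ z, g z = ∫ p : ℝ × EE n, g (snoc p.2 p.1) := by
  rw [← measurePreserving_snocE.integral_comp' g]
  simp only [snocE_apply]

theorem integrable_snoc {F : Type*} [NormedAddCommGroup F] (g : EE (n + 1) → F) :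
    Integrable (fun p : ℝ × EE n => g (snoc p.2 p.1)) ↔ Integrable g := by
  rw [← measurePreserving_snocE.integrable_comp_emb (snocE n).measurableEmbedding]
  simp only [Function.comp_def, snocE_apply]

theorem lintegral_snoc (g : EE (n + 1) → ENNReal) :
    ∫⁻ z, g z = ∫⁻ p : ℝ × EE n, g (snoc p.2 p.1) := by
  rw [← measurePreserving_snocE.lintegral_comp_emb (snocE n).measurableEmbedding g]
  simp only [snocE_apply]

theorem integral_mul_init (a : ℝ → ℝ) (f : EE n → ℝ) :
    ∫ z : EE (n + 1), a (z (Fin.last n)) * f (init z) = (∫ s, a s) * ∫ y, f y := by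
  rw [integral_snoc, ← integral_prod_mul]
  simp only [snoc_last, init_snoc]
  rfl

theorem integrable_mul_init {a : ℝ → ℝ} {f : EE n → ℝ} (ha : Integrable a) (hf : Integrable f) :
    Integrable fun z : EE (n + 1) => a (z (Fin.last n)) * f (init z) := by
  rw [← integrable_snoc]
  simp only [snoc_last, init_snoc]
  exact ha.mul_prod hf

theorem cs_mul_init {a : ℝ → ℝ} {f : EE n → ℝ} (ha : HasCompactSupport a)
    (hf : HasCompactSupport f) :
    HasCompactSupport fun z : EE (n + 1) => a (z (Fin.last n)) * f (init z) := by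
  refine HasCompactSupport.intro ((ha.isCompact.prod hf.isCompact).image (snocL n).continuous)
    fun z hz => ?_
  by_contra h
  refine hz ⟨(z (Fin.last n), init z), ⟨subset_tsupport _ (left_ne_zero_of_mul h),
    subset_tsupport _ (right_ne_zero_of_mul h)⟩, by simp⟩

/-! ### functions that do not depend on the last variable -/

theorem isSol_of_init {f : EE n → ℝ} (h : IsSol fun z : EE (n + 1) => f (init z)) : IsSol f := by
  have c2 : ContDiff ℝ 2 f := by
    have := h.c2.comp (contDiff_snoc_left 0)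
    simpa [Function.comp_def] using this
  refine ⟨c2, fun y => by simpa using h.bd (snoc y 0), fun y => ?_⟩
  have := h.eq (snoc y 0)
  rwa [lap_init c2, init_snoc] at this

theorem IsSol.init {f : EE n → ℝ} (h : IsSol f) : IsSol fun z : EE (n + 1) => f (init z) :=
  ⟨h.c2.comp contDiff_init, fun _ => h.bd _, fun z => by rw [lap_init h.c2, h.eq]⟩

theorem stable_of_init {f : EE n → ℝ} (hf : Continuous f)
    (h : Stable fun z : EE (n + 1) => f (init z)) : Stable f := by
  intro φ hφ hc
  let b : ContDiffBump (0 : ℝ) := ⟨1, 2, one_pos, one_lt_two⟩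
  have hb : ContDiff ℝ 1 b := b.contDiff
  have hb' : Continuous (deriv b) := hb.continuous_deriv le_rfl
  set A := ∫ s, b s ^ 2 with hA
  set B := ∫ s, deriv b s ^ 2 with hB
  set Q := ∫ y, (‖∇ φ y‖ ^ 2 + (3 * f y ^ 2 - 1) * φ y ^ 2) with hQ
  set P := ∫ y, φ y ^ 2 with hP
  have cb2 : HasCompactSupport fun s => b s ^ 2 :=
    b.hasCompactSupport.comp_left (g := fun r : ℝ => r ^ 2) (by simp)
  have cb2' : HasCompactSupport fun s => deriv b s ^ 2 :=
    b.hasCompactSupport.deriv.comp_left (g := fun r : ℝ => r ^ 2) (by simp)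
  have iA : Integrable fun s => b s ^ 2 := (hb.continuous.pow 2).integrable_of_hasCompactSupport cb2
  have iB : Integrable fun s => deriv b s ^ 2 := (hb'.pow 2).integrable_of_hasCompactSupport cb2'
  have iP : Integrable fun y => φ y ^ 2 :=
    (hφ.continuous.pow 2).integrable_of_hasCompactSupport (St.cs_sq hc)
  have iQ : Integrable fun y => ‖∇ φ y‖ ^ 2 + (3 * f y ^ 2 - 1) * φ y ^ 2 :=
    (St.int_grad_sq hφ hc).add (St.int_cs ((continuous_const.mul (hf.pow 2)).sub continuous_const)
      (hφ.continuous.pow 2) (St.cs_sq hc))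
  have hA0 : 0 < A := (hb.continuous.pow 2).integral_pos_of_hasCompactSupport_nonneg_nonzero
    (x := 0) cb2 (fun _ => sq_nonneg _) (by
      simp [b.one_of_mem_closedBall (mem_closedBall_self b.rIn_pos.le)])
  have key : ∀ ε : ℝ, 0 < ε → 0 ≤ A * Q + ε ^ 2 * (B * P) := by
    intro ε hε
    have c1 : ContDiff ℝ 1 fun s : ℝ => b (ε * s) := hb.comp (contDiff_const.mul contDiff_id)
    have c2 : HasCompactSupport fun s : ℝ => b (ε * s) :=
      b.hasCompactSupport.comp_smul (G₀ := ℝ) hε.ne'
    have h1 := h (fun z => b (ε * z (Fin.last n)) * φ (init z))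
      ((c1.comp contDiff_last).mul (hφ.comp contDiff_init)) (cs_mul_init c2 hc)
    have e : ∀ z : EE (n + 1), ‖∇ (fun z : EE (n + 1) => b (ε * z (Fin.last n)) * φ (init z)) z‖ ^ 2
        + (3 * f (init z) ^ 2 - 1) * (b (ε * z (Fin.last n)) * φ (init z)) ^ 2
        = b (ε * z (Fin.last n)) ^ 2 * (‖∇ φ (init z)‖ ^ 2 + (3 * f (init z) ^ 2 - 1) * φ (init z) ^ 2)
          + ε ^ 2 * (deriv b (ε * z (Fin.last n)) ^ 2 * φ (init z) ^ 2) := by
      intro z
      have d0 : DifferentiableAt ℝ (fun z : EE (n + 1) => z (Fin.last n)) z :=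
        (contDiff_last (k := 1)).differentiable (by norm_num) z
      have d1 : HasDerivAt (fun s => b (ε * s)) (deriv b (ε * z (Fin.last n)) * ε)
          (z (Fin.last n)) := by
        have := ((hb.differentiable (by norm_num) _).hasDerivAt).comp (z (Fin.last n))
          ((hasDerivAt_id (z (Fin.last n))).const_mul ε)
        simpa [Function.comp_def] using this
      have d2 := hφ.differentiable (by norm_num) (init z)
      have d3 : DifferentiableAt ℝ (fun z : EE (n + 1) => φ (init z)) z :=
        (hφ.comp contDiff_init).differentiable (by norm_num) z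
      have d4 : DifferentiableAt ℝ (fun z : EE (n + 1) => b (ε * z (Fin.last n))) z :=
        (c1.comp contDiff_last).differentiable (by norm_num) z
      rw [← gsq_eq, ← gsq_eq]
      simp only [gsq, Fin.sum_univ_castSucc, pdv_mul d4 d3, pdv_init_castSucc d2, pdv_init_last d2,
        pdv_comp (f := fun z : EE (n + 1) => z (Fin.last n)) d1 d0, pdv_coord,
        (Fin.castSucc_lt_last _).ne', if_false, if_true, mul_zero, zero_mul, zero_add, mul_pow,
        ← Finset.mul_sum]
      ring
    simp only [e] at h1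
    have j1 := integrable_mul_init (iA.comp_mul_left' hε.ne') iQ
    have j2 := integrable_mul_init (iB.comp_mul_left' hε.ne') iP
    rw [integral_add j1 (j2.const_mul _), integral_const_mul,
      integral_mul_init (fun s => b (ε * s) ^ 2)
        (fun y => ‖∇ φ y‖ ^ 2 + (3 * f y ^ 2 - 1) * φ y ^ 2),
      integral_mul_init (fun s => deriv b (ε * s) ^ 2) (fun y => φ y ^ 2),
      Measure.integral_comp_mul_left (fun s => b s ^ 2),
      Measure.integral_comp_mul_left (fun s => deriv b s ^ 2), ← hA, ← hB, ← hQ, ← hP,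
      abs_of_pos (inv_pos.2 hε), smul_eq_mul, smul_eq_mul] at h1
    have : ε⁻¹ * A * Q + ε ^ 2 * (ε⁻¹ * B * P) = ε⁻¹ * (A * Q + ε ^ 2 * (B * P)) := by ring
    rw [this] at h1
    exact nonneg_of_mul_nonneg_right h1 (inv_pos.2 hε)
  have lim : Tendsto (fun ε : ℝ => A * Q + ε ^ 2 * (B * P)) (𝓝[>] 0) (𝓝 (A * Q + 0 ^ 2 * (B * P))) :=
    tendsto_nhdsWithin_of_tendsto_nhds (Continuous.tendsto (by fun_prop) 0)
  have h2 := ge_of_tendsto lim (eventually_nhdsWithin_of_forall key)
  simp only [ne_eq, OfNat.ofNat_ne_zero, not_false_eq_true, zero_pow, zero_mul, add_zero] at h2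
  exact nonneg_of_mul_nonneg_right h2 hA0

theorem Stable.shift {u : EE n → ℝ} (h : Stable u) (a : EE n) : Stable fun y => u (y + a) := by
  intro φ hφ hc
  have h1 := h (fun y => φ (y + -a)) (hφ.comp (contDiff_id.add contDiff_const))
    (hc.comp_homeomorph (Homeomorph.addRight (-a)))
  rw [← integral_add_right_eq_self _ a] at h1
  simpa only [← gsq_eq, gsq, Aac.pdv_shift, add_neg_cancel_right] using h1

theorem MonoLast.strictMono {u : EE (n + 1) → ℝ} (hd : Differentiable ℝ u) (hm : MonoLast u)
    (y : EE n) : StrictMono fun s => u (snoc y s) :=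
  strictMono_of_deriv_pos fun s => by
    have h : HasDerivAt (fun s => u (snoc y s)) _ s :=
      (hd _).hasFDerivAt.comp_hasDerivAt s (hasDerivAt_snoc y s)
    rw [h.deriv]
    exact hm _

theorem lim_slice (hL : LimStmt) {u : EE (n + 1) → ℝ} (hu : IsSol u) (hs : Stable u) {w : EE n → ℝ}
    {a : ℕ → ℝ} (hw : ∀ y s, Tendsto (fun j => u (snoc y (s + a j))) atTop (𝓝 (w y))) :
    IsSol w ∧ Stable w := by
  have l : ∀ z : EE (n + 1), Tendsto (fun j => u (z + a j • ev (Fin.last n))) atTop
      (𝓝 (w (init z))) := fun z => by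
    simpa only [Aac.snoc_eq] using hw _ _
  obtain ⟨W, φ, hφ, hW, hlim⟩ := hL (n + 1) 0 (fun j z => u (z + a j • ev (Fin.last n)))
    fun j => Aac.isSol_shift hu _
  have e : W = fun z => w (init z) := by
    funext z
    have := ((continuous_eval_const (fun _ : Fin 0 => (0 : EE (n + 1)))).tendsto _).comp
      ((hlim 0 le_rfl).tendstoLocallyUniformlyOn.tendsto_at (mem_univ z))
    exact tendsto_nhds_unique (by simpa [Function.comp_def] using this)
      ((l z).comp hφ.tendsto_atTop)
  have h1 := isSol_of_init (e ▸ hW)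
  exact ⟨h1, stable_of_init h1.c2.continuous
    (stabLim _ _ _ (fun j => Aac.isSol_shift hu _) (fun j => hs.shift _) l)⟩

theorem pm_of (hR : RegStmt) (hL : LimStmt) : PMStmt := by
  intro n u hu hm
  have hs := monoStab_of hR n u hu hm
  have sm := hm.strictMono (hu.c2.differentiable (by norm_num))
  have ba : ∀ y, BddAbove (range fun s => u (snoc y s)) := fun y =>
    ⟨1, forall_mem_range.2 fun s => (abs_le.1 (hu.bd _)).2⟩
  have bb : ∀ y, BddBelow (range fun s => u (snoc y s)) := fun y =>
    ⟨-1, forall_mem_range.2 fun s => (abs_le.1 (hu.bd _)).1⟩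
  have t1 := fun y => tendsto_atTop_ciSup (sm y).monotone (ba y)
  have t2 := fun y => tendsto_atBot_ciInf (sm y).monotone (bb y)
  have h1 := lim_slice hL hu hs (a := fun j => j) fun y s =>
    (t1 y).comp (tendsto_atTop_add_const_left _ s tendsto_natCast_atTop_atTop)
  have h2 := lim_slice hL hu hs (a := fun j => -j) fun y s =>
    (t2 y).comp (tendsto_atBot_add_const_left _ s
      (tendsto_neg_atTop_atBot.comp tendsto_natCast_atTop_atTop))
  exact ⟨_, _, h1.1, h1.2, h2.1, h2.2, t1, t2, fun y s =>
    ⟨(ciInf_le (bb y) (s - 1)).trans_lt (sm y (by linarith)),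
      (sm y (show s < s + 1 by linarith)).trans_le (le_ciSup (ba y) (s + 1))⟩⟩

end

end Crest.Agent.N067
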