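import Crest.Agent.N067.A.Dual
import Crest.Agent.N067.A.MLem

/-!
Row 67, STAB tools (helper2): the weak equation of `res μ S` for bounded Lipschitz test functions and
the parallel-sum inequality `(1/2) ∬ S G S (f - f')² ≤ ∫ (G S)² |∇f|²`.
-/

set_option autoImplicit false

open MeasureTheory Laplacian InnerProductSpace Topology Filter Set
open scoped RealInnerProductSpace ContDiff Gradient NNReal ENNReal

namespace Crest.Agent.N067.Ker

open Crest.Agent.R077

noncomputable section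

variable {n : ℕ}

theorem lip_mul {f g : EE n → ℝ} {L K : ℝ≥0} {M N : ℝ} (hf : LipschitzWith L f)
    (hg : LipschitzWith K g) (bf : ∀ x, |f x| ≤ M) (bg : ∀ x, |g x| ≤ N) :
    ∃ C, LipschitzWith C fun x => f x * g x := by
  refine ⟨(N * L + M * K).toNNReal, LipschitzWith.of_dist_le_mul fun x y => ?_⟩
  have h1 := hf.dist_le_mul x y
  have h2 := hg.dist_le_mul x y
  rw [Real.dist_eq] at h1 h2 ⊢
  rw [show f x * g x - f y * g y = g x * (f x - f y) + f y * (g x - g y) by ring]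
  refine (abs_add_le _ _).trans (le_trans ?_
    (mul_le_mul_of_nonneg_right (Real.le_coe_toNNReal _) dist_nonneg))
  rw [abs_mul, abs_mul, add_mul, mul_assoc, mul_assoc]
  exact add_le_add (mul_le_mul (bg x) h1 (abs_nonneg _) ((abs_nonneg _).trans (bg x)))
    (mul_le_mul (bf y) h2 (abs_nonneg _) ((abs_nonneg _).trans (bf y)))

theorem abs_pdv_le_lip {f : EE n → ℝ} {L : ℝ≥0} (hf : LipschitzWith L f) (i : Fin n) (x : EE n) :
    |pdv i f x| ≤ L := (abs_pdv_le_fderiv f i x).trans (norm_fderiv_le_of_lipschitz ℝ hf)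

theorem Bd.exists_lip {C : ℝ} {f : EE n → ℝ} (h : Bd 1 C f) : ∃ L, LipschitzWith L f :=
  ⟨(n * C).toNNReal, lipschitzWith_of_nnnorm_fderiv_le h.1 fun x =>
    (h.norm_fderiv_le x).trans (Real.le_coe_toNNReal _)⟩

theorem pdv_cv_lip {g f : EE n → ℝ} {L : ℝ≥0} {M : ℝ} (hg : Integrable g) (hf : LipschitzWith L f)
    (hb : ∀ x, |f x| ≤ M) (i : Fin n) : pdv i (cv g f) = cv g (pdv i f) := by
  funext x₀
  have hm := hf.continuous.aestronglyMeasurable (μ := volume)
  have hd : ∀ᵐ z, DifferentiableAt ℝ f (x₀ + z) :=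
    (measurePreserving_add_left volume x₀).quasiMeasurePreserving.ae hf.ae_differentiableAt
  obtain ⟨h1, h2⟩ := hasFDerivAt_integral_of_dominated_loc_of_lip' (μ := volume) (s := univ)
    (F := fun x z => g z * f (x + z)) (F' := fun z => g z • fderiv ℝ f (x₀ + z)) (x₀ := x₀)
    (bound := fun z => |g z| * L) univ_mem (fun x _ => (integrable_cv hg hm hb x).1)
    (integrable_cv hg hm hb x₀)
    (hg.1.smul ((measurable_fderiv ℝ f).comp (measurable_const_add x₀)).aestronglyMeasurable)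
    (Eventually.of_forall fun z x _ => by
      rw [← mul_sub, norm_mul, mul_assoc]
      refine mul_le_mul_of_nonneg_left ((hf.norm_sub_le _ _).trans (le_of_eq ?_)) (abs_nonneg _)
      rw [add_sub_add_right_eq_sub])
    (hg.abs.mul_const _) (hd.mono fun z hz => by
      simpa using (hz.hasFDerivAt.comp x₀ ((hasFDerivAt_id x₀).add_const z)).const_mul (g z))
  unfold pdv
  rw [show fderiv ℝ (cv g f) x₀ = _ from h2.fderiv, ContinuousLinearMap.integral_apply h1]
  rfl

theorem abs_heat_le {s M : ℝ} (hs : 0 < s) {f : EE n → ℝ} (h : ∀ x, |f x| ≤ M) (x : EE n) :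
    |cv (hk s) f x| ≤ M := by
  have := abs_cv_le (integrable_hk hs) h x
  simp only [abs_of_pos (hk_pos hs _), integral_hk hs, one_mul] at this
  exact this

theorem bd_heat_lip {s M : ℝ} (hs : 0 < s) {f : EE n → ℝ} {L : ℝ≥0} (hf : LipschitzWith L f)
    (hb : ∀ x, |f x| ≤ M) : Bd 1 (max M L) (cv (hk s) f) := by
  refine ⟨fun x => (hasFDerivAt_heatP hs hf.continuous.aestronglyMeasurable hb x).differentiableAt,
    fun x => (abs_heat_le hs hb x).trans (le_max_left _ _), fun i => ?_⟩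
  rw [pdv_cv_lip (integrable_hk hs) hf hb]
  exact ⟨continuous_iff_continuousAt.2 fun x => (hasFDerivAt_heatP hs
    (measurable_pdv f i).aestronglyMeasurable (abs_pdv_le_lip hf i) x).continuousAt,
    fun x => (abs_heat_le hs (abs_pdv_le_lip hf i) x).trans (le_max_right _ _)⟩

theorem tendsto_heat {M : ℝ} {w : EE n → ℝ} (hw : Continuous w) (hb : ∀ x, |w x| ≤ M) (x : EE n) :
    Tendsto (fun k : ℕ => cv (hk (1 / ((k : ℝ) + 1))) w x) atTop (𝓝 (w x)) := by
  have h := continuousWithinAt_heat (w := fun y => w (x + y)) le_rfl (by fun_prop)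
    (gr_of_bdd fun y => hb _)
  have h1 : Tendsto (fun k : ℕ => 1 / ((k : ℝ) + 1)) atTop (𝓝[Ici 0] 0) :=
    tendsto_nhdsWithin_iff.2 ⟨tendsto_one_div_add_atTop_nhds_zero_nat,
      Eventually.of_forall fun k => mem_Ici.2 (le_of_lt Nat.one_div_pos_of_nat)⟩
  have h2 := h.tendsto.comp h1
  simp only [Real.sqrt_zero, zero_smul, add_zero, integral_mul_const, integral_hk one_pos,
    one_mul] at h2
  refine h2.congr fun k => ?_
  exact (integral_hk_scale Nat.one_div_pos_of_nat fun y => w (x + y)).symm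

theorem tendsto_heat_mul {M : ℝ} {a b : EE n → ℝ} (ha : Integrable a) (hb : Continuous b)
    (hM : ∀ x, |b x| ≤ M) :
    Tendsto (fun k : ℕ => ∫ x, a x * cv (hk (1 / ((k : ℝ) + 1))) b x) atTop (𝓝 (∫ x, a x * b x)) := by
  refine tendsto_integral_of_dominated_convergence (fun x => |a x| * M) (fun k => ha.1.mul
    (continuous_cv (integrable_hk Nat.one_div_pos_of_nat) hb hM).aestronglyMeasurable)
    (ha.abs.mul_const M) (fun k => Eventually.of_forall fun x => ?_)
    (Eventually.of_forall fun x => (tendsto_heat hb hM x).const_mul _)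
  rw [norm_mul]
  exact mul_le_mul_of_nonneg_left (abs_heat_le Nat.one_div_pos_of_nat hM x) (abs_nonneg _)

theorem integral_heat_mul {s M : ℝ} (hs : 0 < s) {a b : EE n → ℝ} (ha : Integrable a)
    (hb : AEStronglyMeasurable b volume) (hM : ∀ x, |b x| ≤ M) :
    ∫ x, cv (hk s) a x * b x = ∫ x, a x * cv (hk s) b x := by
  rw [integral_mul_cv_of (integrable_ker (integrable_hk hs) ha hb hM)]
  simp only [hk_neg]

/-- WEAK EQUATION for bounded Lipschitz test functions -/
theorem weak_res_lip {μ M N : ℝ} (hμ : 0 < μ) {S ζ : EE n → ℝ} {L : ℝ≥0} (hS : Integrable S)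
    (h : ∀ x, |S x| ≤ M) (hζ : LipschitzWith L ζ) (hb : ∀ x, |ζ x| ≤ N) (h0 : Integrable ζ)
    (h1 : ∀ i, Integrable (pdv i ζ)) :
    (∑ i, ∫ x, pdv i ζ x * pdv i (res μ S) x) + μ * ∫ x, ζ x * res μ S x = ∫ x, ζ x * S x := by
  have hu := bd_one_res hμ hS.1 h
  have key : ∀ k : ℕ, (∑ i, ∫ x, pdv i ζ x * cv (hk (1 / ((k : ℝ) + 1))) (pdv i (res μ S)) x) +
      μ * ∫ x, ζ x * cv (hk (1 / ((k : ℝ) + 1))) (res μ S) x =
      ∫ x, S x * cv (hk (1 / ((k : ℝ) + 1))) ζ x := fun k => by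
    have hs : (0 : ℝ) < 1 / ((k : ℝ) + 1) := Nat.one_div_pos_of_nat
    have := weak_res hμ hS.1 h (bd_heat_lip hs hζ hb) (integrable_cv_int (integrable_hk hs) h0)
      fun i => by
        rw [pdv_cv_lip (integrable_hk hs) hζ hb]
        exact integrable_cv_int (integrable_hk hs) (h1 i)
    simp_rw [pdv_cv_lip (integrable_hk hs) hζ hb, fun i => integral_heat_mul hs (h1 i)
      (hu.pdv i).continuous.aestronglyMeasurable (hu.pdv i).bdd] at this
    rw [integral_heat_mul hs h0 hu.continuous.aestronglyMeasurable hu.bdd] at this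
    simpa only [mul_comm (S _)] using this
  have t1 := (tendsto_finsetSum Finset.univ fun i _ =>
    tendsto_heat_mul (h1 i) (hu.pdv i).continuous (hu.pdv i).bdd).add
    ((tendsto_heat_mul h0 hu.continuous hu.bdd).const_mul μ)
  simp_rw [key] at t1
  simpa only [mul_comm (S _)] using
    tendsto_nhds_unique t1 (tendsto_heat_mul hS hζ.continuous hb)

theorem integrable_pdv_mul {u f : EE n → ℝ} {C N : ℝ} {L : ℝ≥0} (hu : Bd 1 C u) (i0 : Integrable u)
    (i1 : ∀ i, Integrable (pdv i u)) (hf : LipschitzWith L f) (hb : ∀ x, |f x| ≤ N) (i : Fin n) :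
    Integrable (pdv i fun x => u x * f x) := by
  refine Integrable.congr (((i1 i).mul_bdd hf.continuous.aestronglyMeasurable
    (Eventually.of_forall hb)).add (i0.mul_bdd (measurable_pdv f i).aestronglyMeasurable
    (Eventually.of_forall (abs_pdv_le_lip hf i)))) ?_
  filter_upwards [hf.ae_differentiableAt] with x hx
  rw [pdv_mul (hu.1 x) hx]
  rfl

/-- parallel sum, pairing form -/
theorem ps_core {μ M N : ℝ} (hμ : 0 < μ) {S f : EE n → ℝ} {L : ℝ≥0} (hS : Integrable S)
    (h : ∀ x, |S x| ≤ M) (hf : LipschitzWith L f) (hb : ∀ x, |f x| ≤ N) :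
    (∫ x, S x * f x ^ 2 * res μ S x) - ∫ x, S x * f x * res μ (fun y => S y * f y) x ≤
      ∫ x, res μ S x ^ 2 * gsq f x := by
  have mf := hf.continuous.aestronglyMeasurable (μ := volume)
  have hM : 0 ≤ M := (abs_nonneg _).trans (h 0)
  have hT : Integrable fun y => S y * f y := hS.mul_bdd mf (Eventually.of_forall hb)
  have bT : ∀ y, |S y * f y| ≤ M * N := fun y => by
    rw [abs_mul]
    exact mul_le_mul (h y) (hb y) (abs_nonneg _) hM
  set u := res μ S with hu
  set φ := res μ fun y => S y * f y with hφ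
  have Bu : Bd 1 _ u := bd_one_res hμ hS.1 h
  have Bφ : Bd 1 _ φ := bd_one_res hμ hT.1 bT
  have iu : Integrable u := integrable_res hμ hS
  have iu1 : ∀ i, Integrable (pdv i u) := integrable_pdv_res hμ hS h
  have iφ : Integrable φ := integrable_res hμ hT
  have iφ1 : ∀ i, Integrable (pdv i φ) := integrable_pdv_res hμ hT bT
  obtain ⟨Lu, lu⟩ := Bu.exists_lip
  obtain ⟨L1, l1⟩ := lip_mul lu hf Bu.bdd hb
  obtain ⟨L2, l2⟩ := lip_mul hf hf hb hb
  have b2 : ∀ x, |f x * f x| ≤ N * N := fun x => by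
    rw [abs_mul]
    exact mul_le_mul (hb x) (hb x) (abs_nonneg _) ((abs_nonneg _).trans (hb x))
  obtain ⟨L3, l3⟩ := lip_mul lu l2 Bu.bdd b2
  have b1 : ∀ x, |u x * f x| ≤ cR n μ * M * N := fun x => by
    rw [abs_mul]
    exact mul_le_mul (Bu.bdd x) (hb x) (abs_nonneg _) Bu.nonneg
  have b3 : ∀ x, |u x * (f x * f x)| ≤ cR n μ * M * (N * N) := fun x => by
    rw [abs_mul]
    exact mul_le_mul (Bu.bdd x) (b2 x) (abs_nonneg _) Bu.nonneg
  have j1 : Integrable fun x => u x * f x := iu.mul_bdd mf (Eventually.of_forall hb)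
  have j3 : Integrable fun x => u x * (f x * f x) :=
    iu.mul_bdd l2.continuous.aestronglyMeasurable (Eventually.of_forall b2)
  have k1 := integrable_pdv_mul Bu iu iu1 hf hb
  have k3 := integrable_pdv_mul Bu iu iu1 l2 b2
  have E1 := energy_res hμ hT bT
  have E2 := weak_res_lip hμ hT bT l1 b1 j1 k1
  have E3 := weak_res_lip hμ hS h l3 b3 j3 k3
  rw [← hφ] at E1 E2
  rw [← hu] at E3
  have a1 : ∀ i, Integrable fun x => pdv i φ x ^ 2 := fun i =>
    integrable_sq_of_bdd (iφ1 i) (Bφ.pdv i).bdd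
  have a2 : ∀ i, Integrable fun x => pdv i (fun x => u x * f x) x * pdv i φ x := fun i =>
    (k1 i).mul_bdd (Bφ.pdv i).continuous.aestronglyMeasurable (Eventually.of_forall (Bφ.pdv i).bdd)
  have a3 : ∀ i, Integrable fun x => pdv i (fun x => u x * (f x * f x)) x * pdv i u x := fun i =>
    (k3 i).mul_bdd (Bu.pdv i).continuous.aestronglyMeasurable (Eventually.of_forall (Bu.pdv i).bdd)
  have a4 : ∀ i, Integrable fun x => u x ^ 2 * pdv i f x ^ 2 := fun i =>
    (integrable_sq_of_bdd iu Bu.bdd).mul_bdd (c := L ^ 2)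
      ((measurable_pdv f i).pow_const 2).aestronglyMeasurable (Eventually.of_forall fun x => by
        rw [Real.norm_eq_abs, abs_pow]
        exact pow_le_pow_left₀ (abs_nonneg _) (abs_pdv_le_lip hf i x) 2)
  have D : ∀ i, 2 * ∫ x, pdv i (fun x => u x * f x) x * pdv i φ x ≤ (∫ x, pdv i φ x ^ 2) +
      ((∫ x, pdv i (fun x => u x * (f x * f x)) x * pdv i u x) + ∫ x, u x ^ 2 * pdv i f x ^ 2) :=
    fun i => by
      rw [← integral_const_mul, ← integral_add (a3 i) (a4 i), ← integral_add (a1 i)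
        (g := fun x => pdv i (fun x => u x * (f x * f x)) x * pdv i u x + u x ^ 2 * pdv i f x ^ 2)
        ((a3 i).add (a4 i))]
      refine integral_mono_ae ((a2 i).const_mul 2) ((a1 i).add ((a3 i).add (a4 i))) ?_
      filter_upwards [hf.ae_differentiableAt] with x hx
      rw [pdv_mul (Bu.1 x) hx, pdv_mul (g := fun x => f x * f x) (Bu.1 x) (hx.mul hx), pdv_mul hx hx]
      nlinarith [sq_nonneg (pdv i φ x - (pdv i u x * f x + u x * pdv i f x))]
  have c1 := integrable_sq_of_bdd iφ Bφ.bdd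
  have c3 : Integrable fun x => u x * (f x * f x) * u x :=
    j3.mul_bdd Bu.continuous.aestronglyMeasurable (Eventually.of_forall Bu.bdd)
  have D0 : 2 * ∫ x, u x * f x * φ x ≤ (∫ x, φ x ^ 2) + ∫ x, u x * (f x * f x) * u x := by
    rw [← integral_const_mul, ← integral_add c1 c3]
    exact integral_mono ((j1.mul_bdd Bφ.continuous.aestronglyMeasurable
      (Eventually.of_forall Bφ.bdd)).const_mul 2) (c1.add c3) fun x => by
        simp only
        nlinarith [sq_nonneg (φ x - u x * f x)]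
  have D1 := Finset.sum_le_sum fun i (_ : i ∈ Finset.univ) => D i
  rw [← Finset.mul_sum, Finset.sum_add_distrib, Finset.sum_add_distrib,
    ← integral_finsetSum _ fun i _ => a4 i] at D1
  have e1 : ∫ x, S x * f x ^ 2 * u x = ∫ x, u x * f x * (S x * f x) := by
    congr 1; funext x; ring
  have e2 : ∫ x, u x * (f x * f x) * S x = ∫ x, u x * f x * (S x * f x) := by
    congr 1; funext x; ring
  have e3 : ∫ x, S x * f x * φ x = ∫ x, φ x * (S x * f x) := by
    congr 1; funext x; ring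
  have e4 : ∫ x, u x ^ 2 * gsq f x = ∫ x, ∑ i, u x ^ 2 * pdv i f x ^ 2 := by
    simp only [gsq, Finset.mul_sum]
  have D2 := mul_le_mul_of_nonneg_left D0 hμ.le
  rw [e1, e3, e4]
  linarith

theorem integrable_ps {μ M N : ℝ} (hμ : 0 < μ) {S f : EE n → ℝ} (hS : Integrable S)
    (h : ∀ x, |S x| ≤ M) (hf : AEStronglyMeasurable f volume) (hb : ∀ x, |f x| ≤ N) :
    Integrable (fun p : EE n × EE n => S p.1 * Gk μ (p.2 - p.1) * S p.2 * (f p.1 - f p.2) ^ 2)
      (volume.prod volume) :=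
  (integrable_ker (integrable_Gk hμ) hS hS.1 h).mul_bdd (c := (N + N) ^ 2)
    ((hf.comp_fst.sub hf.comp_snd).pow 2) (Eventually.of_forall fun p => by
      rw [Real.norm_eq_abs, abs_pow]
      exact pow_le_pow_left₀ (abs_nonneg _) ((abs_sub _ _).trans (add_le_add (hb _) (hb _))) 2)

/-- expansion of the nonlocal Dirichlet form (measurable `f`) -/
theorem pair_expand {μ M N : ℝ} (hμ : 0 < μ) {S f : EE n → ℝ} (hS : Integrable S)
    (h : ∀ x, |S x| ≤ M) (hf : AEStronglyMeasurable f volume) (hb : ∀ x, |f x| ≤ N) :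
    ∫ p : EE n × EE n, S p.1 * Gk μ (p.2 - p.1) * S p.2 * (f p.1 - f p.2) ^ 2 ∂(volume.prod volume)
      = 2 * ((∫ x, S x * f x ^ 2 * res μ S x) - ∫ x, S x * f x * res μ (fun y => S y * f y) x) := by
  have hM : 0 ≤ M := (abs_nonneg _).trans (h 0)
  have b2 : ∀ x, |f x ^ 2| ≤ N ^ 2 := fun x => by
    rw [abs_pow]
    exact pow_le_pow_left₀ (abs_nonneg _) (hb x) 2
  have hT : Integrable fun y => S y * f y := hS.mul_bdd hf (Eventually.of_forall hb)
  have hQ : Integrable fun y => S y * f y ^ 2 := hS.mul_bdd (hf.pow 2) (Eventually.of_forall b2)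
  have bT : ∀ y, |S y * f y| ≤ M * N := fun y => by
    rw [abs_mul]
    exact mul_le_mul (h y) (hb y) (abs_nonneg _) hM
  have bQ : ∀ y, |S y * f y ^ 2| ≤ M * N ^ 2 := fun y => by
    rw [abs_mul]
    exact mul_le_mul (h y) (b2 y) (abs_nonneg _) hM
  have i1 := integrable_ker (integrable_Gk hμ) hQ hS.1 h
  have i2 := integrable_ker (integrable_Gk hμ) hS hQ.1 bQ
  have i3 := integrable_ker (integrable_Gk hμ) hT hT.1 bT
  have e : ∫ x, S x * f x ^ 2 * res μ S x = ∫ x, S x * res μ (fun y => S y * f y ^ 2) x := by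
    rw [integral_mul_res hμ hS hQ.1 bQ]
    simp only [mul_comm (res μ S _)]
  rw [mul_sub, two_mul (∫ x, S x * f x ^ 2 * res μ S x)]
  nth_rewrite 2 [e]
  rw [integral_res_mul hμ hQ hS.1 h, integral_res_mul hμ hS hQ.1 bQ, integral_res_mul hμ hT hT.1 bT,
    ← integral_add i1 i2, ← integral_const_mul, ← integral_sub (f := fun p : EE n × EE n =>
      S p.1 * f p.1 ^ 2 * Gk μ (p.2 - p.1) * S p.2 + S p.1 * Gk μ (p.2 - p.1) * (S p.2 * f p.2 ^ 2))
      (i1.add i2) (i3.const_mul 2)]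
  congr 1
  funext p
  ring

/-- PARALLEL SUM -/
theorem ps {μ M N : ℝ} (hμ : 0 < μ) {S f : EE n → ℝ} {L : ℝ≥0} (hS : Integrable S)
    (h : ∀ x, |S x| ≤ M) (hf : LipschitzWith L f) (hb : ∀ x, |f x| ≤ N) :
    ∫ p : EE n × EE n, S p.1 * Gk μ (p.2 - p.1) * S p.2 * (f p.1 - f p.2) ^ 2 ∂(volume.prod volume)
      ≤ 2 * ∫ x, res μ S x ^ 2 * gsq f x := by
  rw [pair_expand hμ hS h hf.continuous.aestronglyMeasurable hb]
  linarith [ps_core hμ hS h hf hb]

/-- PARALLEL SUM, `lintegral` form -/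
theorem ps_lint {μ M N : ℝ} (hμ : 0 < μ) {S f : EE n → ℝ} {L : ℝ≥0} (hS : Integrable S)
    (h0 : ∀ x, 0 ≤ S x) (h : ∀ x, S x ≤ M) (hf : LipschitzWith L f) (hb : ∀ x, |f x| ≤ N) :
    ∫⁻ x, ∫⁻ y, ENNReal.ofReal (S x * Gk μ (y - x) * S y * (f x - f y) ^ 2) ≤
      2 * ∫⁻ x, ENNReal.ofReal (res μ S x ^ 2 * gsq f x) := by
  have h' : ∀ x, |S x| ≤ M := fun x => by rw [abs_of_nonneg (h0 x)]; exact h x
  have hI := integrable_ps hμ hS h' hf.continuous.aestronglyMeasurable hb
  rw [← lintegral_prod (fun p : EE n × EE n => ENNReal.ofReal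
    (S p.1 * Gk μ (p.2 - p.1) * S p.2 * (f p.1 - f p.2) ^ 2)) hI.1.aemeasurable.ennreal_ofReal,
    ← ofReal_integral_eq_lintegral_ofReal hI (Eventually.of_forall fun p => mul_nonneg
      (mul_nonneg (mul_nonneg (h0 _) (Gk_nonneg _ _)) (h0 _)) (sq_nonneg _))]
  refine (ENNReal.ofReal_le_ofReal (ps hμ hS h' hf hb)).trans ?_
  rw [ENNReal.ofReal_mul zero_le_two, ENNReal.ofReal_ofNat]
  refine mul_le_mul_right ?_ _
  rw [integral_eq_lintegral_of_nonneg_ae
    (Eventually.of_forall fun x => mul_nonneg (sq_nonneg _) (gsq_nonneg f x))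
    (((contDiff_one_res hμ hS.1 h').continuous.measurable.pow_const 2).mul
      (Finset.measurable_sum _ fun i _ => (measurable_pdv f i).pow_const 2)).aestronglyMeasurable]
  exact ENNReal.ofReal_toReal_le

end

end Crest.Agent.N067.Ker
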