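import Crest.Agent.N067.A.Ker4

/-!
Row 67, basics (helper2): the class `Bd k C f` (`f ∈ Cᵏ`, all partial derivatives of order `≤ k`
bounded by `C`), the resolvent gains one derivative, and the universal `Cᵏ` bounds for bounded
solutions of the Allen-Cahn equation.
-/

set_option autoImplicit false

open MeasureTheory Laplacian InnerProductSpace Topology Filter Set
open scoped RealInnerProductSpace ContDiff

namespace Crest.Agent.N067.Ker

open Crest.Agent.R077

noncomputable section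

variable {n : ℕ}

/-- `f ∈ Cᵏ` and all iterated partial derivatives of order `≤ k` are bounded by `C` -/
def Bd : ℕ → ℝ → (EE n → ℝ) → Prop
  | 0, C, f => Continuous f ∧ ∀ x, |f x| ≤ C
  | k + 1, C, f => Differentiable ℝ f ∧ (∀ x, |f x| ≤ C) ∧ ∀ i, Bd k C (pdv i f)

theorem Bd.bdd {k : ℕ} {C : ℝ} {f : EE n → ℝ} (h : Bd k C f) (x : EE n) : |f x| ≤ C := by
  cases k with
  | zero => exact h.2 x
  | succ k => exact h.2.1 x

theorem Bd.nonneg {k : ℕ} {C : ℝ} {f : EE n → ℝ} (h : Bd k C f) : 0 ≤ C :=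
  (abs_nonneg _).trans (h.bdd 0)

theorem Bd.continuous {k : ℕ} {C : ℝ} {f : EE n → ℝ} (h : Bd k C f) : Continuous f := by
  cases k with
  | zero => exact h.1
  | succ k => exact h.1.continuous

theorem Bd.pdv {k : ℕ} {C : ℝ} {f : EE n → ℝ} (h : Bd (k + 1) C f) (i : Fin n) :
    Bd k C (pdv i f) := h.2.2 i

theorem Bd.mono {k : ℕ} {C D : ℝ} {f : EE n → ℝ} (h : Bd k C f) (hCD : C ≤ D) : Bd k D f := by
  induction k generalizing f with
  | zero => exact ⟨h.1, fun x => (h.2 x).trans hCD⟩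
  | succ k ih => exact ⟨h.1, fun x => (h.2.1 x).trans hCD, fun i => ih (h.2.2 i)⟩

theorem Bd.of_succ {k : ℕ} {C : ℝ} {f : EE n → ℝ} (h : Bd (k + 1) C f) : Bd k C f := by
  induction k generalizing f with
  | zero => exact ⟨h.continuous, h.bdd⟩
  | succ k ih => exact ⟨h.1, h.2.1, fun i => ih (h.2.2 i)⟩

theorem Bd.of_le {j k : ℕ} {C : ℝ} {f : EE n → ℝ} (h : Bd k C f) (hjk : j ≤ k) : Bd j C f := by
  induction k, hjk using Nat.le_induction with
  | base => exact h
  | succ k _ ih => exact ih h.of_succ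

theorem Bd.add {k : ℕ} {C D : ℝ} {f g : EE n → ℝ} (h : Bd k C f) (h' : Bd k D g) :
    Bd k (C + D) fun x => f x + g x := by
  induction k generalizing f g with
  | zero => exact ⟨h.1.add h'.1, fun x => (abs_add_le _ _).trans (add_le_add (h.2 x) (h'.2 x))⟩
  | succ k ih =>
    refine ⟨h.1.add h'.1, fun x => (abs_add_le _ _).trans (add_le_add (h.bdd x) (h'.bdd x)),
      fun i => ?_⟩
    rw [show R077.pdv i (fun x => f x + g x) = _ from funext fun x => pdv_add (h.1 x) (h'.1 x) i]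
    exact ih (h.pdv i) (h'.pdv i)

theorem Bd.const_mul {k : ℕ} {C : ℝ} {f : EE n → ℝ} (h : Bd k C f) (c : ℝ) :
    Bd k (|c| * C) fun x => c * f x := by
  have hb : ∀ {g : EE n → ℝ}, (∀ x, |g x| ≤ C) → ∀ x, |c * g x| ≤ |c| * C := fun hg x => by
    rw [abs_mul]
    exact mul_le_mul_of_nonneg_left (hg x) (abs_nonneg _)
  induction k generalizing f with
  | zero => exact ⟨continuous_const.mul h.1, hb h.2⟩
  | succ k ih =>
    refine ⟨h.1.const_mul c, hb h.bdd, fun i => ?_⟩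
    rw [show R077.pdv i (fun x => c * f x) = _ from funext fun x => pdv_const_mul (h.1 x) c i]
    exact ih (h.pdv i)

theorem Bd.mul {k : ℕ} {C D : ℝ} {f g : EE n → ℝ} (h : Bd k C f) (h' : Bd k D g) :
    Bd k (2 ^ k * (C * D)) fun x => f x * g x := by
  have hb : ∀ {f g : EE n → ℝ}, (∀ x, |f x| ≤ C) → (∀ x, |g x| ≤ D) → ∀ x, |f x * g x| ≤ C * D :=
    fun hf hg x => by
      rw [abs_mul]
      exact mul_le_mul (hf x) (hg x) (abs_nonneg _) h.nonneg
  have hCD : 0 ≤ C * D := mul_nonneg h.nonneg h'.nonneg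
  induction k generalizing f g with
  | zero => exact ⟨h.1.mul h'.1, by simpa using hb h.2 h'.2⟩
  | succ k ih =>
    refine ⟨h.1.mul h'.1, fun x => (hb h.bdd h'.bdd x).trans
      (le_mul_of_one_le_left hCD (one_le_pow₀ one_le_two)), fun i => ?_⟩
    rw [show R077.pdv i (fun x => f x * g x) = _ from funext fun x => pdv_mul (h.1 x) (h'.1 x) i,
      show 2 ^ (k + 1) * (C * D) = 2 ^ k * (C * D) + 2 ^ k * (C * D) by ring]
    exact (ih (h.pdv i) h'.of_succ).add (ih h.of_succ (h'.pdv i))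

theorem fderiv_eq_sum_pdv (f : EE n → ℝ) (x : EE n) :
    fderiv ℝ f x = ∑ i, pdv i f x • (EuclideanSpace.proj i : EE n →L[ℝ] ℝ) := by
  ext y
  conv_lhs => rw [← (EuclideanSpace.basisFun (Fin n) ℝ).sum_repr y]
  simp [pdv, mul_comm]

theorem norm_proj_le (i : Fin n) : ‖(EuclideanSpace.proj i : EE n →L[ℝ] ℝ)‖ ≤ 1 :=
  ContinuousLinearMap.opNorm_le_bound _ zero_le_one fun y => by
    simpa using PiLp.norm_apply_le y i

theorem Bd.contDiff {k : ℕ} {C : ℝ} {f : EE n → ℝ} (h : Bd k C f) : ContDiff ℝ k f := by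
  induction k generalizing f with
  | zero => exact contDiff_zero.2 h.1
  | succ k ih =>
    rw [Nat.cast_succ, contDiff_succ_iff_fderiv]
    refine ⟨h.1, by simp, ?_⟩
    rw [show fderiv ℝ f = _ from funext (fderiv_eq_sum_pdv f)]
    exact ContDiff.sum fun i _ => (ih (h.pdv i)).smul contDiff_const

theorem Bd.norm_iteratedFDeriv_le {k : ℕ} {C : ℝ} {f : EE n → ℝ} (h : Bd k C f) (x : EE n) :
    ‖iteratedFDeriv ℝ k f x‖ ≤ (n : ℝ) ^ k * C := by
  induction k generalizing f with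
  | zero => simpa using h.2 x
  | succ k ih =>
    rw [← norm_iteratedFDeriv_fderiv, show fderiv ℝ f = _ from funext (fderiv_eq_sum_pdv f),
      iteratedFDeriv_fun_sum_apply
        (f := fun i z => R077.pdv i f z • (EuclideanSpace.proj i : EE n →L[ℝ] ℝ)) fun i _ =>
        ((h.pdv i).contDiff.smul contDiff_const).contDiffAt]
    refine (norm_sum_le _ _).trans ?_
    have : ∀ i : Fin n, ‖iteratedFDeriv ℝ k
        (fun z => R077.pdv i f z • (EuclideanSpace.proj i : EE n →L[ℝ] ℝ)) x‖ ≤ (n : ℝ) ^ k * C := by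
      intro i
      have h1 := (ContinuousLinearMap.toSpanSingleton ℝ
        (EuclideanSpace.proj i : EE n →L[ℝ] ℝ)).norm_iteratedFDeriv_comp_left
        ((h.pdv i).contDiff.contDiffAt (x := x)) le_rfl
      rw [ContinuousLinearMap.norm_toSpanSingleton] at h1
      refine le_trans h1 ?_
      exact (mul_le_of_le_one_left (norm_nonneg _) (norm_proj_le i)).trans (ih (h.pdv i))
    calc _ ≤ ∑ _i : Fin n, (n : ℝ) ^ k * C := Finset.sum_le_sum fun i _ => this i
      _ = _ := by simp [pow_succ]; ring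

theorem Bd.norm_fderiv_le {k : ℕ} {C : ℝ} {f : EE n → ℝ} (h : Bd (k + 1) C f) (x : EE n) :
    ‖fderiv ℝ f x‖ ≤ n * C := by
  have := (h.of_le (j := 1) (by omega)).norm_iteratedFDeriv_le x
  rwa [norm_iteratedFDeriv_one, pow_one] at this

/-- converse direction -/
theorem bd_of_iteratedFDeriv {k : ℕ} {C : ℝ} {f : EE n → ℝ} (hf : ContDiff ℝ k f)
    (h : ∀ j ≤ k, ∀ x, ‖iteratedFDeriv ℝ j f x‖ ≤ C) : Bd k C f := by
  induction k generalizing f with
  | zero => exact ⟨hf.continuous, fun x => by simpa using h 0 le_rfl x⟩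
  | succ k ih =>
    have h1 : ContDiff ℝ k (fderiv ℝ f) := hf.fderiv_right (by simp)
    refine ⟨hf.differentiable (by simp), fun x => by simpa using h 0 (by omega) x, fun i =>
      ih (contDiff_pdv hf (by simp) i) fun j hj x => ?_⟩
    refine (norm_iteratedFDeriv_clm_apply_const (c := ev i) h1.contDiffAt
      (by exact_mod_cast hj)).trans ?_
    rw [norm_iteratedFDeriv_fderiv]
    simpa using h (j + 1) (by omega) x

theorem Bd.abs_lap_le {k : ℕ} {C : ℝ} {f : EE n → ℝ} (h : Bd (k + 2) C f) (x : EE n) :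
    |(Δ f) x| ≤ n * C := by
  rw [lap_eq ((h.of_le (j := 2) (by omega)).contDiff.contDiffAt)]
  refine (Finset.abs_sum_le_sum_abs _ _).trans ?_
  calc _ ≤ ∑ _i : Fin n, C := Finset.sum_le_sum fun i _ => ((h.pdv i).pdv i).bdd x
    _ = _ := by simp

/-! ### convolution with an integrable kernel -/

theorem integrable_cv {g f : EE n → ℝ} {C : ℝ} (hg : Integrable g)
    (hf : AEStronglyMeasurable f volume) (h : ∀ x, |f x| ≤ C) (x : EE n) :
    Integrable fun z => g z * f (x + z) :=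
  hg.mul_bdd (aesm_shift hf x) (Eventually.of_forall fun z => h (x + z))

theorem abs_cv_le {g f : EE n → ℝ} {C : ℝ} (hg : Integrable g) (h : ∀ x, |f x| ≤ C) (x : EE n) :
    |cv g f x| ≤ (∫ z, |g z|) * C := by
  rw [← integral_mul_const, ← Real.norm_eq_abs, cv]
  refine norm_integral_le_of_norm_le (hg.abs.mul_const C) (Eventually.of_forall fun z => ?_)
  rw [norm_mul]
  exact mul_le_mul_of_nonneg_left (h _) (abs_nonneg _)

theorem continuous_cv {g f : EE n → ℝ} {C : ℝ} (hg : Integrable g) (hf : Continuous f)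
    (h : ∀ x, |f x| ≤ C) : Continuous (cv g f) := by
  refine continuous_of_dominated (fun x => (integrable_cv hg hf.aestronglyMeasurable h x).1)
    (fun x => Eventually.of_forall fun z => ?_) (hg.abs.mul_const C)
    (Eventually.of_forall fun z => by fun_prop)
  rw [norm_mul]
  exact mul_le_mul_of_nonneg_left (h _) (abs_nonneg _)

theorem hasFDerivAt_cv {g f : EE n → ℝ} {C : ℝ} (hg : Integrable g) (h : Bd 1 C f) (x₀ : EE n) :
    HasFDerivAt (cv g f) (∫ z, g z • fderiv ℝ f (x₀ + z)) x₀ ∧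
      Integrable fun z => g z • fderiv ℝ f (x₀ + z) := by
  have hc : Continuous (fderiv ℝ f) := h.contDiff.continuous_fderiv (by simp)
  have hm := h.continuous.aestronglyMeasurable (μ := volume)
  have hm' : AEStronglyMeasurable (fun z => g z • fderiv ℝ f (x₀ + z)) volume :=
    hg.1.smul (by fun_prop : Continuous fun z => fderiv ℝ f (x₀ + z)).aestronglyMeasurable
  have hb : ∀ z x : EE n, ‖g z • fderiv ℝ f (x + z)‖ ≤ |g z| * (n * C) := fun z x => by
    rw [norm_smul]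
    exact mul_le_mul_of_nonneg_left (h.norm_fderiv_le _) (abs_nonneg _)
  refine ⟨hasFDerivAt_integral_of_dominated_of_fderiv_le (s := univ)
    (F := fun x z => g z * f (x + z)) (F' := fun x z => g z • fderiv ℝ f (x + z)) univ_mem
    (Eventually.of_forall fun x => (integrable_cv hg hm h.bdd x).1) (integrable_cv hg hm h.bdd x₀)
    hm' (Eventually.of_forall fun z x _ => hb z x) (hg.abs.mul_const _)
    (Eventually.of_forall fun z x _ => ?_),
    Integrable.mono' (hg.abs.mul_const _) hm' (Eventually.of_forall fun z => hb z x₀)⟩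
  have h1 := ((h.1 (x + z)).hasFDerivAt.comp x ((hasFDerivAt_id x).add_const z)).const_mul (g z)
  simpa using h1

theorem pdv_cv {g f : EE n → ℝ} {C : ℝ} (hg : Integrable g) (h : Bd 1 C f) (i : Fin n) :
    pdv i (cv g f) = cv g (pdv i f) := by
  funext x
  obtain ⟨h1, h2⟩ := hasFDerivAt_cv hg h x
  unfold pdv
  rw [h1.fderiv, ContinuousLinearMap.integral_apply h2]
  rfl

theorem Bd.cv {k : ℕ} {g f : EE n → ℝ} {C : ℝ} (h : Bd k C f) (hg : Integrable g) :
    Bd k ((∫ z, |g z|) * C) (cv g f) := by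
  induction k generalizing f with
  | zero => exact ⟨continuous_cv hg h.1 h.2, abs_cv_le hg h.2⟩
  | succ k ih =>
    have h1 : Bd 1 C f := h.of_le (by omega)
    refine ⟨fun x => (hasFDerivAt_cv hg h1 x).1.differentiableAt, abs_cv_le hg h.bdd, fun i => ?_⟩
    rw [pdv_cv hg h1]
    exact ih (h.pdv i)

/-- the constant of the gain lemma -/
def cR (n : ℕ) (μ : ℝ) : ℝ := μ⁻¹ + ∫ z : EE n, G1 μ z * ‖z‖

theorem integral_abs_Gk {μ : ℝ} (hμ : 0 < μ) : ∫ z : EE n, |Gk μ z| = μ⁻¹ := by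
  simp_rw [abs_of_nonneg (Gk_nonneg μ _), integral_Gk hμ]

theorem abs_res_le {μ C : ℝ} (hμ : 0 < μ) {f : EE n → ℝ} (h : ∀ x, |f x| ≤ C) (x : EE n) :
    |res μ f x| ≤ μ⁻¹ * C := by
  rw [← integral_abs_Gk (n := n) hμ]
  exact abs_cv_le (integrable_Gk hμ) h x

theorem integral_abs_G1_le {μ : ℝ} (hμ : 0 < μ) (i : Fin n) :
    ∫ z : EE n, |G1 μ z * z i| ≤ ∫ z : EE n, G1 μ z * ‖z‖ :=
  integral_mono (integrable_G1_coord hμ i).abs (integrable_G1_norm hμ) fun z => by
    simp only [abs_mul, abs_of_nonneg (G1_nonneg μ z)]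
    exact mul_le_mul_of_nonneg_left (PiLp.norm_apply_le z i) (G1_nonneg μ z)

/-- GAIN: the resolvent maps `Cᵏ_b` to `Cᵏ⁺¹_b`. -/
theorem Bd.res {k : ℕ} {μ C : ℝ} {f : EE n → ℝ} (h : Bd k C f) (hμ : 0 < μ) :
    Bd (k + 1) (cR n μ * C) (res μ f) := by
  have hm := h.continuous.aestronglyMeasurable (μ := volume)
  have h0 : 0 ≤ ∫ z : EE n, G1 μ z * ‖z‖ :=
    integral_nonneg fun z => mul_nonneg (G1_nonneg μ z) (norm_nonneg z)
  have h1 : 0 ≤ μ⁻¹ := (inv_pos.2 hμ).le
  refine ⟨fun x => (hasFDerivAt_res hμ hm h.bdd x).differentiableAt, fun x =>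
    (abs_res_le hμ h.bdd x).trans (mul_le_mul_of_nonneg_right ?_ h.nonneg), fun i => ?_⟩
  · unfold cR
    linarith
  · rw [pdv_res hμ hm h.bdd]
    refine (h.cv (integrable_G1_coord hμ i)).mono (mul_le_mul_of_nonneg_right ?_ h.nonneg)
    unfold cR
    linarith [integral_abs_G1_le (n := n) hμ i]

/-! ### Allen-Cahn -/

/-- a bounded solution is the resolvent of `3 v - v³` -/
theorem ac_rep {v : EE n → ℝ} (hv : ContDiff ℝ 2 v) (hb : ∀ x, |v x| ≤ 1)
    (he : ∀ x, (Δ v) x = v x ^ 3 - v x) : v = res 2 fun x => 3 * v x + -1 * (v x * (v x * v x)) := by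
  have h2 : ∀ x, |(Δ v) x| ≤ 2 := fun x => by
    rw [he]
    have h1 : |v x ^ 3| ≤ 1 := by
      rw [abs_pow]
      exact pow_le_one₀ (abs_nonneg _) (hb x)
    linarith [abs_sub (v x ^ 3) (v x), hb x]
  have := rep_res (μ := 2) (a := 0) (M := 2) two_pos le_rfl (by norm_num) hv
    (gr_of_bdd fun x => (hb x).trans one_le_two) (gr_of_bdd h2)
  refine this.trans ?_
  congr 1
  funext x
  rw [he]
  ring

/-- UNIVERSAL `Cᵏ` BOUNDS, coordinate form -/
theorem ac_bd (n k : ℕ) : ∃ C : ℝ, ∀ v : EE n → ℝ, ContDiff ℝ 2 v → (∀ x, |v x| ≤ 1) →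
    (∀ x, (Δ v) x = v x ^ 3 - v x) → Bd k C v := by
  induction k with
  | zero => exact ⟨1, fun v hv hb _ => ⟨hv.continuous, hb⟩⟩
  | succ k ih =>
    obtain ⟨C, hC⟩ := ih
    refine ⟨cR n 2 * (|3| * C + |-1| * (2 ^ k * (C * (2 ^ k * (C * C))))), fun v hv hb he => ?_⟩
    have h := hC v hv hb he
    have h1 := ((h.const_mul 3).add ((h.mul (h.mul h)).const_mul (-1))).res two_pos
    rw [← ac_rep hv hb he] at h1
    exact h1

/-- every bounded `C²` solution is smooth -/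
theorem ac_smooth {v : EE n → ℝ} (hv : ContDiff ℝ 2 v) (hb : ∀ x, |v x| ≤ 1)
    (he : ∀ x, (Δ v) x = v x ^ 3 - v x) : ContDiff ℝ ∞ v := by
  rw [contDiff_infty]
  intro k
  obtain ⟨C, hC⟩ := ac_bd n k
  exact (hC v hv hb he).contDiff

/-- UNIVERSAL `Cᵏ` BOUNDS, `iteratedFDeriv` form -/
theorem ac_iter (n k : ℕ) : ∃ C : ℝ, 0 ≤ C ∧ ∀ v : EE n → ℝ, ContDiff ℝ 2 v → (∀ x, |v x| ≤ 1) →
    (∀ x, (Δ v) x = v x ^ 3 - v x) → ∀ j ≤ k, ∀ x, ‖iteratedFDeriv ℝ j v x‖ ≤ C := by
  obtain ⟨C, hC⟩ := ac_bd n k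
  refine ⟨(n + 1) ^ k * |C|, by positivity, fun v hv hb he j hj x => ?_⟩
  have h := hC v hv hb he
  refine ((h.of_le hj).norm_iteratedFDeriv_le x).trans ?_
  have h0 : (0 : ℝ) ≤ n := Nat.cast_nonneg n
  refine mul_le_mul ?_ (le_abs_self C) h.nonneg (by positivity)
  exact (pow_le_pow_left₀ h0 (by linarith) j).trans (pow_le_pow_right₀ (by linarith) hj)

end

end Crest.Agent.N067.Ker
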