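import Crest.Agent.N067.A.All
import Crest.Agent.N067.K.Defs
import Crest.Agent.N067.E.Defs

/-! Row 67 (helper47): `S0090` from the rigidity of strict solutions. -/

set_option autoImplicit false

open MeasureTheory Laplacian InnerProductSpace
open scoped RealInnerProductSpace Gradient

namespace Crest.Agent.N067

open Crest.Agent.R077

theorem s90_of_seven (h : SevenStmt) : E.S90 := fun v hv hs => by
  rcases dich 7 v hv with h1 | h1 | h1
  · exact Or.inl h1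
  · exact Or.inr (Or.inl h1)
  · exact Or.inr (Or.inr (h v h1 hs))

/-- the literal statement `S0090` -/
theorem s0090_of (h : E.S90) (v : EuclideanSpace ℝ (Fin 7) → ℝ) (hv : ContDiff ℝ 2 v)
    (hrange : ∀ x, v x ∈ Set.Icc (-1 : ℝ) 1) (heq : ∀ x, (Δ v) x = v x ^ 3 - v x)
    (hstable : ∀ φ : EuclideanSpace ℝ (Fin 7) → ℝ, ContDiff ℝ 1 φ → HasCompactSupport φ →
      0 ≤ ∫ x, (‖∇ φ x‖ ^ 2 + (3 * v x ^ 2 - 1) * φ x ^ 2)) :
    (∀ x, v x = 1) ∨ (∀ x, v x = -1) ∨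
      ∃ a : EuclideanSpace ℝ (Fin 7), ‖a‖ = 1 ∧
        ∃ b : ℝ, ∀ x, v x = Real.tanh ((⟪a, x⟫ - b) / Real.sqrt 2) :=
  h v ⟨hv, fun x => abs_le.2 (hrange x), heq⟩ hstable

end Crest.Agent.N067
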