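import Crest.Agent.N067.A.Grad
import Crest.Agent.N067.A.Reg

/-!
# Row 67 basics (helper47): uniform weighted `Cᵏ` bounds for families of functions

`UB ρ k f`: the family `f a` is smooth and every partial derivative of order `≤ k` is bounded by
`C ρ a x` with a constant that does not depend on `a`, `x`.  `UB.gain`: one derivative is gained
from an equation `Δ u = ∑ b_j ∂_j u + g` when the weight is locally comparable.
-/

set_option autoImplicit false

open MeasureTheory Laplacian InnerProductSpace Topology Filter Set Metric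
open scoped RealInnerProductSpace ContDiff Gradient

namespace Crest.Agent.N067

open Crest.Agent.R077

noncomputable section

variable {n : ℕ} {ι : Type*}

/-- smooth and `O(ρ)` uniformly -/
def UB0 (ρ f : ι → EE n → ℝ) : Prop :=
  (∀ a, ContDiff ℝ ∞ (f a)) ∧ ∃ C : ℝ, 0 ≤ C ∧ ∀ a x, |f a x| ≤ C * ρ a x

/-- smooth, all partial derivatives of order `≤ k` are `O(ρ)` uniformly -/
def UB (ρ : ι → EE n → ℝ) : ℕ → (ι → EE n → ℝ) → Prop
  | 0, f => UB0 ρ f
  | k + 1, f => UB0 ρ f ∧ ∀ i, UB ρ k fun a => pdv i (f a)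

/-- nonnegative weight -/
def W0 (ρ : ι → EE n → ℝ) : Prop := ∀ a x, 0 ≤ ρ a x

/-- nonnegative, locally comparable weight -/
def WC (ρ : ι → EE n → ℝ) : Prop :=
  W0 ρ ∧ ∃ A : ℝ, 0 ≤ A ∧ ∀ a x y, dist y x ≤ 1 → ρ a y ≤ A * ρ a x

theorem w0_one : W0 (fun (_ : ι) (_ : EE n) => (1 : ℝ)) := fun _ _ => zero_le_one

theorem wc_one : WC (fun (_ : ι) (_ : EE n) => (1 : ℝ)) :=
  ⟨w0_one, 1, zero_le_one, fun _ _ _ _ => by simp⟩

theorem WC.sqrt {ρ : ι → EE n → ℝ} (h : WC ρ) : WC fun a x => √(ρ a x) := by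
  obtain ⟨_, A, hA, h1⟩ := h
  refine ⟨fun _ _ => Real.sqrt_nonneg _, √A, Real.sqrt_nonneg _, fun a x y hy => ?_⟩
  rw [← Real.sqrt_mul hA]
  exact Real.sqrt_le_sqrt (h1 a x y hy)

variable {ρ ρ' f g : ι → EE n → ℝ} {k : ℕ}

theorem UB.zero (h : UB ρ k f) : UB0 ρ f := by
  cases k with
  | zero => exact h
  | succ k => exact h.1

theorem UB.sm (h : UB ρ k f) (a : ι) : ContDiff ℝ ∞ (f a) := h.zero.1 a

theorem UB.diff (h : UB ρ k f) (a : ι) (x : EE n) : DifferentiableAt ℝ (f a) x :=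
  (h.sm a).differentiable (by simp) x

theorem UB.bd (h : UB ρ k f) : ∃ C : ℝ, 0 ≤ C ∧ ∀ a x, |f a x| ≤ C * ρ a x := h.zero.2

theorem UB.pdv (h : UB ρ (k + 1) f) (i : Fin n) : UB ρ k fun a => pdv i (f a) := h.2 i

theorem UB.of_succ (h : UB ρ (k + 1) f) : UB ρ k f := by
  induction k generalizing f with
  | zero => exact h.1
  | succ k ih => exact ⟨h.1, fun i => ih (h.2 i)⟩

theorem UB.of_le {j : ℕ} (h : UB ρ k f) (hjk : j ≤ k) : UB ρ j f := by
  induction k, hjk using Nat.le_induction with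
  | base => exact h
  | succ k _ ih => exact ih h.of_succ

theorem UB.congr (h : UB ρ k f) (e : ∀ a x, g a x = f a x) : UB ρ k g := by
  rwa [show g = f from funext fun a => funext (e a)]

theorem UB0.mono (h : UB0 ρ f) {A : ℝ} (hA : 0 ≤ A) (hw : ∀ a x, ρ a x ≤ A * ρ' a x) :
    UB0 ρ' f := by
  obtain ⟨h1, C, hC, h2⟩ := h
  refine ⟨h1, C * A, mul_nonneg hC hA, fun a x => (h2 a x).trans ?_⟩
  rw [mul_assoc]
  exact mul_le_mul_of_nonneg_left (hw a x) hC

/-- change of weight -/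
theorem UB.mono (h : UB ρ k f) {A : ℝ} (hA : 0 ≤ A) (hw : ∀ a x, ρ a x ≤ A * ρ' a x) :
    UB ρ' k f := by
  induction k generalizing f with
  | zero => exact UB0.mono h hA hw
  | succ k ih => exact ⟨h.1.mono hA hw, fun i => ih (h.2 i)⟩

theorem UB.mono' (h : UB ρ k f) (hw : ∀ a x, ρ a x ≤ ρ' a x) : UB ρ' k f :=
  h.mono zero_le_one fun a x => by rw [one_mul]; exact hw a x

theorem UB0.add (h : UB0 ρ f) (h' : UB0 ρ g) : UB0 ρ fun a x => f a x + g a x := by
  obtain ⟨h1, C, hC, h2⟩ := h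
  obtain ⟨h3, D, hD, h4⟩ := h'
  refine ⟨fun a => (h1 a).add (h3 a), C + D, add_nonneg hC hD, fun a x => ?_⟩
  rw [add_mul]
  exact (abs_add_le _ _).trans (add_le_add (h2 a x) (h4 a x))

theorem UB.add (h : UB ρ k f) (h' : UB ρ k g) : UB ρ k fun a x => f a x + g a x := by
  induction k generalizing f g with
  | zero => exact UB0.add h h'
  | succ k ih =>
    exact ⟨h.1.add h'.1, fun i => (ih (h.2 i) (h'.2 i)).congr fun a x =>
      pdv_add (h.diff a x) (h'.diff a x) i⟩

theorem UB0.mul (h : UB0 ρ f) (h' : UB0 ρ' g) :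
    UB0 (fun a x => ρ a x * ρ' a x) fun a x => f a x * g a x := by
  obtain ⟨h1, C, hC, h2⟩ := h
  obtain ⟨h3, D, hD, h4⟩ := h'
  refine ⟨fun a => (h1 a).mul (h3 a), C * D, mul_nonneg hC hD, fun a x => ?_⟩
  rw [abs_mul, mul_mul_mul_comm]
  exact mul_le_mul (h2 a x) (h4 a x) (abs_nonneg _) ((abs_nonneg _).trans (h2 a x))

/-- weights multiply -/
theorem UB.mul (h : UB ρ k f) (h' : UB ρ' k g) :
    UB (fun a x => ρ a x * ρ' a x) k fun a x => f a x * g a x := by
  induction k generalizing f g with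
  | zero => exact UB0.mul h h'
  | succ k ih =>
    exact ⟨h.1.mul h'.1, fun i => ((ih (h.2 i) h'.of_succ).add (ih h.of_succ (h'.2 i))).congr
      fun a x => pdv_mul (h.diff a x) (h'.diff a x) i⟩

/-- multiplication by a bounded family, on the left -/
theorem UB.bmul (h : UB (fun _ _ => 1) k f) (h' : UB ρ k g) : UB ρ k fun a x => f a x * g a x :=
  (h.mul h').mono' fun _ _ => (one_mul _).le

/-- multiplication by a bounded family, on the right -/
theorem UB.mulb (h : UB ρ k f) (h' : UB (fun _ _ => 1) k g) : UB ρ k fun a x => f a x * g a x :=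
  (h.mul h').mono' fun _ _ => (mul_one _).le

theorem ub_zero : UB ρ k fun _ _ => 0 := by
  have h0 : UB0 ρ fun _ _ => 0 := ⟨fun _ => contDiff_const, 0, le_rfl, fun _ _ => by simp⟩
  induction k with
  | zero => exact h0
  | succ k ih => exact ⟨h0, fun i => ih.congr fun _ x => pdv_const 0 i x⟩

theorem ub_const (c : ℝ) : UB (fun (_ : ι) (_ : EE n) => 1) k fun _ _ => c := by
  have h0 : UB0 (fun (_ : ι) (_ : EE n) => 1) fun _ _ => c :=
    ⟨fun _ => contDiff_const, |c|, abs_nonneg _, fun _ _ => by simp⟩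
  cases k with
  | zero => exact h0
  | succ k => exact ⟨h0, fun i => ub_zero.congr fun _ x => pdv_const c i x⟩

theorem UB.const_mul (h : UB ρ k f) (c : ℝ) : UB ρ k fun a x => c * f a x := (ub_const c).bmul h

theorem UB.neg (h : UB ρ k f) : UB ρ k fun a x => -f a x :=
  (h.const_mul (-1)).congr fun _ _ => by ring

theorem UB.sub (h : UB ρ k f) (h' : UB ρ k g) : UB ρ k fun a x => f a x - g a x :=
  (h.add h'.neg).congr fun _ _ => by ring

theorem UB.sum {κ : Type*} (s : Finset κ) {F : κ → ι → EE n → ℝ} (h : ∀ j ∈ s, UB ρ k (F j)) :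
    UB ρ k fun a x => ∑ j ∈ s, F j a x := by
  classical
  induction s using Finset.induction_on with
  | empty => exact ub_zero.congr fun _ _ => by simp
  | insert j s hj ih =>
    exact ((h j (Finset.mem_insert_self _ _)).add
      (ih fun l hl => h l (Finset.mem_insert_of_mem hl))).congr fun _ _ => Finset.sum_insert hj

theorem UB.lap (h : UB ρ (k + 2) f) : UB ρ k fun a => Δ (f a) :=
  (UB.sum Finset.univ fun i _ => (h.pdv i).pdv i).congr fun a _ =>
    lap_eq (contDiff_infty.1 (h.sm a) 2).contDiffAt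

/-- finitely many constants -/
theorem ub_bd_all {κ : Type*} [Fintype κ] (hρ : W0 ρ) {F : κ → ι → EE n → ℝ}
    (h : ∀ j, UB ρ k (F j)) : ∃ C : ℝ, 0 ≤ C ∧ ∀ j a x, |F j a x| ≤ C * ρ a x := by
  choose C hC h1 using fun j => (h j).bd
  refine ⟨∑ j, C j, Finset.sum_nonneg fun j _ => hC j, fun j a x => (h1 j a x).trans ?_⟩
  exact mul_le_mul_of_nonneg_right
    (Finset.single_le_sum (fun l _ => hC l) (Finset.mem_univ j)) (hρ a x)

theorem abs_pdv_le_fderiv (u : EE n → ℝ) (i : Fin n) (x : EE n) :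
    |pdv i u x| ≤ ‖fderiv ℝ u x‖ := by
  have := (fderiv ℝ u x).le_opNorm (ev i)
  simpa [pdv] using this

/-- the differentiated equation -/
theorem lap_pdv_eq {u g : EE n → ℝ} {b : Fin n → EE n → ℝ} (hu : ContDiff ℝ ∞ u)
    (hb : ∀ j, ContDiff ℝ ∞ (b j)) (hg : ContDiff ℝ ∞ g)
    (he : ∀ x, (Δ u) x = ∑ j, b j x * pdv j u x + g x) (i : Fin n) (x : EE n) :
    (Δ (pdv i u)) x = ∑ j, b j x * pdv j (pdv i u) x
      + (∑ j, pdv i (b j) x * pdv j u x + pdv i g x) := by
  have h2 : ContDiffAt ℝ 2 u x := (contDiff_infty.1 hu 2).contDiffAt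
  have db : ∀ j, DifferentiableAt ℝ (b j) x := fun j => (hb j).differentiable (by simp) x
  have du : ∀ j, DifferentiableAt ℝ (pdv j u) x := fun j => diffAt_pdv h2 j
  rw [lap_pdv (contDiff_infty.1 hu 3).contDiffAt, show Δ u = _ from funext he,
    pdv_add (f := fun x => ∑ j, b j x * pdv j u x)
      (DifferentiableAt.fun_sum fun j _ => (db j).mul (du j)) (hg.differentiable (by simp) x),
    pdv_sum _ fun j _ => (db j).fun_mul (du j), ← add_assoc, ← Finset.sum_add_distrib]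
  congr 1
  refine Finset.sum_congr rfl fun j _ => ?_
  rw [pdv_mul (db j) (du j), pdv_comm h2 i j]
  ring

theorem UB.gain0 (hρ : WC ρ) {b : Fin n → ι → EE n → ℝ} (hb : ∀ j, UB (fun _ _ => 1) 0 (b j))
    (hg : UB ρ 0 g) (hf : UB ρ 0 f)
    (he : ∀ a x, (Δ (f a)) x = ∑ j, b j a x * R077.pdv j (f a) x + g a x) : UB ρ 1 f := by
  obtain ⟨h0, A, hA, h1⟩ := hρ
  obtain ⟨β, hβ, hb1⟩ := ub_bd_all w0_one hb
  obtain ⟨G, hG, hg1⟩ := hg.bd
  obtain ⟨M, hM, hf1⟩ := hf.bd
  refine ⟨hf, fun i => ⟨fun a => contDiff_pdv (hf.sm a) (by simp) i,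
    4 * n * (n * β + 1) * (M * A) + G * A, by positivity, fun a x => ?_⟩⟩
  refine (abs_pdv_le_fderiv _ i x).trans ?_
  have key := grad_drift (contDiff_infty.1 (hf.sm a) 2) (x := x) (β := n * β)
    (M := M * A * ρ a x) (G := G * A * ρ a x) (by positivity)
    (fun y hy => (hf1 a y).trans (by
      rw [mul_assoc]; exact mul_le_mul_of_nonneg_left (h1 a x y hy) hM))
    (fun y hy => by
      rw [he]
      refine (abs_add_le _ _).trans (add_le_add ?_ ((hg1 a y).trans (by
        rw [mul_assoc]; exact mul_le_mul_of_nonneg_left (h1 a x y hy) hG)))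
      refine (Finset.abs_sum_le_sum_abs _ _).trans ?_
      calc _ ≤ ∑ _j : Fin n, β * ‖fderiv ℝ (f a) y‖ := Finset.sum_le_sum fun j _ => by
            rw [abs_mul]
            exact mul_le_mul (by simpa using hb1 j a y) (abs_pdv_le_fderiv _ j y)
              (abs_nonneg _) hβ
        _ = _ := by simp [mul_assoc])
    (mul_nonneg (mul_nonneg hG hA) (h0 a x))
  refine key.trans (le_of_eq ?_)
  ring

/-- GAIN of one derivative from `Δ f = ∑ b_j ∂_j f + g` -/
theorem UB.gain (hρ : WC ρ) {b : Fin n → ι → EE n → ℝ} (hb : ∀ j, UB (fun _ _ => 1) k (b j))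
    (hg : UB ρ k g) (hf : UB ρ 0 f)
    (he : ∀ a x, (Δ (f a)) x = ∑ j, b j a x * R077.pdv j (f a) x + g a x) : UB ρ (k + 1) f := by
  induction k generalizing f g with
  | zero => exact UB.gain0 hρ hb hg hf he
  | succ k ih =>
    have h1 := ih (fun j => (hb j).of_succ) hg.of_succ hf he
    refine ⟨hf, fun i => ih (fun j => (hb j).of_succ)
      ((UB.sum Finset.univ fun j _ => ((hb j).pdv i).bmul (h1.pdv j)).add (hg.pdv i))
      ((h1.pdv i).of_le (Nat.zero_le _)) fun a x => ?_⟩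
    exact lap_pdv_eq (hf.sm a) (fun j => (hb j).sm a) (hg.sm a) (he a) i x

theorem norm_iter_succ_le {u : EE n → ℝ} (hu : ContDiff ℝ ∞ u) (k : ℕ) (x : EE n) :
    ‖iteratedFDeriv ℝ (k + 1) u x‖ ≤ ∑ i, ‖iteratedFDeriv ℝ k (R077.pdv i u) x‖ := by
  have hp : ∀ i, ContDiff ℝ k (R077.pdv i u) := fun i =>
    contDiff_infty.1 (contDiff_pdv hu (by simp) i) k
  rw [← norm_iteratedFDeriv_fderiv, show fderiv ℝ u = _ from funext (Ker.fderiv_eq_sum_pdv u),
    iteratedFDeriv_fun_sum_apply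
      (f := fun i z => R077.pdv i u z • (EuclideanSpace.proj i : EE n →L[ℝ] ℝ)) fun i _ =>
      ((hp i).smul contDiff_const).contDiffAt]
  refine (norm_sum_le _ _).trans (Finset.sum_le_sum fun i _ => ?_)
  have h1 := (ContinuousLinearMap.toSpanSingleton ℝ
    (EuclideanSpace.proj i : EE n →L[ℝ] ℝ)).norm_iteratedFDeriv_comp_left
    ((hp i).contDiffAt (x := x)) le_rfl
  rw [ContinuousLinearMap.norm_toSpanSingleton] at h1
  exact le_trans h1 (mul_le_of_le_one_left (norm_nonneg _) (Ker.norm_proj_le i))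

/-- conversion to `iteratedFDeriv` -/
theorem UB.iter (h : UB ρ k f) :
    ∃ C : ℝ, 0 ≤ C ∧ ∀ a x, ‖iteratedFDeriv ℝ k (f a) x‖ ≤ C * ρ a x := by
  induction k generalizing f with
  | zero => simpa using h.bd
  | succ k ih =>
    choose C hC h1 using fun i => ih (h.pdv i)
    refine ⟨∑ i, C i, Finset.sum_nonneg fun i _ => hC i, fun a x =>
      (norm_iter_succ_le (h.sm a) k x).trans ?_⟩
    rw [Finset.sum_mul]
    exact Finset.sum_le_sum fun i _ => h1 i a x

/-- conversion to `iteratedFDeriv` when only the gradient is controlled -/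
theorem ub_iter_succ (hf : ∀ a, ContDiff ℝ ∞ (f a)) (h : ∀ i, UB ρ k fun a => R077.pdv i (f a)) :
    ∃ C : ℝ, 0 ≤ C ∧ ∀ a x, ‖iteratedFDeriv ℝ (k + 1) (f a) x‖ ≤ C * ρ a x := by
  choose C hC h1 using fun i => (h i).iter
  refine ⟨∑ i, C i, Finset.sum_nonneg fun i _ => hC i, fun a x =>
    (norm_iter_succ_le (hf a) k x).trans ?_⟩
  rw [Finset.sum_mul]
  exact Finset.sum_le_sum fun i _ => h1 i a x

/-- from helper2's class `Bd` -/
theorem ub_of_bd (hf : ∀ a, ContDiff ℝ ∞ (f a)) {C : ℝ} (h : ∀ a, Ker.Bd k C (f a)) :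
    UB (fun _ _ => 1) k f := by
  have h0 : ∀ {f : ι → EE n → ℝ} {k : ℕ}, (∀ a, ContDiff ℝ ∞ (f a)) → (∀ a, Ker.Bd k C (f a)) →
      UB0 (fun _ _ => 1) f := fun hf h =>
    ⟨hf, |C|, abs_nonneg _, fun a x => by
      rw [mul_one]; exact ((h a).bdd x).trans (le_abs_self C)⟩
  induction k generalizing f with
  | zero => exact h0 hf h
  | succ k ih =>
    exact ⟨h0 hf h, fun i => ih (fun a => contDiff_pdv (hf a) (by simp) i) fun a => (h a).pdv i⟩

end

end Crest.Agent.N067
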